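import Vale.Agent.P098.Cert6.Edge

/-!
P098, dimension six, fields `b^j p` with `j ≤ 3`: the interior inequality reduces to eigenvalue
configurations with a repeated value among the four transversal to the gradient.

The third derivatives enter through three linear functionals and a diagonal with weights affine in
the eigenvalue. With these functionals and the first three power sums fixed, the best value grows
with the fourth power sum, so it is largest at a repeated value.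
-/

open Matrix
open scoped ContDiff

namespace Vale.Agent.P098.Cert6

open Vale.Agent.P098.ReduceN (psum usum hdot diagWeight)
open Vale.Agent.P098.Reduce (hsum)

noncomputable section

/-- A quadratic polynomial. -/
def quad (f₀ f₁ f₂ z : ℝ) : ℝ := f₀ + f₁ * z + f₂ * z ^ 2

/-- The product of four affine values in terms of the power sums of their arguments. -/
def prodPoly (α β p₁ p₂ p₃ p₄ : ℝ) : ℝ :=
  α ^ 4 + α ^ 3 * β * p₁ + α ^ 2 * β ^ 2 * ((p₁ ^ 2 - p₂) / 2) +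
    α * β ^ 3 * ((p₁ ^ 3 - 3 * p₁ * p₂ + 2 * p₃) / 6) +
    β ^ 4 * ((p₁ ^ 4 - 6 * p₁ ^ 2 * p₂ + 3 * p₂ ^ 2 + 8 * p₁ * p₃ - 6 * p₄) / 24)

/-- The sum of the products of three out of four affine values. -/
def threePoly (α β p₁ p₂ p₃ : ℝ) : ℝ :=
  4 * α ^ 3 + 3 * α ^ 2 * β * p₁ + α * β ^ 2 * (p₁ ^ 2 - p₂) +
    β ^ 3 * ((p₁ ^ 3 - 3 * p₁ * p₂ + 2 * p₃) / 6)

/-- The quotient of a squared quadratic by an affine value, summed over four points: a polynomial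
in three power sums and a multiple of the sum of the reciprocals. -/
lemma four_sum (α β f₀ f₁ f₂ : ℝ) : ∃ c₀ c₁ c₂ c₃ : ℝ, ∀ z₀ z₁ z₂ z₃ : ℝ,
    0 < α + β * z₀ → 0 < α + β * z₁ → 0 < α + β * z₂ → 0 < α + β * z₃ →
    β ^ 4 * (quad f₀ f₁ f₂ z₀ ^ 2 / (α + β * z₀) + quad f₀ f₁ f₂ z₁ ^ 2 / (α + β * z₁) +
      quad f₀ f₁ f₂ z₂ ^ 2 / (α + β * z₂) + quad f₀ f₁ f₂ z₃ ^ 2 / (α + β * z₃)) =
    4 * c₀ + c₁ * (z₀ + z₁ + z₂ + z₃) + c₂ * (z₀ ^ 2 + z₁ ^ 2 + z₂ ^ 2 + z₃ ^ 2) +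
      c₃ * (z₀ ^ 3 + z₁ ^ 3 + z₂ ^ 3 + z₃ ^ 3) +
      (f₂ * α ^ 2 - f₁ * α * β + f₀ * β ^ 2) ^ 2 *
        (threePoly α β (z₀ + z₁ + z₂ + z₃) (z₀ ^ 2 + z₁ ^ 2 + z₂ ^ 2 + z₃ ^ 2)
            (z₀ ^ 3 + z₁ ^ 3 + z₂ ^ 3 + z₃ ^ 3) /
          prodPoly α β (z₀ + z₁ + z₂ + z₃) (z₀ ^ 2 + z₁ ^ 2 + z₂ ^ 2 + z₃ ^ 2)
            (z₀ ^ 3 + z₁ ^ 3 + z₂ ^ 3 + z₃ ^ 3) (z₀ ^ 4 + z₁ ^ 4 + z₂ ^ 4 + z₃ ^ 4)) := by
  set g := f₁ * β - α * f₂ with hg
  set r := f₂ * α ^ 2 - f₁ * α * β + f₀ * β ^ 2 with hr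
  refine ⟨g * (β ^ 2 * f₀ + r), f₂ * β * (β ^ 2 * f₀ + r) + g * β ^ 2 * f₁,
    β ^ 3 * f₁ * f₂ + g * β ^ 2 * f₂, β ^ 3 * f₂ ^ 2, fun z₀ z₁ z₂ z₃ h₀ h₁ h₂ h₃ => ?_⟩
  have one : ∀ z, 0 < α + β * z → β ^ 4 * (quad f₀ f₁ f₂ z ^ 2 / (α + β * z)) =
      g * (β ^ 2 * f₀ + r) + (f₂ * β * (β ^ 2 * f₀ + r) + g * β ^ 2 * f₁) * z +
        (β ^ 3 * f₁ * f₂ + g * β ^ 2 * f₂) * z ^ 2 + β ^ 3 * f₂ ^ 2 * z ^ 3 +
        r ^ 2 * (α + β * z)⁻¹ := fun z hz => by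
    rw [hg, hr, quad]
    field_simp
    ring
  have hP : prodPoly α β (z₀ + z₁ + z₂ + z₃) (z₀ ^ 2 + z₁ ^ 2 + z₂ ^ 2 + z₃ ^ 2)
      (z₀ ^ 3 + z₁ ^ 3 + z₂ ^ 3 + z₃ ^ 3) (z₀ ^ 4 + z₁ ^ 4 + z₂ ^ 4 + z₃ ^ 4) =
        (α + β * z₀) * (α + β * z₁) * (α + β * z₂) * (α + β * z₃) := by
    rw [prodPoly]; ring
  have hN : threePoly α β (z₀ + z₁ + z₂ + z₃) (z₀ ^ 2 + z₁ ^ 2 + z₂ ^ 2 + z₃ ^ 2)
      (z₀ ^ 3 + z₁ ^ 3 + z₂ ^ 3 + z₃ ^ 3) =
      (α + β * z₁) * (α + β * z₂) * (α + β * z₃) + (α + β * z₀) * (α + β * z₂) * (α + β * z₃) +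
        (α + β * z₀) * (α + β * z₁) * (α + β * z₃) + (α + β * z₀) * (α + β * z₁) * (α + β * z₂) := by
    rw [threePoly]; ring
  have hI : (α + β * z₀)⁻¹ + (α + β * z₁)⁻¹ + (α + β * z₂)⁻¹ + (α + β * z₃)⁻¹ =
      threePoly α β (z₀ + z₁ + z₂ + z₃) (z₀ ^ 2 + z₁ ^ 2 + z₂ ^ 2 + z₃ ^ 2)
          (z₀ ^ 3 + z₁ ^ 3 + z₂ ^ 3 + z₃ ^ 3) /
        prodPoly α β (z₀ + z₁ + z₂ + z₃) (z₀ ^ 2 + z₁ ^ 2 + z₂ ^ 2 + z₃ ^ 2)
          (z₀ ^ 3 + z₁ ^ 3 + z₂ ^ 3 + z₃ ^ 3) (z₀ ^ 4 + z₁ ^ 4 + z₂ ^ 4 + z₃ ^ 4) := by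
    rw [hP, hN]
    field_simp
  linear_combination one z₀ h₀ + one z₁ h₁ + one z₂ h₂ + one z₃ h₃ + r ^ 2 * hI

/-- With three power sums fixed the sum of quotients grows with the fourth. -/
lemma sum_sq_div_le {α β a b d : ℝ} {z : Fin 4 → ℝ} (hz : ∀ i, 0 < α + β * z i)
    (ha : 0 < α + β * a) (hb : 0 < α + β * b) (hd : 0 < α + β * d)
    (hA : Agree a b d fun k => ∑ i, z i ^ k) (h4 : ∑ i, z i ^ 4 ≤ rep a b d 4) (f₀ f₁ f₂ : ℝ) :
    ∑ i, quad f₀ f₁ f₂ (z i) ^ 2 / (α + β * z i) ≤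
      2 * (quad f₀ f₁ f₂ a ^ 2 / (α + β * a)) + quad f₀ f₁ f₂ b ^ 2 / (α + β * b) +
        quad f₀ f₁ f₂ d ^ 2 / (α + β * d) := by
  obtain ⟨e1, e2, e3⟩ := hA
  simp only [rep, Fin.sum_univ_four, pow_one] at e1 e2 e3 h4
  rw [Fin.sum_univ_four]
  rcases eq_or_ne β 0 with rfl | hβ
  · simp only [zero_mul, add_zero] at ha ⊢
    rw [← add_div, ← add_div, ← add_div, ← mul_div_assoc, ← add_div, ← add_div]
    refine div_le_div_of_nonneg_right ?_ ha.le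
    have := mul_le_mul_of_nonneg_left h4 (sq_nonneg f₂)
    simp only [quad]
    linear_combination this - 2 * f₀ * f₁ * e1 - (f₁ ^ 2 + 2 * f₀ * f₂) * e2 - 2 * f₁ * f₂ * e3
  · obtain ⟨c₀, c₁, c₂, c₃, hid⟩ := four_sum α β f₀ f₁ f₂
    have hx := hid _ _ _ _ (hz 0) (hz 1) (hz 2) (hz 3)
    have he := hid a a b d ha ha hb hd
    have f1 : a + a + b + d = z 0 + z 1 + z 2 + z 3 := by linarith
    have f2 : a ^ 2 + a ^ 2 + b ^ 2 + d ^ 2 = z 0 ^ 2 + z 1 ^ 2 + z 2 ^ 2 + z 3 ^ 2 := by linarith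
    have f3 : a ^ 3 + a ^ 3 + b ^ 3 + d ^ 3 = z 0 ^ 3 + z 1 ^ 3 + z 2 ^ 3 + z 3 ^ 3 := by linarith
    rw [f1, f2, f3] at he
    set p₁ := z 0 + z 1 + z 2 + z 3 with hp1
    set p₂ := z 0 ^ 2 + z 1 ^ 2 + z 2 ^ 2 + z 3 ^ 2 with hp2
    set p₃ := z 0 ^ 3 + z 1 ^ 3 + z 2 ^ 3 + z 3 ^ 3 with hp3
    have hprod : prodPoly α β p₁ p₂ p₃ (z 0 ^ 4 + z 1 ^ 4 + z 2 ^ 4 + z 3 ^ 4) =
        (α + β * z 0) * (α + β * z 1) * (α + β * z 2) * (α + β * z 3) := by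
      rw [prodPoly, hp1, hp2, hp3]; ring
    have hprod' : prodPoly α β p₁ p₂ p₃ (a ^ 4 + a ^ 4 + b ^ 4 + d ^ 4) =
        (α + β * a) * (α + β * a) * (α + β * b) * (α + β * d) := by
      rw [← f1, ← f2, ← f3, prodPoly]; ring
    have hthree : 0 < threePoly α β p₁ p₂ p₃ := by
      have := hz 0; have := hz 1; have := hz 2; have := hz 3
      rw [show threePoly α β p₁ p₂ p₃ =
        (α + β * z 1) * (α + β * z 2) * (α + β * z 3) + (α + β * z 0) * (α + β * z 2) * (α + β * z 3) +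
          (α + β * z 0) * (α + β * z 1) * (α + β * z 3) + (α + β * z 0) * (α + β * z 1) * (α + β * z 2)
        by rw [threePoly, hp1, hp2, hp3]; ring]
      positivity
    have hle : prodPoly α β p₁ p₂ p₃ (a ^ 4 + a ^ 4 + b ^ 4 + d ^ 4) ≤
        prodPoly α β p₁ p₂ p₃ (z 0 ^ 4 + z 1 ^ 4 + z 2 ^ 4 + z 3 ^ 4) := by
      have h4' : z 0 ^ 4 + z 1 ^ 4 + z 2 ^ 4 + z 3 ^ 4 ≤ a ^ 4 + a ^ 4 + b ^ 4 + d ^ 4 := by linarith
      simp only [prodPoly]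
      linear_combination mul_le_mul_of_nonneg_left h4' (show 0 ≤ β ^ 4 / 4 by positivity)
    have hpos : 0 < prodPoly α β p₁ p₂ p₃ (a ^ 4 + a ^ 4 + b ^ 4 + d ^ 4) := by
      rw [hprod']; positivity
    have key := mul_le_mul_of_nonneg_left
      (div_le_div_of_nonneg_left hthree.le hpos hle)
      (sq_nonneg (f₂ * α ^ 2 - f₁ * α * β + f₀ * β ^ 2))
    refine le_of_mul_le_mul_left ?_ (show 0 < β ^ 4 by positivity)
    linear_combination key + hx - he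

/-- Values at three distinct points with prescribed moments of degree at most two. -/
lemma exists_values {a b d : ℝ} (hab : a - b ≠ 0) (had : a - d ≠ 0) (hbd : b - d ≠ 0)
    (l₀ l₁ l₂ : ℝ) : ∃ va vb vd, 2 * va + vb + vd = l₀ ∧ 2 * (a * va) + b * vb + d * vd = l₁ ∧
      2 * (a ^ 2 * va) + b ^ 2 * vb + d ^ 2 * vd = l₂ := by
  refine ⟨(l₂ - (b + d) * l₁ + b * d * l₀) / (2 * ((a - b) * (a - d))),
    -(l₂ - (a + d) * l₁ + a * d * l₀) / ((a - b) * (b - d)),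
    (l₂ - (a + b) * l₁ + a * b * l₀) / ((a - d) * (b - d)), ?_, ?_, ?_⟩ <;>
    (field_simp; ring)

/-- A quadratic with prescribed values at three distinct points. -/
lemma exists_quad {a b d : ℝ} (hab : a - b ≠ 0) (had : a - d ≠ 0) (hbd : b - d ≠ 0)
    (A B D : ℝ) : ∃ f₀ f₁ f₂, quad f₀ f₁ f₂ a = A ∧ quad f₀ f₁ f₂ b = B ∧ quad f₀ f₁ f₂ d = D := by
  refine ⟨b * d * A / ((a - b) * (a - d)) - a * d * B / ((a - b) * (b - d)) +
      a * b * D / ((a - d) * (b - d)),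
    -(b + d) * A / ((a - b) * (a - d)) + (a + d) * B / ((a - b) * (b - d)) -
      (a + b) * D / ((a - d) * (b - d)),
    A / ((a - b) * (a - d)) - B / ((a - b) * (b - d)) + D / ((a - d) * (b - d)), ?_, ?_, ?_⟩ <;>
    (rw [quad]; field_simp; ring)

/-- Four values are dominated by a configuration with a repeated value and the same three
functionals. -/
theorem edge_dominates {α β : ℝ} (x v : Fin 4 → ℝ) (hw : ∀ i, 0 < α + β * x i)
    (hw' : ∀ a b d, Agree a b d (fun k => ∑ i, x i ^ k) →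
      0 < α + β * a ∧ 0 < α + β * b ∧ 0 < α + β * d) :
    ∃ a b d va vb vd, Agree a b d (fun k => ∑ i, x i ^ k) ∧ ∑ i, x i ^ 4 ≤ rep a b d 4 ∧
      2 * va + vb + vd = ∑ i, v i ∧ 2 * (a * va) + b * vb + d * vd = ∑ i, x i * v i ∧
      2 * (a ^ 2 * va) + b ^ 2 * vb + d ^ 2 * vd = ∑ i, x i ^ 2 * v i ∧
      2 * ((α + β * a) * va ^ 2) + (α + β * b) * vb ^ 2 + (α + β * d) * vd ^ 2 ≤
        ∑ i, (α + β * x i) * v i ^ 2 := by
  set σ := Tuple.sort x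
  set w := x ∘ σ with hwdef
  set u := v ∘ σ with hudef
  have hsum : ∀ f : ℝ → ℝ → ℝ, ∑ i, f (x i) (v i) =
      f (w 0) (u 0) + f (w 1) (u 1) + f (w 2) (u 2) + f (w 3) (u 3) := fun f => by
    rw [← Equiv.sum_comp σ (fun i => f (x i) (v i)), Fin.sum_univ_four]
    rfl
  have hp : ∀ k, ∑ i, x i ^ k = w 0 ^ k + w 1 ^ k + w 2 ^ k + w 3 ^ k :=
    fun k => hsum fun z _ => z ^ k
  have hwp : ∀ i, 0 < α + β * w i := fun i => hw (σ i)
  rw [hsum (fun _ y => y), hsum (fun z y => z * y), hsum (fun z y => z ^ 2 * y),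
    hsum (fun z y => (α + β * z) * y ^ 2)]
  simp only [hp] at hw' ⊢
  have hm : Monotone w := Tuple.monotone_sort x
  have triv : ∀ a b d p q r e : ℝ, 0 < α + β * a →
      (∀ k, 2 * a ^ k + b ^ k + d ^ k = w 0 ^ k + w 1 ^ k + w 2 ^ k + w 3 ^ k) →
      p + q + r + e = u 0 + u 1 + u 2 + u 3 →
      a * (p + q) + b * r + d * e = w 0 * u 0 + w 1 * u 1 + w 2 * u 2 + w 3 * u 3 →
      a ^ 2 * (p + q) + b ^ 2 * r + d ^ 2 * e =
        w 0 ^ 2 * u 0 + w 1 ^ 2 * u 1 + w 2 ^ 2 * u 2 + w 3 ^ 2 * u 3 →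
      (α + β * a) * (p ^ 2 + q ^ 2) + (α + β * b) * r ^ 2 + (α + β * d) * e ^ 2 =
        (α + β * w 0) * u 0 ^ 2 + (α + β * w 1) * u 1 ^ 2 + (α + β * w 2) * u 2 ^ 2 +
          (α + β * w 3) * u 3 ^ 2 →
      ∃ a b d va vb vd, Agree a b d (fun k => w 0 ^ k + w 1 ^ k + w 2 ^ k + w 3 ^ k) ∧
        w 0 ^ 4 + w 1 ^ 4 + w 2 ^ 4 + w 3 ^ 4 ≤ rep a b d 4 ∧
        2 * va + vb + vd = u 0 + u 1 + u 2 + u 3 ∧
        2 * (a * va) + b * vb + d * vd = w 0 * u 0 + w 1 * u 1 + w 2 * u 2 + w 3 * u 3 ∧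
        2 * (a ^ 2 * va) + b ^ 2 * vb + d ^ 2 * vd =
          w 0 ^ 2 * u 0 + w 1 ^ 2 * u 1 + w 2 ^ 2 * u 2 + w 3 ^ 2 * u 3 ∧
        2 * ((α + β * a) * va ^ 2) + (α + β * b) * vb ^ 2 + (α + β * d) * vd ^ 2 ≤
          (α + β * w 0) * u 0 ^ 2 + (α + β * w 1) * u 1 ^ 2 + (α + β * w 2) * u 2 ^ 2 +
            (α + β * w 3) * u 3 ^ 2 := by
    intro a b d p q r e ha hk h0 h1 h2 hq
    refine ⟨a, b, d, (p + q) / 2, r, e, ⟨hk 1, hk 2, hk 3⟩, (hk 4).ge, by linarith, by linarith,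
      by linarith, ?_⟩
    linarith [mul_nonneg ha.le (sq_nonneg (p - q))]
  rcases eq_or_lt_of_le (hm (show (0 : Fin 4) ≤ 1 by decide)) with e | h01
  · exact triv (w 0) (w 2) (w 3) (u 0) (u 1) (u 2) (u 3) (hwp 0) (fun k => by rw [← e]; ring)
      rfl (by rw [← e]; ring) (by rw [← e]; ring) (by rw [← e]; ring)
  rcases eq_or_lt_of_le (hm (show (1 : Fin 4) ≤ 2 by decide)) with e | h12
  · exact triv (w 1) (w 0) (w 3) (u 1) (u 2) (u 0) (u 3) (hwp 1) (fun k => by rw [← e]; ring)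
      (by ring) (by rw [← e]; ring) (by rw [← e]; ring) (by rw [← e]; ring)
  rcases eq_or_lt_of_le (hm (show (2 : Fin 4) ≤ 3 by decide)) with e | h23
  · exact triv (w 2) (w 0) (w 1) (u 2) (u 3) (u 0) (u 1) (hwp 2) (fun k => by rw [← e]; ring)
      (by ring) (by rw [← e]; ring) (by rw [← e]; ring) (by rw [← e]; ring)
  set q := fun z => (z - w 0) * (z - w 1) * (z - w 2) * (z - w 3) with hqdef
  have hq : ∀ z, q z = (z - w 0) * (z - w 1) * (z - w 2) * (z - w 3) := fun _ => rfl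
  obtain ⟨a, a1, a2, hda⟩ := exists_crit (w₀ := w 0) (w₁ := w 1) (w₂ := w 2) (w₃ := w 3) h12
    (by simp) (by simp)
  have hpos : 0 < q a := mul_pos_of_neg_of_neg (mul_neg_of_pos_of_neg
    (mul_pos (by linarith) (by linarith)) (by linarith)) (by linarith)
  obtain ⟨b, d, hA, h4⟩ := double_of_crit hq hda (x₀ := w 1) (ne_of_lt a1)
    (by rw [hq (w 1), sub_self, mul_zero, zero_mul, zero_mul]; exact hpos.le)
  obtain ⟨wa, wb, wd⟩ := hw' a b d hA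
  have hout : ∀ z, q z = 0 → (z - b) * (z - d) < 0 := by
    intro z hz
    obtain ⟨e1, e2, -⟩ := hA
    simp only [rep, pow_one] at e1 e2
    set S := w 0 + w 1 + w 2 + w 3 - 2 * a with hS
    have hS' : b + d = S := by linarith
    have hK : b * d = w 0 * w 1 + w 0 * w 2 + w 0 * w 3 + w 1 * w 2 + w 1 * w 3 + w 2 * w 3 -
        a ^ 2 - 2 * a * S := by
      rw [hS] at hS' ⊢
      linear_combination (b + d + S) / 2 * hS' - e2 / 2
    have hid : q z = q a + (z - a) ^ 2 * ((z - b) * (z - d)) := by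
      rw [show (z - b) * (z - d) = z ^ 2 - (b + d) * z + b * d by ring, hS', hK, hS, hq, hq]
      linear_combination (z - a) * hda
    by_contra h
    have := mul_nonneg (sq_nonneg (z - a)) (not_lt.1 h)
    linarith
  have o0 := hout (w 0) (by simp [hq])
  have o3 := hout (w 3) (by simp [hq])
  have hbd : b - d ≠ 0 := fun e => by
    rw [sub_eq_zero.1 e] at o0; linarith [mul_self_nonneg (w 0 - d)]
  have hab : a - b ≠ 0 := fun e => by
    rw [← sub_eq_zero.1 e] at o0 o3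
    rcases mul_neg_iff.1 o0 with ⟨h, h'⟩ | ⟨h, h'⟩ <;>
      rcases mul_neg_iff.1 o3 with ⟨k, k'⟩ | ⟨k, k'⟩ <;> linarith
  have had : a - d ≠ 0 := fun e => by
    rw [← sub_eq_zero.1 e] at o0 o3
    rcases mul_neg_iff.1 o0 with ⟨h, h'⟩ | ⟨h, h'⟩ <;>
      rcases mul_neg_iff.1 o3 with ⟨k, k'⟩ | ⟨k, k'⟩ <;> linarith
  set l₀ := u 0 + u 1 + u 2 + u 3 with hl0
  set l₁ := w 0 * u 0 + w 1 * u 1 + w 2 * u 2 + w 3 * u 3 with hl1
  set l₂ := w 0 ^ 2 * u 0 + w 1 ^ 2 * u 1 + w 2 ^ 2 * u 2 + w 3 ^ 2 * u 3 with hl2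
  obtain ⟨va, vb, vd, i0, i1, i2⟩ := exists_values hab had hbd l₀ l₁ l₂
  refine ⟨a, b, d, va, vb, vd, hA, by rw [h4]; linarith, i0, i1, i2, ?_⟩
  -- the multiplier takes the values `(α + β z) v` at the three distinct values
  obtain ⟨f₀, f₁, f₂, qa, qb, qd⟩ :=
    exists_quad hab had hbd ((α + β * a) * va) ((α + β * b) * vb) ((α + β * d) * vd)
  have hA' : Agree a b d fun k => ∑ i, w i ^ k := by
    simpa only [Fin.sum_univ_four] using hA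
  have key := sum_sq_div_le hwp wa wb wd hA'
    (by rw [Fin.sum_univ_four, h4]; linarith) f₀ f₁ f₂
  rw [qa, qb, qd, Fin.sum_univ_four] at key
  have cs : ∀ i, 2 * (quad f₀ f₁ f₂ (w i) * u i) - quad f₀ f₁ f₂ (w i) ^ 2 / (α + β * w i) ≤
      (α + β * w i) * u i ^ 2 := fun i => by
    have h := hwp i
    rw [sub_le_iff_le_add, ← sub_nonneg,
      show (α + β * w i) * u i ^ 2 + quad f₀ f₁ f₂ (w i) ^ 2 / (α + β * w i) -
          2 * (quad f₀ f₁ f₂ (w i) * u i) =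
        ((α + β * w i) * u i - quad f₀ f₁ f₂ (w i)) ^ 2 / (α + β * w i) by field_simp; ring]
    positivity
  have hself : ∀ z y : ℝ, 0 < α + β * z → ((α + β * z) * y) ^ 2 / (α + β * z) =
      (α + β * z) * y ^ 2 := fun z y hz => by field_simp
  rw [hself a va wa, hself b vb wb, hself d vd wd] at key
  have lin : quad f₀ f₁ f₂ (w 0) * u 0 + quad f₀ f₁ f₂ (w 1) * u 1 + quad f₀ f₁ f₂ (w 2) * u 2 +
      quad f₀ f₁ f₂ (w 3) * u 3 =
      2 * ((α + β * a) * va ^ 2) + (α + β * b) * vb ^ 2 + (α + β * d) * vd ^ 2 := by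
    calc _ = f₀ * l₀ + f₁ * l₁ + f₂ * l₂ := by simp only [quad, hl0, hl1, hl2]; ring
      _ = 2 * (quad f₀ f₁ f₂ a * va) + quad f₀ f₁ f₂ b * vb + quad f₀ f₁ f₂ d * vd := by
        rw [← i0, ← i1, ← i2]; simp only [quad]; ring
      _ = _ := by rw [qa, qb, qd]; ring
  linarith [cs 0, cs 1, cs 2, cs 3]

/-- The constant of the weight of a squared third derivative, with the margin. -/
def weightConst (J : Coefs fields Jet) (t μ : ℝ) : ℝ :=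
  -(3 * (J.A 0).1 + 2 * μ * (J.A 1).1 + μ ^ 2 * (J.X 0).1 + t)

/-- The slope of the weight in the eigenvalue. -/
def weightSlope (J : Coefs fields Jet) (μ : ℝ) : ℝ := -(4 * (J.A 1).1 - 4 * μ * (J.X 0).1)

/-- `ρ^(-E)` times the differential of `ρ^E g` in terms of the moments. -/
def momDiff (X : Jet) (E S₃ μ u₁ u₂ q R : ℝ) : ℝ :=
  (E * X.1 - 3 * S₃ * X.2.2.2) * u₁ + 3 * X.2.2.2 * u₂ + q * (X.2.1 + 2 * μ * R * X.2.2.1)

/-- The form without the diagonal and the fourth power sum, in terms of the moments. -/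
def momForm (J : Coefs fields Jet) (t μ S₂ S₃ l₀ l₁ l₂ s q R y : ℝ) : ℝ :=
  let u₁ := l₁ - μ * l₀
  let u₂ := l₂ - μ ^ 2 * l₀
  let δ := fun (X : Jet) (E : ℝ) => momDiff X E S₃ μ u₁ u₂ q R
  let h₃ := l₂ + μ * l₁ - 2 * μ ^ 2 * l₀
  let fld := fun (e : Fin 2) =>
    q * (δ (J.C e 0) (1 + (e : ℕ))) - (J.C e 0).1 * (5 * s) +
      (q * (μ * δ (J.C e 1) (e : ℕ)) + (J.C e 1).1 * (R * S₂)) +
      (q * (μ ^ 2 * δ (J.C e 2) (-1 + (e : ℕ)) + (J.C e 2).1 * u₁) +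
        (J.C e 2).1 * (R * S₃ - s * S₂)) +
      (q * (μ ^ 3 * δ (J.C e 3) (-2 + (e : ℕ)) + (J.C e 3).1 * h₃) - (J.C e 3).1 * (s * S₃))
  y * δ J.G 1 - y ^ 2 * J.G.1 + δ (J.A 0) (-1) * u₁ + δ (J.A 1) (-2) * u₂ +
    ((J.A 0).1 + 2 * μ * (J.A 1).1 - μ ^ 2 * (J.X 0).1 + t) * l₀ ^ 2 +
    (δ (J.X 0) (-3) * (μ ^ 2 * u₁ - μ * u₂) + (J.X 0).1 * u₁ ^ 2) +
    (fld 0 + R * fld 1) +
    (4 * J.G.1 + 5 * (J.A 0).1 * S₂ + 5 * (J.A 1).1 * S₃ + (J.X 0).1 * S₂ ^ 2) +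
    t * (y ^ 2 + 1)

/-- The diagonal weights. -/
lemma diag_eq (J : Coefs fields Jet) (l : Fin 5 → ℝ) (c i : Fin 5) :
    diagWeight (kerAt J l) c i = if i = c then
      (J.A 0).1 + 2 * l c * (J.A 1).1 - l c ^ 2 * (J.X 0).1
    else -(weightConst J 0 (l c) + weightSlope J (l c) * l i) := by
  rcases eq_or_ne i c with rfl | h
  · simp [diagWeight, kerAt, kerV, Fin.sum_univ_two, hsum]
    ring
  · rw [if_neg h]
    simp [diagWeight, if_neg h, kerAt, kerV, Fin.sum_univ_two, hsum, weightConst, weightSlope]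
    ring

/-- The form through moments. -/
lemma form_eq (J : Coefs fields Jet) (hC : ∀ e, J.C e 4 = 0) (t : ℝ) {l v : Fin 5 → ℝ}
    (hl : ∑ i, l i = 0) (hv : ∑ i, v i = 0) (c : Fin 5) (s q R y : ℝ) :
    form J l c v s q 1 R y + t * ((∑ i, v i ^ 2) + y ^ 2 + 1) =
      momForm J t (l c) (psum l 2) (psum l 3) (∑ a, v (c.succAbove a))
        (∑ a, l (c.succAbove a) * v (c.succAbove a))
        (∑ a, l (c.succAbove a) ^ 2 * v (c.succAbove a)) s q R y +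
      R * ((J.C 0 3).1 + R * (J.C 1 3).1) * psum l 4 -
      ∑ a, (weightConst J t (l c) + weightSlope J (l c) * l (c.succAbove a)) *
        v (c.succAbove a) ^ 2 := by
  set μ := l c
  set m₀ := ∑ a, v (c.succAbove a)
  set m₁ := ∑ a, l (c.succAbove a) * v (c.succAbove a)
  set m₂ := ∑ a, l (c.succAbove a) ^ 2 * v (c.succAbove a)
  have hvc : v c = -m₀ := by
    rw [Fin.sum_univ_succAbove _ c] at hv
    linarith
  have hS1 : psum l 1 = 0 := by simpa [psum] using hl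
  have hU1 : usum l v 1 = m₁ - μ * m₀ := by
    simp only [usum, pow_one]
    rw [Fin.sum_univ_succAbove _ c, hvc]
    ring
  have hU2 : usum l v 2 = m₂ - μ ^ 2 * m₀ := by
    simp only [usum]
    rw [Fin.sum_univ_succAbove _ c, hvc]
    ring
  have hH0 : hdot l v 0 c = 0 := by simp [hdot, hsum]
  have hH1 : hdot l v 1 c = 0 := by simp [hdot, hsum, hv]
  have hH2 : hdot l v 2 c = m₁ - μ * m₀ := by
    rw [← hU1]
    simp only [hdot, usum, hsum, pow_one, pow_zero, zero_mul, zero_add, one_mul, add_mul,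
      Finset.sum_add_distrib, ← Finset.mul_sum, hv, mul_zero]
  have hH3 : hdot l v 3 c = m₂ + μ * m₁ - 2 * μ ^ 2 * m₀ := by
    have : hdot l v 3 c = μ * hdot l v 2 c + usum l v 2 := by
      simp only [hdot, usum, Finset.mul_sum, ← Finset.sum_add_distrib]
      exact Finset.sum_congr rfl fun i _ => by rw [hsum]; ring
    rw [this, hH2, hU2]
    ring
  have hv2 : ∑ i, v i ^ 2 = m₀ ^ 2 + ∑ a, v (c.succAbove a) ^ 2 := by
    rw [Fin.sum_univ_succAbove _ c, hvc, neg_sq]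
  have hW : ∑ i, diagWeight (kerAt J l) c i * v i ^ 2 =
      ((J.A 0).1 + 2 * μ * (J.A 1).1 - μ ^ 2 * (J.X 0).1) * m₀ ^ 2 -
        ∑ a, (weightConst J t μ + weightSlope J μ * l (c.succAbove a)) * v (c.succAbove a) ^ 2 -
        t * ∑ a, v (c.succAbove a) ^ 2 := by
    rw [Fin.sum_univ_succAbove _ c, diag_eq, if_pos rfl, hvc, neg_sq, Finset.mul_sum,
      sub_sub, ← Finset.sum_add_distrib, sub_eq_add_neg _ (∑ a : Fin 4, _), ← Finset.sum_neg_distrib]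
    refine congrArg _ (Finset.sum_congr rfl fun a _ => ?_)
    rw [diag_eq, if_neg (Fin.succAbove_ne c a)]
    simp only [weightConst]
    ring
  rw [form, hW, hv2]
  simp [Fin.sum_univ_two, Fin.sum_univ_five, omega, dH, momForm, momDiff, hC, hU1, hU2, hH0, hH1,
    hH2, hH3, hS1]
  ring

/-- The eigenvalues `(μ; a, a, b, d)`. -/
def edgeEig (μ a b d : ℝ) : Fin 5 → ℝ := ![μ, a, a, b, d]

variable {K : Coefs fields (ℝ × ℝ × ℝ → ℝ)} {t : ℝ}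

/-- The jets of a vanishing coefficient vanish. -/
lemma jetsAt_C_four (hC : ∀ e, K.C e 4 = 0) (l : Fin 5 → ℝ) (s P : ℝ) (e : Fin 2) :
    (jetsAt K l s P).C e 4 = 0 := by
  show jetOf (K.C e 4) _ = 0
  rw [hC e]
  simp [jetOf, fderiv_zero]

/-- The interior inequality from the configurations with a repeated value among the four
transversal eigenvalues: fields `b^j p` with `j ≤ 3`, negative weights, and nonnegative
coefficients of `b³ p`. -/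
theorem interior_of_edge (hC : ∀ e, K.C e 4 = 0)
    (hweight : ∀ l : Fin 5 → ℝ, ∑ i, l i = 0 → psum l 2 = 1 → ∀ s P : ℝ, 0 ≤ s → s ^ 2 ≤ P →
      P ≤ 1 → ∀ c i : Fin 5, i ≠ c → diagWeight (kerAt (jetsAt K l s P) l) c i + t < 0)
    (hsign : ∀ l : Fin 5 → ℝ, ∑ i, l i = 0 → psum l 2 = 1 → ∀ s P : ℝ, 0 ≤ s → s ^ 2 ≤ P →
      P ≤ 1 → ∀ e : Fin 2, 0 ≤ ((jetsAt K l s P).C e 3).1)
    (hedge : ∀ μ a b d : ℝ, μ + 2 * a + b + d = 0 →
      μ ^ 2 + 2 * a ^ 2 + b ^ 2 + d ^ 2 = 1 →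
      ∀ va vb vd s q R y : ℝ, 0 ≤ s → 0 ≤ q → s ^ 2 + q ^ 2 ≤ 1 → 0 < R →
        form (jetsAt K (edgeEig μ a b d) s (s ^ 2 + q ^ 2)) (edgeEig μ a b d) 0
            ![-(2 * va + vb + vd), va, va, vb, vd] s q 1 R y +
          t * ((∑ i, (![-(2 * va + vb + vd), va, va, vb, vd] : Fin 5 → ℝ) i ^ 2) + y ^ 2 + 1) ≤ 0) :
    ∀ l : Fin 5 → ℝ, ∑ i, l i = 0 → psum l 2 = 1 → ∀ (c : Fin 5) (v : Fin 5 → ℝ),
      ∑ i, v i = 0 → ∀ s q R y : ℝ, 0 ≤ s → 0 ≤ q → s ^ 2 + q ^ 2 ≤ 1 → 0 < R →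
        form (jetsAt K l s (s ^ 2 + q ^ 2)) l c v s q 1 R y +
          t * ((∑ i, v i ^ 2) + y ^ 2 + 1) ≤ 0 := by
  intro l hl hl2 c v hv s q R y hs hq hle hR
  set P := s ^ 2 + q ^ 2 with hP
  have hsP : s ^ 2 ≤ P := le_add_of_nonneg_right (sq_nonneg q)
  set J := jetsAt K l s P
  set x := fun a => l (c.succAbove a)
  have hp : ∀ k, psum l k = l c ^ k + ∑ a, x a ^ k := fun k => by
    rw [psum, Fin.sum_univ_succAbove _ c]
  have hwpos : ∀ (l' : Fin 5 → ℝ) (c' i : Fin 5), ∑ i, l' i = 0 → psum l' 2 = 1 →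
      psum l' 3 = psum l 3 → l' c' = l c → i ≠ c' →
      0 < weightConst J t (l c) + weightSlope J (l c) * l' i := by
    intro l' c' i h1 h2 h3 hc' hi
    have := hweight l' h1 h2 s P hs hsP hle c' i hi
    rw [show jetsAt K l' s P = J by simp only [J, jetsAt, h3], diag_eq, if_neg hi, hc'] at this
    simp only [weightConst] at this ⊢
    linarith
  have hE : ∀ (a b d : ℝ), Agree a b d (fun k => ∑ i, x i ^ k) →
      ∑ i, edgeEig (l c) a b d i = 0 ∧ psum (edgeEig (l c) a b d) 2 = 1 ∧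
        psum (edgeEig (l c) a b d) 3 = psum l 3 := by
    rintro a b d ⟨e1, e2, e3⟩
    have := hp 1; have := hp 2; have := hp 3
    simp only [rep, pow_one] at e1 e2 e3
    have hl1 : psum l 1 = 0 := by simpa [psum] using hl
    simp [psum, edgeEig, Fin.sum_univ_five] at *
    refine ⟨?_, ?_, ?_⟩ <;> linarith
  obtain ⟨a, b, d, va, vb, vd, hA, h4, i0, i1, i2, hQ⟩ := edge_dominates x
    (fun a => v (c.succAbove a))
    (α := weightConst J t (l c)) (β := weightSlope J (l c))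
    (fun a => hwpos l c (c.succAbove a) hl hl2 rfl rfl (Fin.succAbove_ne c a))
    (fun a b d hA => by
      obtain ⟨f1, f2, f3⟩ := hE a b d hA
      refine ⟨?_, ?_, ?_⟩
      · simpa [edgeEig] using hwpos _ 0 1 f1 f2 f3 rfl (by decide)
      · simpa [edgeEig] using hwpos _ 0 3 f1 f2 f3 rfl (by decide)
      · simpa [edgeEig] using hwpos _ 0 4 f1 f2 f3 rfl (by decide))
  obtain ⟨f1, f2, f3⟩ := hE a b d hA
  set l' := edgeEig (l c) a b d
  set v' : Fin 5 → ℝ := ![-(2 * va + vb + vd), va, va, vb, vd]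
  have hJ : jetsAt K l' s P = J := by simp only [J, jetsAt, f3]
  have hv' : ∑ i, v' i = 0 := by simp [v', Fin.sum_univ_five]; ring
  have h := hedge (l c) a b d (by simpa [l', edgeEig, Fin.sum_univ_five, two_mul, add_assoc] using f1)
    (by
      have := f2
      simp [psum, l', edgeEig, Fin.sum_univ_five] at this
      linarith) va vb vd s q R y hs hq hle hR
  rw [form_eq _ (jetsAt_C_four hC l' s _) t f1 hv' 0] at h
  rw [form_eq _ (jetsAt_C_four hC l s _) t hl hv c]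
  refine le_trans ?_ h
  rw [hJ, f2, f3, hl2]
  simp only [Fin.sum_univ_four, Fin.zero_succAbove]
  have hκ : 0 ≤ R * ((J.C 0 3).1 + R * (J.C 1 3).1) := mul_nonneg hR.le
    (add_nonneg (hsign l hl hl2 s P hs hsP hle 0) (mul_nonneg hR.le (hsign l hl hl2 s P hs hsP hle 1)))
  have hS4 : psum l 4 ≤ psum l' 4 := by
    rw [hp 4]
    simp [psum, l', edgeEig, Fin.sum_univ_five, rep] at h4 ⊢
    linarith
  simp only [Fin.sum_univ_four, x] at i0 i1 i2 hQ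
  simp [l', v', edgeEig] at *
  rw [← i0, ← i1, ← i2]
  have := mul_le_mul_of_nonneg_left hS4 hκ
  ring_nf at this hQ ⊢
  linarith

end

end Vale.Agent.P098.Cert6
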