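import Vale.Agent.P098.Cert6.Edge
import Vale.Agent.P098.Cert6.DoubleRoot

/-!
P098, dimension six: a certificate from the polynomial conditions and the form at the configurations
with a repeated value.
-/

namespace Vale.Agent.P098.Cert6

open Vale.Agent.P098.ReduceN (psum diagWeight)

noncomputable section

/-- The coefficient with given parts is as smooth as they are. -/
lemma contDiff_fn {g : Aff} (h1 : ContDiff ℝ 2 g.1) (h2 : ContDiff ℝ 2 g.2) :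
    ContDiff ℝ 2 g.fn := by
  have hp : ContDiff ℝ 2 fun w : ℝ × ℝ × ℝ => (w.1, w.2.1) :=
    contDiff_fst.prodMk (contDiff_fst.comp contDiff_snd)
  exact (h1.comp hp).add ((contDiff_snd.comp contDiff_snd).mul (h2.comp hp))

/-- The certificate of dimension six from its parts. -/
theorem certificate_of_parts {V : Coefs fields Aff} {t : ℝ} (ht : 0 < t)
    (hG : ContDiff ℝ 2 V.G.1 ∧ ContDiff ℝ 2 V.G.2)
    (hA : ∀ m, ContDiff ℝ 2 (V.A m).1 ∧ ContDiff ℝ 2 (V.A m).2)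
    (hX : ∀ k, ContDiff ℝ 2 (V.X k).1 ∧ ContDiff ℝ 2 (V.X k).2)
    (hC : ∀ e j, ContDiff ℝ 2 (V.C e j).1 ∧ ContDiff ℝ 2 (V.C e j).2)
    (hC4 : ∀ e, (V.C e 4).fn = 0) (gi : GIneq V.G) (ti : TripleIneq V t) (ei : EdgeIneq V t)
    (hweight : ∀ l : Fin 5 → ℝ, ∑ i, l i = 0 → psum l 2 = 1 → ∀ s P : ℝ, 0 ≤ s → s ^ 2 ≤ P →
      P ≤ 1 → ∀ c i : Fin 5, i ≠ c →
        diagWeight (kerAt (jetsAt (V.map Aff.fn) l s P) l) c i + t < 0)
    (hsign : ∀ l : Fin 5 → ℝ, ∑ i, l i = 0 → psum l 2 = 1 → ∀ s P : ℝ, 0 ≤ s → s ^ 2 ≤ P →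
      P ≤ 1 → ∀ e : Fin 2, 0 ≤ ((jetsAt (V.map Aff.fn) l s P).C e 3).1)
    (hedge : ∀ μ a b d : ℝ, μ + 2 * a + b + d = 0 →
      μ ^ 2 + 2 * a ^ 2 + b ^ 2 + d ^ 2 = 1 →
      ∀ va vb vd s q R y : ℝ, 0 ≤ s → 0 ≤ q → s ^ 2 + q ^ 2 ≤ 1 → 0 < R →
        form (jetsAt (V.map Aff.fn) (edgeEig μ a b d) s (s ^ 2 + q ^ 2)) (edgeEig μ a b d) 0
            ![-(2 * va + vb + vd), va, va, vb, vd] s q 1 R y +
          t * ((∑ i, (![-(2 * va + vb + vd), va, va, vb, vd] : Fin 5 → ℝ) i ^ 2) + y ^ 2 + 1) ≤ 0) :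
    Certificate 5 fields (V.map Aff.fn) t where
  margin := ht
  smoothG := contDiff_fn hG.1 hG.2
  smoothA m := contDiff_fn (hA m).1 (hA m).2
  smoothX k := contDiff_fn (hX k).1 (hX k).2
  smoothC e j := contDiff_fn (hC e j).1 (hC e j).2
  pos := pos_of_poly gi
  interior := interior_of_edge hC4 hweight hsign hedge
  triple := triple_of_poly ti
  edge := edge_of_poly ei

end

end Vale.Agent.P098.Cert6
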