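import Vale.Agent.P098.Cert6.Damp

/-!
P098, the homogeneous class: from the inequalities on the unit sphere of eigenvalues to the ball,
by compactness, once the damping is strong enough.
-/

open Filter
open scoped Topology

namespace Vale.Agent.P098.Cert6

open Vale.Agent.P098.ReduceN (Fields psum usum hdot diagWeight tripleWeight fluxTrace)

noncomputable section

variable {n : ℕ} {σ : Fields}

/-- The parameters `(s, q)`. -/
def quarter : Set (ℝ × ℝ) := {p | 0 ≤ p.1 ∧ 0 ≤ p.2 ∧ p.1 ^ 2 + p.2 ^ 2 ≤ 1}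

/-- The eigenvalues: trace zero, square sum at most one. -/
def ball (n : ℕ) : Set (Fin n → ℝ) := {l | ∑ i, l i = 0 ∧ psum l 2 ≤ 1}

/-- The variables `(v, y, o)` on the unit sphere. -/
def unit (n : ℕ) : Set ((Fin n → ℝ) × ℝ × ℝ) :=
  {x | ∑ i, x.1 i = 0 ∧ (∑ i, x.1 i ^ 2) + x.2.1 ^ 2 + x.2.2 ^ 2 = 1}

lemma abs_le_one_of_sq {z : ℝ} (hz : z ^ 2 ≤ 1) : z ∈ Set.Icc (-1 : ℝ) 1 :=
  abs_le.1 (by rwa [← sq_le_one_iff_abs_le_one])

lemma isCompact_quarter : IsCompact quarter := by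
  refine IsCompact.of_isClosed_subset ((isCompact_Icc (a := (-1 : ℝ)) (b := 1)).prod
    (isCompact_Icc (a := (-1 : ℝ)) (b := 1))) ?_ fun p hp =>
      ⟨abs_le_one_of_sq (by linarith [hp.2.2, sq_nonneg p.2]),
        abs_le_one_of_sq (by linarith [hp.2.2, sq_nonneg p.1])⟩
  simp only [quarter, Set.ofPred_and]
  exact (isClosed_le continuous_const continuous_fst).inter
    ((isClosed_le continuous_const continuous_snd).inter (isClosed_le (by fun_prop) continuous_const))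

lemma isCompact_ball (n : ℕ) : IsCompact (ball n) := by
  refine IsCompact.of_isClosed_subset
    (isCompact_pi_infinite fun _ : Fin n => isCompact_Icc (a := (-1 : ℝ)) (b := 1)) ?_ fun l hl i =>
      abs_le_one_of_sq ((Finset.single_le_sum (f := fun i => l i ^ 2) (fun i _ => sq_nonneg _)
        (Finset.mem_univ i)).trans hl.2)
  simp only [ball, Set.ofPred_and]
  exact (isClosed_eq (by fun_prop) (by fun_prop)).inter
    (isClosed_le (continuous_psum continuous_id 2) continuous_const)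

lemma isCompact_unit (n : ℕ) : IsCompact (unit n) := by
  refine IsCompact.of_isClosed_subset
    ((isCompact_pi_infinite fun _ : Fin n => isCompact_Icc (a := (-1 : ℝ)) (b := 1)).prod
      ((isCompact_Icc (a := (-1 : ℝ)) (b := 1)).prod (isCompact_Icc (a := (-1 : ℝ)) (b := 1))))
    ?_ ?_
  · simp only [unit, Set.ofPred_and]
    exact (isClosed_eq (by fun_prop) (by fun_prop)).inter
      (isClosed_eq (by fun_prop) (by fun_prop))
  · rintro ⟨v, y, o⟩ ⟨-, hx⟩
    have hv : ∀ i, v i ^ 2 ≤ ∑ i, v i ^ 2 := fun i =>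
      Finset.single_le_sum (f := fun i => v i ^ 2) (fun i _ => sq_nonneg _) (Finset.mem_univ i)
    have h0 : 0 ≤ ∑ i, v i ^ 2 := Finset.sum_nonneg fun i _ => sq_nonneg _
    simp only at hx
    exact ⟨fun i => abs_le_one_of_sq (by linarith [hv i, sq_nonneg y, sq_nonneg o]),
      abs_le_one_of_sq (by linarith [sq_nonneg o]), abs_le_one_of_sq (by linarith [sq_nonneg y])⟩

/-- The jets at `(s, q)` and `l`. -/
def jetsOn (K : Coefs σ (ℝ × ℝ × ℝ → ℝ)) (p : (ℝ × ℝ) × (Fin n → ℝ)) : Coefs σ Jet :=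
  jetsAt K p.2 p.1.1 (p.1.1 ^ 2 + p.1.2 ^ 2)

/-- Parameters and variables. -/
abbrev Pt (n : ℕ) : Type := (((ℝ × ℝ) × (Fin n → ℝ)) × ℝ) × (Fin n → ℝ) × ℝ × ℝ

/-- The damped form on parameters and variables, with `R` replaced by `R o`. -/
def formAt (Λ : ℝ) (K : Coefs σ (ℝ × ℝ × ℝ → ℝ)) (c : Fin n) (x : Pt n) : ℝ :=
  formD Λ (jetsOn K x.1.1) x.1.1.2 c x.2.1 x.1.1.1.1 x.1.1.1.2 x.2.2.2 (x.1.2 * x.2.2.2) x.2.2.1

variable {K : Coefs σ (ℝ × ℝ × ℝ → ℝ)} {t : ℝ} (hn : 0 < n) (hK : Certificate n σ K t)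

lemma continuous_jetOf {g : ℝ × ℝ × ℝ → ℝ} (hg : ContDiff ℝ 2 g) : Continuous (jetOf g) := by
  have hd := hg.continuous_fderiv (by norm_num)
  exact hg.continuous.prodMk ((hd.clm_apply continuous_const).prodMk
    ((hd.clm_apply continuous_const).prodMk (hd.clm_apply continuous_const)))

include hK in
lemma contCoefs_jetsAt {X : Type*} [TopologicalSpace X] {l : X → Fin n → ℝ} {s P : X → ℝ}
    (hl : Continuous l) (hs : Continuous s) (hP : Continuous P) :
    ContCoefs fun x => jetsAt K (l x) (s x) (P x) := by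
  have h : Continuous fun x => (s x, P x, psum (l x) 3) :=
    hs.prodMk (hP.prodMk (continuous_psum hl 3))
  exact ⟨(continuous_jetOf hK.smoothG).comp h, fun m => (continuous_jetOf (hK.smoothA m)).comp h,
    fun k => (continuous_jetOf (hK.smoothX k)).comp h,
    fun e j => (continuous_jetOf (hK.smoothC e j)).comp h⟩

include hn hK in
lemma continuous_formAt (Λ : ℝ) (c : Fin n) : Continuous (formAt Λ K c) := by
  have hl : Continuous fun x : Pt n => x.1.1.2 := by fun_prop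
  refine Continuous.sub (continuous_form (contCoefs_jetsAt hK hl (by fun_prop) (by fun_prop)) hl
    (by fun_prop) (by fun_prop) (by fun_prop) (by fun_prop) (by fun_prop) (by fun_prop) c) ?_
  exact (continuous_const.mul (continuous_fade hn hl)).mul
    (continuous_damp hl (by fun_prop) (by fun_prop) c)

include hK in
/-- On the sphere of eigenvalues the form is negative for all `o`, the vanishing one included. -/
lemma form_neg_sphere {l : Fin n → ℝ} (hl : ∑ i, l i = 0) (h2 : psum l 2 = 1) {s q R y o : ℝ}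
    (hd : (s, q) ∈ quarter) (hR : 0 < R) (c : Fin n) {v : Fin n → ℝ} (hv : ∑ i, v i = 0) :
    form (jetsAt K l s (s ^ 2 + q ^ 2)) l c v s q o (R * o) y +
      t * ((∑ i, v i ^ 2) + y ^ 2 + o ^ 2) ≤ 0 := by
  set f := fun o : ℝ => form (jetsAt K l s (s ^ 2 + q ^ 2)) l c v s q o (R * o) y +
      t * ((∑ i, v i ^ 2) + y ^ 2 + o ^ 2) with hf
  have hpos : ∀ o : ℝ, o ≠ 0 → f o ≤ 0 := by
    intro o ho
    have h := hK.interior l hl h2 c (o⁻¹ • v) (by simp [← Finset.mul_sum, hv]) s q R (o⁻¹ * y)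
      hd.1 hd.2.1 hd.2.2 hR
    have e := form_smul (jetsAt K l s (s ^ 2 + q ^ 2)) l c (o⁻¹ • v) s q 1 R (o⁻¹ * y) o
    rw [smul_inv_smul₀ ho, mul_one, ← mul_assoc, mul_inv_cancel₀ ho, one_mul, mul_comm o R] at e
    have e2 : ∑ i, (o⁻¹ • v) i ^ 2 = o⁻¹ ^ 2 * ∑ i, v i ^ 2 := by
      simp only [Pi.smul_apply, smul_eq_mul, mul_pow, Finset.mul_sum]
    rw [e2] at h
    have h' := mul_nonpos_of_nonneg_of_nonpos (sq_nonneg o) h
    simp only [hf, e]
    have e3 : o ^ 2 * (o⁻¹ ^ 2 * ∑ i, v i ^ 2) = ∑ i, v i ^ 2 := by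
      field_simp
    have e4 : o ^ 2 * (o⁻¹ * y) ^ 2 = y ^ 2 := by field_simp
    calc o ^ 2 * form (jetsAt K l s (s ^ 2 + q ^ 2)) l c (o⁻¹ • v) s q 1 R (o⁻¹ * y) +
          t * ((∑ i, v i ^ 2) + y ^ 2 + o ^ 2)
        = o ^ 2 * (form (jetsAt K l s (s ^ 2 + q ^ 2)) l c (o⁻¹ • v) s q 1 R (o⁻¹ * y) +
            t * (o⁻¹ ^ 2 * ∑ i, v i ^ 2 + (o⁻¹ * y) ^ 2 + 1)) := by
          linear_combination (-t) * e3 - t * e4
      _ ≤ 0 := h'
  rcases eq_or_ne o 0 with rfl | ho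
  · have hc : Continuous f := by
      refine (continuous_form (l := fun _ : ℝ => l) (contCoefs_jetsAt hK continuous_const
        continuous_const continuous_const) continuous_const continuous_const continuous_const
        continuous_const continuous_id (by fun_prop) continuous_const c).add ?_
      fun_prop
    exact le_of_tendsto ((hc.tendsto 0).mono_left (nhdsWithin_le_nhds (s := {0}ᶜ)))
      (eventually_nhdsWithin_of_forall fun o ho => hpos o ho)
  · exact hpos o ho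

lemma form_radial (J : Coefs σ Jet) (l : Fin n → ℝ) (c : Fin n) (s q y : ℝ) :
    form J l c 0 s q 0 0 y = -(y ^ 2 * J.G.1) := by
  have hu : ∀ m, usum l (0 : Fin n → ℝ) m = 0 := fun m => by simp [usum]
  have hw : ∀ e, omega (0 : ℝ) 0 e = 0 := fun e => by fin_cases e <;> rfl
  have hd : ∀ j, hdot l (0 : Fin n → ℝ) j c = 0 := fun j => by simp [hdot]
  simp [form, dH, hu, hw, hd]

include hn hK in
/-- Where the top form is nonnegative it vanishes neither on the damping nor on its factor. -/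
lemma top_pos {l : Fin n → ℝ} (hl : ∑ i, l i = 0) (h2 : psum l 2 ≤ 1) {s q y : ℝ}
    (hd : (s, q) ∈ quarter) (c : Fin n) {v : Fin n → ℝ} (hv : ∑ i, v i = 0)
    (hx : (∑ i, v i ^ 2) + y ^ 2 = 1)
    (hf : 0 ≤ form (jetsAt K l s (s ^ 2 + q ^ 2)) l c v s q 0 0 y) :
    0 < fade l * damp l c v 0 := by
  have hlt : psum l 2 < 1 := by
    rcases h2.lt_or_eq with h | h
    · exact h
    · exfalso
      have := form_neg_sphere hK hl h (R := 1) (y := y) (o := 0) hd one_pos c hv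
      rw [mul_zero, zero_pow two_ne_zero, add_zero, hx] at this
      linarith [hK.margin]
  refine mul_pos (fade_pos hlt) ?_
  have hd' := damp_ge hn hl h2 c v 0
  rcases (Finset.sum_nonneg fun i _ => sq_nonneg (v i)).lt_or_eq with h | h
  · exact lt_of_lt_of_le (mul_pos (pow_pos (kexp_pos hn) 2) h) hd'
  · exfalso
    have hv0 : v = 0 := funext fun i => pow_eq_zero_iff two_ne_zero |>.1
      ((Finset.sum_eq_zero_iff_of_nonneg fun i _ => sq_nonneg (v i)).1 h.symm i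
        (Finset.mem_univ i))
    rw [← h, zero_add] at hx
    have hG := hK.pos l hl h2 s (s ^ 2 + q ^ 2) ⟨hd.1, by nlinarith [hd.2.2, sq_nonneg q]⟩
      ⟨by positivity, hd.2.2⟩
    rw [hv0, form_radial, hx, one_mul] at hf
    simp only [jetsAt, Coefs.map, jetOf] at hf
    linarith

include hn hK in
/-- Where the top form is nonnegative the damping dominates it. -/
lemma top_ratio : ∀ c, ∃ Λ : ℝ, ∀ p ∈ quarter ×ˢ ball n, ∀ (v : Fin n → ℝ) (y : ℝ), ∑ i, v i = 0 →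
      (∑ i, v i ^ 2) + y ^ 2 = 1 → 0 ≤ form (jetsOn K p) p.2 c v p.1.1 p.1.2 0 0 y →
      form (jetsOn K p) p.2 c v p.1.1 p.1.2 0 0 y ≤ Λ * (fade p.2 * damp p.2 c v 0) ∧
        0 < fade p.2 * damp p.2 c v 0 := by
  intro c
  set R := ((quarter ×ˢ ball n) ×ˢ ({0} : Set ℝ)) ×ˢ (unit n ∩ {x | x.2.2 = 0})
  set S := R ∩ formAt 0 K c ⁻¹' Set.Ici 0
  have hS : IsCompact S := (((isCompact_quarter.prod (isCompact_ball n)).prod
    isCompact_singleton).prod ((isCompact_unit n).inter_right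
      (isClosed_eq (by fun_prop) continuous_const))).inter_right
    (isClosed_Ici.preimage (continuous_formAt hn hK 0 c))
  set g := fun x : Pt n => fade x.1.1.2 * damp x.1.1.2 c x.2.1 0
  have hpos : ∀ x ∈ S, 0 < g x := by
    intro x hx
    obtain ⟨⟨⟨⟨hd, hl, h2⟩, hR⟩, ⟨hv, hu⟩, ho⟩, hf⟩ := hx
    have hR' : x.1.2 = 0 := hR
    have ho' : x.2.2.2 = 0 := ho
    rw [Set.mem_preimage, Set.mem_Ici, formAt, formD, hR', ho', mul_zero, zero_mul, zero_mul,
      sub_zero] at hf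
    rw [ho', zero_pow two_ne_zero, add_zero] at hu
    exact top_pos hn hK hl h2 hd c hv hu hf
  have hgc : Continuous g := (continuous_fade hn (by fun_prop)).mul
    (continuous_damp (by fun_prop) (by fun_prop) continuous_const c)
  have hval : ∀ (p : (ℝ × ℝ) × (Fin n → ℝ)) (v : Fin n → ℝ) (y : ℝ),
      formAt 0 K c ((p, (0 : ℝ)), v, y, (0 : ℝ)) =
        form (jetsOn K p) p.2 c v p.1.1 p.1.2 0 0 y := fun p v y => by
    rw [formAt, formD, zero_mul, zero_mul, zero_mul, sub_zero]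
  have hgv : ∀ (p : (ℝ × ℝ) × (Fin n → ℝ)) (v : Fin n → ℝ) (y : ℝ),
      g ((p, (0 : ℝ)), v, y, (0 : ℝ)) = fade p.2 * damp p.2 c v 0 := fun p v y => rfl
  obtain ⟨Λ, hΛ⟩ := hS.exists_bound_of_continuousOn (f := fun x => formAt 0 K c x / g x)
    ((continuous_formAt hn hK 0 c).continuousOn.div hgc.continuousOn fun x hx => (hpos x hx).ne')
  refine ⟨Λ, fun p hp v y hv hx hf => ?_⟩
  have hu : ((v, y, (0 : ℝ)) : (Fin n → ℝ) × ℝ × ℝ) ∈ unit n ∩ {x | x.2.2 = 0} :=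
    ⟨⟨hv, by rw [zero_pow two_ne_zero, add_zero]; exact hx⟩, rfl⟩
  have hm : (((p, (0 : ℝ)), v, y, (0 : ℝ)) : Pt n) ∈ S := by
    refine ⟨⟨⟨hp, rfl⟩, hu⟩, ?_⟩
    rw [Set.mem_preimage, Set.mem_Ici, hval]
    exact hf
  have h := hΛ _ hm
  have hg0 := hpos _ hm
  rw [hgv] at hg0
  rw [Real.norm_eq_abs, hval, hgv] at h
  exact ⟨(div_le_iff₀ hg0).1 ((le_abs_self _).trans h), hg0⟩

include hn hK in
/-- Where a triple weight is nonnegative the damping dominates it. -/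
lemma triple_ratio : ∀ τ : Fin n × Fin n × Fin n, ∃ Λ : ℝ, ∀ p ∈ quarter ×ˢ ball n,
      τ.1 ≠ τ.2.1 → τ.1 ≠ τ.2.2 → τ.2.1 ≠ τ.2.2 →
      0 ≤ tripleWeight (kerAt (jetsOn K p) p.2) τ.1 τ.2.1 τ.2.2 →
      tripleWeight (kerAt (jetsOn K p) p.2) τ.1 τ.2.1 τ.2.2 ≤ Λ * fade p.2 ∧ 0 < fade p.2 := by
  rintro ⟨a, i, j⟩
  by_cases hd : a ≠ i ∧ a ≠ j ∧ i ≠ j
  swap
  · exact ⟨0, fun p _ h1 h2 h3 => absurd ⟨h1, h2, h3⟩ hd⟩
  have hl : Continuous fun p : (ℝ × ℝ) × (Fin n → ℝ) => p.2 := continuous_snd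
  set T := fun p : (ℝ × ℝ) × (Fin n → ℝ) => tripleWeight (kerAt (jetsOn K p) p.2) a i j
  have hT : Continuous T := continuous_tripleWeight
    (contCoefs_jetsAt hK hl (by fun_prop) (by fun_prop)) hl a i j
  have hS : IsCompact (quarter ×ˢ ball n ∩ T ⁻¹' Set.Ici 0) :=
    (isCompact_quarter.prod (isCompact_ball n)).inter_right (isClosed_Ici.preimage hT)
  have hpos : ∀ p ∈ quarter ×ˢ ball n ∩ T ⁻¹' Set.Ici 0, 0 < fade p.2 := by
    rintro ⟨⟨s, q⟩, l⟩ ⟨⟨hd', hl, h2⟩, hp⟩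
    refine fade_pos (h2.lt_of_ne fun he => ?_)
    have := hK.triple l hl he s (s ^ 2 + q ^ 2) hd'.1 (by nlinarith) hd'.2.2 a i j hd.1 hd.2.1 hd.2.2
    simp only [T, Set.mem_preimage, Set.mem_Ici, jetsOn] at hp
    linarith [hK.margin]
  obtain ⟨Λ, hΛ⟩ := hS.exists_bound_of_continuousOn (f := fun p => T p / fade p.2)
    (hT.continuousOn.div (continuous_fade hn hl).continuousOn fun p hp => (hpos p hp).ne')
  refine ⟨Λ, fun p hp _ _ _ h => ?_⟩
  have hf := hpos p ⟨hp, h⟩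
  have := (le_abs_self _).trans_eq (Real.norm_eq_abs _).symm |>.trans (hΛ p ⟨hp, h⟩)
  rw [div_le_iff₀ hf] at this
  exact ⟨this, hf⟩

include hn hK in
/-- A damping which makes the top form and the triples negative on the whole ball. -/
theorem exists_damping : ∃ Λ : ℝ, 0 ≤ Λ ∧
    (∀ p ∈ quarter ×ˢ ball n, ∀ (c : Fin n) (v : Fin n → ℝ) (y : ℝ), ∑ i, v i = 0 →
      (∑ i, v i ^ 2) + y ^ 2 = 1 →
      formD Λ (jetsOn K p) p.2 c v p.1.1 p.1.2 0 0 y < 0) ∧
    ∀ p ∈ quarter ×ˢ ball n, ∀ a i j : Fin n, a ≠ i → a ≠ j → i ≠ j →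
      tripleWeight (kerAt (jetsOn K p) p.2) a i j - 6 * Λ * fade p.2 < 0 := by
  have h1 := top_ratio hn hK
  have h2 := triple_ratio hn hK
  choose A hA using h1
  choose B hB using h2
  set Λ := (∑ c, |A c|) + (∑ τ, |B τ|) + 1
  have hA0 : 0 ≤ ∑ c, |A c| := Finset.sum_nonneg fun c _ => abs_nonneg _
  have hB0 : 0 ≤ ∑ τ, |B τ| := Finset.sum_nonneg fun c _ => abs_nonneg _
  have hΛ0 : 0 ≤ Λ := by simp only [Λ]; linarith
  have hAle : ∀ c, A c < Λ := fun c => by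
    have := Finset.single_le_sum (f := fun c => |A c|) (fun c _ => abs_nonneg _) (Finset.mem_univ c)
    simp only [Λ]
    linarith [le_abs_self (A c)]
  have hBle : ∀ τ, B τ < Λ := fun τ => by
    have := Finset.single_le_sum (f := fun τ => |B τ|) (fun τ _ => abs_nonneg _) (Finset.mem_univ τ)
    simp only [Λ]
    linarith [le_abs_self (B τ)]
  refine ⟨Λ, hΛ0, fun p hp c v y hv hx => ?_, fun p hp a i j h1 h2 h3 => ?_⟩
  · have hd := damp_ge hn hp.2.1 hp.2.2 c v 0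
    have hg : 0 ≤ fade p.2 * damp p.2 c v 0 := mul_nonneg (fade_nonneg _)
      (le_trans (mul_nonneg (sq_nonneg _) (Finset.sum_nonneg fun i _ => sq_nonneg _)) hd)
    rw [formD, mul_assoc]
    rcases le_or_gt 0 (form (jetsOn K p) p.2 c v p.1.1 p.1.2 0 0 y) with h | h
    · obtain ⟨e1, e2⟩ := hA c p hp v y hv hx h
      linarith [mul_lt_mul_of_pos_right (hAle c) e2]
    · linarith [mul_nonneg hΛ0 hg]
  · rcases le_or_gt 0 (tripleWeight (kerAt (jetsOn K p) p.2) a i j) with h | h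
    · obtain ⟨e1, e2⟩ := hB (a, i, j) p hp h1 h2 h3 h
      have := mul_lt_mul_of_pos_right (hBle (a, i, j)) e2
      linarith [mul_nonneg hΛ0 e2.le]
    · linarith [mul_nonneg hΛ0 (fade_nonneg p.2)]

section Bounds

variable {Λ : ℝ} (htop : ∀ p ∈ quarter ×ˢ ball n, ∀ (c : Fin n) (v : Fin n → ℝ) (y : ℝ),
  ∑ i, v i = 0 → (∑ i, v i ^ 2) + y ^ 2 = 1 →
  formD Λ (jetsOn K p) p.2 c v p.1.1 p.1.2 0 0 y < 0)

/-- Normalisation of the variables with `o = 1`. -/
lemma exists_unit {v : Fin n → ℝ} (hv : ∑ i, v i = 0) (y : ℝ) :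
    ∃ r : ℝ, 0 < r ∧ ((r • v, r * y, r) : (Fin n → ℝ) × ℝ × ℝ) ∈ unit n := by
  have hN : 0 < (∑ i, v i ^ 2) + y ^ 2 + 1 := by positivity
  refine ⟨(√((∑ i, v i ^ 2) + y ^ 2 + 1))⁻¹, by positivity, by simp [← Finset.mul_sum, hv], ?_⟩
  simp only [Pi.smul_apply, smul_eq_mul, mul_pow, ← Finset.mul_sum, inv_pow, Real.sq_sqrt hN.le]
  field_simp

include hn hK htop in
/-- An upper bound for bounded `R`. -/
theorem formD_le (b : ℝ) : ∃ B : ℝ, 0 ≤ B ∧ ∀ p ∈ quarter ×ˢ ball n, ∀ (c : Fin n) (v : Fin n → ℝ),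
    ∑ i, v i = 0 → ∀ R ∈ Set.Icc 0 b, ∀ y : ℝ,
      formD Λ (jetsOn K p) p.2 c v p.1.1 p.1.2 1 R y ≤ B := by
  have hB : ∀ c, ∃ B : ℝ, 0 ≤ B ∧ ∀ x ∈ ((quarter ×ˢ ball n) ×ˢ Set.Icc 0 b) ×ˢ unit n,
      formAt Λ K c x ≤ B * x.2.2.2 ^ 2 := by
    intro c
    set S := (((quarter ×ˢ ball n) ×ˢ Set.Icc 0 b) ×ˢ unit n) ∩ formAt Λ K c ⁻¹' Set.Ici 0
    have hS : IsCompact S := (((isCompact_quarter.prod (isCompact_ball n)).prod isCompact_Icc).prod
      (isCompact_unit n)).inter_right (isClosed_Ici.preimage (continuous_formAt hn hK Λ c))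
    have hpos : ∀ x ∈ S, x.2.2.2 ≠ 0 := by
      rintro ⟨⟨p, R⟩, v, y, o⟩ ⟨⟨⟨hp, -⟩, hv, hx⟩, hf⟩ (rfl : o = 0)
      simp only [zero_pow two_ne_zero, add_zero] at hx
      have := htop p hp c v y hv hx
      simp only [Set.mem_preimage, Set.mem_Ici, formAt, mul_zero] at hf
      linarith
    obtain ⟨B, hB⟩ := hS.exists_bound_of_continuousOn
      (f := fun x => formAt Λ K c x / x.2.2.2 ^ 2)
      ((continuous_formAt hn hK Λ c).continuousOn.div (by fun_prop)
        fun x hx => pow_ne_zero 2 (hpos x hx))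
    refine ⟨max B 0, le_max_right _ _, fun x hx => ?_⟩
    rcases le_or_gt 0 (formAt Λ K c x) with h | h
    · have ho := hpos x ⟨hx, h⟩
      have := (le_abs_self _).trans_eq (Real.norm_eq_abs _).symm |>.trans (hB x ⟨hx, h⟩)
      rw [div_le_iff₀ (by positivity)] at this
      exact this.trans (mul_le_mul_of_nonneg_right (le_max_left _ _) (sq_nonneg _))
    · exact h.le.trans (mul_nonneg (le_max_right _ _) (sq_nonneg _))
  choose B hB0 hB using hB
  refine ⟨∑ c, B c, Finset.sum_nonneg fun c _ => hB0 c, fun p hp c v hv R hR y => ?_⟩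
  obtain ⟨r, hr, hu⟩ := exists_unit hv y
  have h := hB c ((p, R), r • v, r * y, r) ⟨⟨hp, hR⟩, hu⟩
  have e := formD_smul Λ (jetsOn K p) p.2 c v p.1.1 p.1.2 1 R y r
  rw [mul_one, mul_comm r R] at e
  simp only [formAt, e] at h
  rw [mul_comm (B c)] at h
  exact (le_of_mul_le_mul_left h (by positivity)).trans
    (Finset.single_le_sum (fun c _ => hB0 c) (Finset.mem_univ c))

include hn hK in
/-- Near the sphere of eigenvalues the form is at most `-t + η`. -/
theorem formD_near {w : ℝ × ℝ} (hw : w ∈ quarter) {a b : ℝ} (ha : 0 < a) {η : ℝ} (hη : 0 < η) :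
    ∃ d : ℝ, d < 1 ∧ ∀ l ∈ ball n, d < psum l 2 → ∀ (c : Fin n) (v : Fin n → ℝ),
      ∑ i, v i = 0 → ∀ R ∈ Set.Icc a b, ∀ y : ℝ,
      formD Λ (jetsOn K (w, l)) l c v w.1 w.2 1 R y ≤ -t + η := by
  have hd : ∀ c, ∃ d < (1 : ℝ), ∀ x ∈ (((({w} : Set (ℝ × ℝ))) ×ˢ ball n) ×ˢ Set.Icc a b) ×ˢ unit n,
      d < psum x.1.1.2 2 → formAt Λ K c x + (t - η) * x.2.2.2 ^ 2 ≤ 0 := by
    intro c
    set f := fun x : Pt n => formAt Λ K c x + (t - η) * x.2.2.2 ^ 2
    set S := (((({w} : Set (ℝ × ℝ)) ×ˢ ball n) ×ˢ Set.Icc a b) ×ˢ unit n) ∩ f ⁻¹' Set.Ici 0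
    have hS : IsCompact S := (((isCompact_singleton.prod (isCompact_ball n)).prod
      isCompact_Icc).prod (isCompact_unit n)).inter_right
        (isClosed_Ici.preimage ((continuous_formAt hn hK Λ c).add (by fun_prop)))
    have hlt : ∀ x ∈ S, psum x.1.1.2 2 < 1 := by
      rintro ⟨⟨⟨p, l⟩, R⟩, v, y, o⟩ ⟨⟨⟨⟨rfl : p = w, hl, h2⟩, hR⟩, hv, hx⟩, hf⟩
      refine h2.lt_of_ne fun he => ?_
      simp only [f, Set.mem_preimage, Set.mem_Ici, formAt, formD, fade_eq_zero hn he, mul_zero,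
        zero_mul, sub_zero, jetsOn] at hf
      have hw' : (p.1, p.2) ∈ quarter := hw
      have h := form_neg_sphere hK hl he (R := R) (y := y) (o := o) hw'
        (lt_of_lt_of_le ha hR.1) c hv
      simp only at hx
      rw [hx, mul_one] at h
      have ho : o ^ 2 ≤ 1 := by
        linarith [Finset.sum_nonneg fun (i : Fin n) (_ : i ∈ Finset.univ) => sq_nonneg (v i),
          sq_nonneg y]
      rcases (sq_nonneg o).lt_or_eq with h0 | h0
      · nlinarith [hK.margin, mul_pos hη h0]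
      · rw [← h0, mul_zero] at hf; linarith [hK.margin]
    rcases S.eq_empty_or_nonempty with he | hne
    · refine ⟨0, zero_lt_one, fun x hx _ => (not_le.1 fun h0 => ?_).le⟩
      exact Set.eq_empty_iff_forall_notMem.1 he x ⟨hx, h0⟩
    · obtain ⟨m, hm, hmax⟩ := hS.exists_isMaxOn hne (f := fun x : Pt n => psum x.1.1.2 2)
        (continuous_psum (by fun_prop) 2).continuousOn
      refine ⟨psum m.1.1.2 2, hlt m hm, fun x hx hd => (not_le.1 fun h0 => ?_).le⟩
      exact absurd hd (not_lt.2 (hmax ⟨hx, h0⟩))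
  choose d hd1 hd2 using hd
  have : Nonempty (Fin n) := ⟨⟨0, hn⟩⟩
  refine ⟨Finset.univ.sup' Finset.univ_nonempty d, by simp [Finset.sup'_lt_iff, hd1],
    fun l hl hlt c v hv R hR y => ?_⟩
  obtain ⟨r, hr, hu⟩ := exists_unit hv y
  have h := hd2 c (((w, l), R), r • v, r * y, r) ⟨⟨⟨rfl, hl⟩, hR⟩, hu⟩
    (lt_of_le_of_lt (Finset.le_sup' d (Finset.mem_univ c)) hlt)
  have e := formD_smul Λ (jetsOn K (w, l)) l c v w.1 w.2 1 R y r
  rw [mul_one, mul_comm r R] at e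
  simp only [formAt, e] at h
  nlinarith [pow_pos hr 2]

end Bounds

include hn hK in
/-- The boundary expressions: bounded, and nonpositive near the sphere. -/
theorem edge_shell (Λ : ℝ) : ∃ δ M : ℝ, 0 < δ ∧ 0 ≤ M ∧ ∀ l ∈ ball n, ∀ a : Fin n, l a ≤ 0 →
    (edgeTop (jetsAt K l 0 1) l a - Λ * fade l * fluxTrace l a 1 ≤ M ∧
      edgeLow (jetsAt K l 0 1) l a ≤ M) ∧
    (1 - δ ≤ psum l 2 →
      edgeTop (jetsAt K l 0 1) l a - Λ * fade l * fluxTrace l a 1 ≤ 0 ∧
        edgeLow (jetsAt K l 0 1) l a ≤ 0) := by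
  have h : ∀ a : Fin n, ∃ δ M : ℝ, 0 < δ ∧ 0 ≤ M ∧ ∀ l ∈ ball n, l a ≤ 0 →
      (edgeTop (jetsAt K l 0 1) l a - Λ * fade l * fluxTrace l a 1 ≤ M ∧
        edgeLow (jetsAt K l 0 1) l a ≤ M) ∧
      (1 - δ ≤ psum l 2 →
        edgeTop (jetsAt K l 0 1) l a - Λ * fade l * fluxTrace l a 1 ≤ 0 ∧
          edgeLow (jetsAt K l 0 1) l a ≤ 0) := by
    intro a
    have hid : Continuous fun l : Fin n → ℝ => l := continuous_id
    obtain ⟨hT0, hL⟩ := continuous_edge
      (contCoefs_jetsAt hK hid (continuous_const (y := (0 : ℝ))) (continuous_const (y := (1 : ℝ))))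
      hid a
    have hT : Continuous fun l : Fin n → ℝ =>
        edgeTop (jetsAt K l 0 1) l a - Λ * fade l * fluxTrace l a 1 := by
      refine hT0.sub ((continuous_const.mul (continuous_fade hn hid)).mul ?_)
      have := continuous_psum hid 2
      have := continuous_psum hid (1 + 2)
      unfold fluxTrace
      fun_prop
    set F := fun l => max (edgeTop (jetsAt K l 0 1) l a - Λ * fade l * fluxTrace l a 1)
      (edgeLow (jetsAt K l 0 1) l a)
    have hF : Continuous F := hT.max hL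
    have hD : IsCompact (ball n ∩ {l | l a ≤ 0}) :=
      (isCompact_ball n).inter_right (isClosed_le (continuous_apply a) continuous_const)
    obtain ⟨M, hM⟩ := hD.exists_bound_of_continuousOn hF.continuousOn
    have hS : IsCompact ((ball n ∩ {l | l a ≤ 0}) ∩ F ⁻¹' Set.Ici 0) :=
      hD.inter_right (isClosed_Ici.preimage hF)
    have hlt : ∀ l ∈ (ball n ∩ {l | l a ≤ 0}) ∩ F ⁻¹' Set.Ici 0, psum l 2 < 1 := by
      rintro l ⟨⟨⟨hl, h2⟩, hla⟩, hf⟩
      refine h2.lt_of_ne fun he => ?_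
      obtain ⟨e1, e2⟩ := hK.edge l hl he a hla
      simp only [Set.mem_preimage, Set.mem_Ici, F, fade_eq_zero hn he, mul_zero, zero_mul,
        sub_zero, le_max_iff] at hf
      rcases hf with hf | hf <;> linarith [hK.margin]
    obtain ⟨m, hm1, hm2⟩ : ∃ m < (1 : ℝ),
        ∀ l ∈ (ball n ∩ {l | l a ≤ 0}) ∩ F ⁻¹' Set.Ici 0, psum l 2 ≤ m := by
      rcases ((ball n ∩ {l | l a ≤ 0}) ∩ F ⁻¹' Set.Ici 0).eq_empty_or_nonempty with he | hne
      · exact ⟨0, zero_lt_one, fun l hl => absurd hl (Set.eq_empty_iff_forall_notMem.1 he l)⟩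
      · obtain ⟨x, hx, hmax⟩ := hS.exists_isMaxOn hne (f := fun l => psum l 2)
          (continuous_psum hid 2).continuousOn
        exact ⟨_, hlt x hx, fun l hl => hmax hl⟩
    refine ⟨(1 - m) / 2, max M 0, by linarith, le_max_right _ _, fun l hl hla => ⟨?_, fun hp => ?_⟩⟩
    · have := (le_abs_self _).trans_eq (Real.norm_eq_abs _).symm |>.trans (hM l ⟨hl, hla⟩)
      exact ⟨(le_max_left _ _).trans (this.trans (le_max_left _ _)),
        (le_max_right _ _).trans (this.trans (le_max_left _ _))⟩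
    · have hn0 : F l < 0 := not_le.1 fun h0 => by linarith [hm2 l ⟨⟨hl, hla⟩, h0⟩]
      exact ⟨(le_max_left _ _).trans hn0.le, (le_max_right _ _).trans hn0.le⟩
  choose δ M hδ hM h using h
  have : Nonempty (Fin n) := ⟨⟨0, hn⟩⟩
  refine ⟨Finset.univ.inf' Finset.univ_nonempty δ, ∑ a, M a,
    (Finset.lt_inf'_iff _).2 fun a _ => hδ a, Finset.sum_nonneg fun a _ => hM a,
    fun l hl a hla => ⟨?_, fun hp => (h a l hl hla).2 ?_⟩⟩
  · have := Finset.single_le_sum (fun a _ => hM a) (Finset.mem_univ a)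
    exact ⟨(h a l hl hla).1.1.trans this, (h a l hl hla).1.2.trans this⟩
  · linarith [Finset.inf'_le δ (Finset.mem_univ a)]

end

end Vale.Agent.P098.Cert6
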