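import Vale.Agent.P098.Cert6.Edge

/-!
P098, dimension six: the diagonal weights and the sign of the coefficients of `b³ p` from
polynomial inequalities.
-/

namespace Vale.Agent.P098.Cert6

open Vale.Agent.P098.ReduceN (Fields psum diagWeight)
open Vale.Agent.P098.Reduce (hsum)

noncomputable section

/-- The weight of the third derivative of indices `(c, i, i)` at the eigenvalues `x` of `c` and
`y` of `i`. -/
def weightForm (V : Coefs fields ℝ) (x y : ℝ) : ℝ :=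
  3 * V.A 0 + V.A 1 * (2 * x + 4 * y) + V.X 0 * (x ^ 2 - 4 * x * y)

/-- The cube sum with two values `x, y`, three others `m + p, m + p, m - 2 p` when the square sum
is one; the deviation term is cubic in `p` alone. -/
def weightCube (x y p : ℝ) : ℝ :=
  x ^ 3 + y ^ 3 - (x + y) ^ 3 / 9 - (x + y) * (1 - x ^ 2 - y ^ 2 - (x + y) ^ 2 / 3) - 6 * p ^ 3

/-- The weight inequality to be checked. -/
def WeightIneq (V : Coefs fields Aff) (t : ℝ) : Prop :=
  ∀ s P x y p : ℝ, 0 ≤ s → s ^ 2 ≤ P → P ≤ 1 →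
    x ^ 2 + y ^ 2 + (x + y) ^ 2 / 3 + 6 * p ^ 2 = 1 →
    weightForm (valsAt V (s, P, weightCube x y p)) x y + t < 0

/-- The weights of the diagonal on the unit sphere of eigenvalues. -/
theorem weight_of_poly {V : Coefs fields Aff} {t : ℝ} (h : WeightIneq V t) (l : Fin 5 → ℝ)
    (hl : ∑ i, l i = 0) (h2 : psum l 2 = 1) (s P : ℝ) (hs : 0 ≤ s) (hsP : s ^ 2 ≤ P) (hP : P ≤ 1)
    (c i : Fin 5) (hic : i ≠ c) :
    diagWeight (kerAt (jetsAt (V.map Aff.fn) l s P) l) c i + t < 0 := by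
  obtain ⟨j, k, m, hjk, hjm, hkm, hS⟩ :
      ∃ j k m, j ≠ k ∧ j ≠ m ∧ k ≠ m ∧ ({c, i} : Finset (Fin 5))ᶜ = {j, k, m} := by
    refine Finset.card_eq_three.1 ?_
    rw [Finset.card_compl, Fintype.card_fin, Finset.card_pair hic.symm]
  have hall : ∀ f : Fin 5 → ℝ, ∑ n, f n = f c + f i + f j + f k + f m := fun f => by
    rw [← Finset.sum_add_sum_compl ({c, i} : Finset (Fin 5)) f, hS, Finset.sum_pair hic.symm,
      Finset.sum_insert (by simp [hjk, hjm]), Finset.sum_pair hkm]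
    ring
  have eform : diagWeight (kerAt (jetsAt (V.map Aff.fn) l s P) l) c i =
      weightForm (valsAt V (s, P, psum l 3)) (l c) (l i) := by
    simp [diagWeight, if_neg hic, kerAt, kerV, weightForm, jetsAt, valsAt, Coefs.map, jetOf, hsum,
      Fin.sum_univ_two]
    ring
  obtain ⟨x, y, x', y', a1, a2, b1, b2, klo, khi⟩ := exists_pair (l j) (l k) (l m)
  have h0 := (hall l).symm.trans hl
  have h22 : l c ^ 2 + l i ^ 2 + l j ^ 2 + l k ^ 2 + l m ^ 2 = 1 :=
    (hall fun n => l n ^ 2).symm.trans h2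
  have hcube : psum l 3 = l c ^ 3 + l i ^ 3 + (l j ^ 3 + l k ^ 3 + l m ^ 3) := by
    rw [psum, hall]
    ring
  have key : ∀ a b : ℝ, 2 * a + b = l j + l k + l m →
      2 * a ^ 2 + b ^ 2 = l j ^ 2 + l k ^ 2 + l m ^ 2 →
      weightForm (valsAt V (s, P, l c ^ 3 + l i ^ 3 + (2 * a ^ 3 + b ^ 3))) (l c) (l i) + t < 0 := by
    intro a b e1 e2
    obtain rfl : b = -(l c + l i) - 2 * a := by linarith
    have hg : l c ^ 2 + l i ^ 2 + (l c + l i) ^ 2 / 3 + 6 * (a + (l c + l i) / 3) ^ 2 = 1 := by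
      linear_combination e2 + h22
    have hw : weightCube (l c) (l i) (a + (l c + l i) / 3) =
        l c ^ 3 + l i ^ 3 + (2 * a ^ 3 + (-(l c + l i) - 2 * a) ^ 3) := by
      rw [weightCube]
      linear_combination (l c + l i) * hg
    rw [← hw]
    exact h s P _ _ _ hs hsP hP hg
  have g1 := key x y a1 a2
  have g2 := key x' y' b1 b2
  rw [eform, hcube]
  simp only [weightForm, valsAt, Coefs.map, Aff.fn] at g1 g2 ⊢
  set β := 3 * (V.A 0).2 (s, P) + (V.A 1).2 (s, P) * (2 * l c + 4 * l i) +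
    (V.X 0).2 (s, P) * (l c ^ 2 - 4 * l c * l i)
  rcases le_total 0 β with hb | hb
  · linarith [mul_le_mul_of_nonneg_left khi hb]
  · linarith [mul_le_mul_of_nonpos_left klo hb]

/-- The coefficients of `b³ p` at the two extreme values of `τ`. -/
def SignIneq (V : Coefs fields Aff) : Prop :=
  ∀ s P : ℝ, 0 ≤ s → s ^ 2 ≤ P → P ≤ 1 → ∀ e : Fin 2,
    0 ≤ (V.C e 3).fn (s, P, tauMax) ∧ 0 ≤ (V.C e 3).fn (s, P, -tauMax)

/-- The coefficients of `b³ p` are nonnegative on the unit sphere of eigenvalues. -/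
theorem sign_of_poly {V : Coefs fields Aff} (h : SignIneq V) (l : Fin 5 → ℝ) (hl : ∑ i, l i = 0)
    (h2 : psum l 2 = 1) (s P : ℝ) (hs : 0 ≤ s) (hsP : s ^ 2 ≤ P) (hP : P ≤ 1) (e : Fin 2) :
    0 ≤ ((jetsAt (V.map Aff.fn) l s P).C e 3).1 := by
  obtain ⟨t1, t2⟩ := abs_le.1 ((abs_cube_sum_le l hl zero_le_one (by rw [one_pow]; exact h2)).trans
    (le_of_eq (by norm_num : (671 / 1000 : ℝ) * 1 ^ 3 = 671 / 1000)))
  obtain ⟨g1, g2⟩ := h s P hs hsP hP e
  show 0 ≤ (V.C e 3).fn (s, P, psum l 3)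
  simp only [Aff.fn, tauMax] at g1 g2 ⊢
  rw [show psum l 3 = ∑ i, l i ^ 3 from rfl]
  rcases le_total 0 ((V.C e 3).2 (s, P)) with hg | hg
  · linarith [mul_le_mul_of_nonneg_left t1 hg]
  · linarith [mul_le_mul_of_nonpos_left t2 hg]

end

end Vale.Agent.P098.Cert6
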