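import Vale.Agent.P098.Check6.ScalarMult

/-!
P098, dimension six: the data and the check of the weight inequality of the vector.
-/

namespace Vale.Agent.P098.Cert6

open Check6

def weightF0 : List ℤ :=
  [176580098575, -69153865650, 0, -574162628400, 179919492300, 0, 796552867620, -49481040240, 0, 100419458400, -101000908800, 0, -369515520000, 0, 0, -719268170400, 199792356300, 0, 548616666060, 101510615880, 0, 469002587400, -101000908800, 0, -461894400000, 0, 0, 0, 0, 0, 973577071620, -112606608240, 0, 550911861000, -126251136000, 0, -415704960000, 0, 0, 0, 0, 0, 0, 0, 0, -271251568800, -50500454400, 0, -508083840000, 0, 0, 0, 0, 0, 0, 0, 0, 0, 0, 0, -184757760000, 0, 0, 0, 0, 0, 0, 0, 0, 0, 0, 0, 0, 0, 0, -71439278745, 73880236590, 0, 905542311600, -341172861300, 0, -2712845009052, 526019247504, 0, 2678569801056, -270621222912, 0, -990077644800, 0, 0, 914496135120,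 -287925629940, 0, -2792781383796, 601286152392, 0, 3063772574856, -270621222912, 0, -1237597056000, 0, 0, 0, 0, 0, -2117569386492, 356880983184, 0, 3283239786120, -338276528640, 0, -1113837350400, 0, 0, 0, 0, 0, 0, 0, 0]

def weightF1 : List ℤ :=
  [1682716703328, -135310611456, 0, -1361356761600, 0, 0, 0, 0, 0, 0, 0, 0, 0, 0, 0, -495038822400, 0, 0, 0, 0, 0, 0, 0, 0, 0, 0, 0, 0, 0, 0, 1858425147495, -474757347090, 0, -8942879122200, 2329947733500, 0, 19152218039652, -3817167442704, 0, -19785253746816, 2088580194432, 0, 7641147052800, 0, 0, -7438502694420, 1919000241540, 0, 22025866478796, -4519308964392, 0, -22979945732616, 2088580194432, 0, 9551433816000, 0, 0, 0, 0, 0, 14092196691492, -2511804821184, 0, -24673733329320, 2610725243040, 0, 8596290434400, 0, 0, 0, 0, 0, 0, 0, 0, -12099533336208, 1044290097216, 0, 10506577197600, 0, 0, 0, 0, 0, 0, 0, 0, 0, 0, 0, 3820573526400,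 0, 0, 0, 0, 0, 0, 0, 0, 0, 0, 0, 0, 0, 0, -2732080767360, 645797446020, 0, 12196830366000, -3055028563800, 0, -24623166994056, 4829219769312, 0, 24775084346688, -2550507595776, 0, -9331125350400, 0, 0]

def weightF2 : List ℤ :=
  [10134417585960, -2553192578520, 0, -28467225682488, 5602744379376, 0, 28522849727088, -2550507595776, 0, -11663906688000, 0, 0, 0, 0, 0, -18292269892176, 3235152521952, 0, 30591249179760, -3188134494720, 0, -10497516019200, 0, 0, 0, 0, 0, 0, 0, 0, 15389527431744, -1275253797888, 0, -12830297356800, 0, 0, 0, 0, 0, 0, 0, 0, 0, 0, 0, -4665562675200, 0, 0, 0, 0, 0, 0, 0, 0, 0, 0, 0, 0, 0, 0, 1195118037555, -279392331510, 0, -5170366471500, 1286245845900, 0, 10209586014828, -1976648360256, 0, -10055372320944, 1013330513088, 0, 3707306755200, 0, 0, -4331285095230, 1086863684760, 0, 11610040612644, -2254987321488, 0, -11491355646144, 1013330513088,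 0, 4634133444000, 0, 0, 0, 0, 0, 7702481528388, -1343316789576, 0, -12313141976880, 1266663141360, 0, 4170720099600, 0, 0, 0, 0, 0, 0, 0, 0, -6326439609672, 506665256544, 0, 5097546788400, 0, 0, 0, 0, 0, 0, 0, 0, 0, 0, 0]

def weightF3 : List ℤ :=
  [1853653377600, 0, 0, 0, 0, 0, 0, 0, 0, 0, 0, 0, 0, 0, 0, 586016166405, -219928891710, 0, -3316764439800, 954609826500, 0, 7313175164988, -1372093254576, 0, -6832728074304, 650572103808, 0, 2380141843200, 0, 0, -3032858908980, 826603741260, 0, 8553986499924, -1499261757048, 0, -7660388844504, 650572103808, 0, 2975177304000, 0, 0, 0, 0, 0, 5576365887948, -965485689696, 0, -8187986953080, 813215129760, 0, 2677659573600, 0, 0, 0, 0, 0, 0, 0, 0, -4438702070352, 325286051904, 0, 3272695034400, 0, 0, 0, 0, 0, 0, 0, 0, 0, 0, 0, 1190070921600, 0, 0, 0, 0, 0, 0, 0, 0, 0, 0, 0, 0, 0, 0, -801295860675, 253473842850, 0, 4198968028800,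 -1141741313100, 0, -8947701464580, 1713287162160, 0, 8651580282720, -855332317440, 0, -3129264576000, 0, 0, 3683604616200, -973446759900, 0, -11302505888940, 1925808977880, 0, 9822655845720, -855332317440, 0, -3911580720000, 0, 0, 0, 0, 0]

def weightF4 : List ℤ :=
  [-6520145947380, 1178704463760, 0, 10516309493400, -1069165396800, 0, -3520422648000, 0, 0, 0, 0, 0, 0, 0, 0, 5504061663360, -427666158720, 0, -4302738792000, 0, 0, 0, 0, 0, 0, 0, 0, 0, 0, 0, -1564632288000, 0, 0, 0, 0, 0, 0, 0, 0, 0, 0, 0, 0, 0, 0, 556114698495, -333162145590, 0, -3198839786100, 1052054682300, 0, 6153135750252, -826850039904, 0, -2980980093456, -15819012288, 0, -57874435200, 0, 0, -3681563804370, 1055167219440, 0, 4290920415396, -393651254592, 0, -2174074682256, -15819012288, 0, -72343044000, 0, 0, 0, 0, 0, 6304572316692, -836736922584, 0, -2161245849120, -19773765360, 0, -65108739600, 0,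 0, 0, 0, 0, 0, 0, 0, -3039192129528, -7909506144, 0, -79577348400, 0, 0, 0, 0, 0, 0, 0, 0, 0, 0, 0, -28937217600, 0, 0, 0, 0, 0, 0, 0, 0, 0, 0, 0, 0, 0, 0]

def weightF5 : List ℤ :=
  [-984038108850, 498125756700, 0, 5797726041600, -1777858900200, 0, -11760739851960, 1887070309920, 0, 8288837231040, -496995886080, 0, -1818277632000, 0, 0, 6011970332400, -1680070357800, 0, -9768818690280, 1564780012560, 0, 8153851217040, -496995886080, 0, -2272847040000, 0, 0, 0, 0, 0, -10828728385560, 1576447881120, 0, 8556902758800, -621244857600, 0, -2045562336000, 0, 0, 0, 0, 0, 0, 0, 0, 6459952979520, -248497943040, 0, -2500131744000, 0, 0, 0, 0, 0, 0, 0, 0, 0, 0, 0, -909138816000, 0, 0, 0, 0, 0, 0, 0, 0, 0, 0, 0, 0, 0, 0, 0, 0, 0, 0, 0, 0, 0, 0, 0, 0, 0, 0, 0, 0, 0, 0, 0, 0, 0, 0, 0, 0, 0, 0, 0, 0, 0, 0, 0, 0, 0, 0, 0, 0, 0, 0, 0, 0, 0, 0, 0, 0, 0, 0, 0]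

def weightF6 : List ℤ :=
  [0, 0, 0, 0, 0, 0, 0, 0, 0, 0, 0, 0, 0, 0, 0, 0, 0, 0, 0, 0, 0, 0, 0, 0, 0, 0, 0, 0, 0, 0, -143184597630, 277090454160, 0, 1847159571600, -702895701600, 0, -2966469788448, 141030170496, 0, -739349358336, 450484457472, 0, 1648113868800, 0, 0, 2655295737480, -791532689760, 0, 215675104896, -492590486592, 0, -2310440003136, 450484457472, 0, 2060142336000, 0, 0, 0, 0, 0, -4307411630808, 422582956416, 0, -2675771910720, 563105571840, 0, 1854128102400, 0, 0, 0, 0, 0, 0, 0, 0, 918378508032, 225242228736, 0, 2266156569600, 0, 0, 0, 0, 0, 0, 0, 0, 0, 0, 0, 824056934400, 0, 0, 0, 0, 0, 0, 0, 0, 0, 0, 0, 0, 0, 0, -554289421275, 252874144050, 0, 5680658799900, -1530610413300, 0, -13820880631140, 2953045421280, 0, 15954432280560, -1848358077120, 0, -6762285648000, 0, 0]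

def weightF7 : List ℤ :=
  [4420702099350, -1166928847200, 0, -18620364679020, 3786970307040, 0, 19170476044560, -1848358077120, 0, -8452857060000, 0, 0, 0, 0, 0, -8951125023540, 1797821623080, 0, 20669449363200, -2310447596400, 0, -7607571354000, 0, 0, 0, 0, 0, 0, 0, 0, 9152699966280, -924179038560, 0, -9298142766000, 0, 0, 0, 0, 0, 0, 0, 0, 0, 0, 0, -3381142824000, 0, 0, 0, 0, 0, 0, 0, 0, 0, 0, 0, 0, 0, 0, 1008530600715, -544449206130, 0, -8698594812300, 2507880345300, 0, 19912637838564, -3856276016928, 0, -19620715519152, 1978187603904, 0, 7237271721600, 0, 0, -7751909661390, 2118653617680, 0, 22659673083372, -4400872513344, 0, -22426246552752, 1978187603904, 0, 9046589652000, 0, 0, 0, 0, 0, 15016078657044, -2619908764488, 0, -24030508451040, 2472734504880, 0, 8141930686800, 0, 0, 0, 0, 0, 0, 0, 0, -12341226379176, 989093801952, 0, 9951248617200, 0, 0, 0, 0, 0, 0,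 0, 0, 0, 0, 0]

def weightF8 : List ℤ :=
  [3618635860800, 0, 0, 0, 0, 0, 0, 0, 0, 0, 0, 0, 0, 0, 0, 0, 0, 0, 0, 0, 0, 0, 0, 0, 0, 0, 0, 0, 0, 0, 0, 0, 0, 0, 0, 0, 0, 0, 0, 0, 0, 0, 0, 0, 0, 0, 0, 0, 0, 0, 0, 0, 0, 0, 0, 0, 0, 0, 0, 0, 0, 0, 0, 0, 0, 0, 0, 0, 0, 0, 0, 0, 0, 0, 0, 0, 0, 0, 0, 0, 0, 0, 0, 0, 0, 0, 0, 0, 0, 0, 0, 0, 0, 0, 0, 0, 0, 0, 0, 0, 0, 0, 0, 0, 0, 0, 0, 0, 0, 0, 0, 0, 0, 0, 0, 0, 0, 0, 0, 0]

def weightF9 : List ℤ :=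
  [0, 0, 0, 0, 0, 0, 0, 0, 0, 0, 0, 0, 0, 0, 0, 0, 0, 0, 0, 0, 0, 0, 0, 0, 0, 0, 0, 0, 0, 0, 0, 0, 0, 0, 0, 0, 0, 0, 0, 0, 0, 0, 0, 0, 0]

def weightF : List ℤ :=
  List.flatten [weightF0, weightF1, weightF2, weightF3, weightF4, weightF5, weightF6, weightF7, weightF8, weightF9]

def weightG0 : List ℤ :=
  [66116926, -98479704, 98479704, -131814000, 0, 0, 105451200, 0, 0, 0, 0, 0, 0, 0, 0, -131814000, 0, 0, 52725600, 0, 0, 0, 0, 0, 0, 0, 0, 0, 0, 0, 105451200, 0, 0, 0, 0, 0, 0, 0, 0, 0, 0, 0, 0, 0, 0, 0, 0, 0, 0, 0, 0, 0, 0, 0, 0, 0, 0, 0, 0, 0, 0, 0, 0, 0, 0, 0, 0, 0, 0, 0, 0, 0, 0, 0, 0, 0, 0, 0, 0, 0, 0, 0, 0, 0, 0, 0, 0, 0, 0, 0, 0, 0, 0, 0, 0, 0, 0, 0, 0, 0, 0, 0, 0, 0, 0, 0, 0, 0, 0, 0, 0, 0, 0, 0, 0, 0, 0, 0, 0, 0]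

def weightG1 : List ℤ :=
  [0, 0, 0, 0, 0, 0, 0, 0, 0, 0, 0, 0, 0, 0, 0, 0, 0, 0, 0, 0, 0, 0, 0, 0, 0, 0, 0, 0, 0, 0, 0, 0, 0, 0, 0, 0, 0, 0, 0, 0, 0, 0, 0, 0, 0, 0, 0, 0, 0, 0, 0, 0, 0, 0, 0, 0, 0, 0, 0, 0, 0, 0, 0, 0, 0, 0, 0, 0, 0, 0, 0, 0, 0, 0, 0, 0, 0, 0, 0, 0, 0, 0, 0, 0, 0, 0, 0, 0, 0, 0, 0, 0, 0, 0, 0, 0, 0, 0, 0, 0, 0, 0, 0, 0, 0, 0, 0, 0, 0, 0, 0, 0, 0, 0, 0, 0, 0, 0, 0, 0]

def weightG2 : List ℤ :=
  [0, 0, 0, 0, 0, 0, 0, 0, 0, 0, 0, 0, 0, 0, 0, 0, 0, 0, 0, 0, 0, 0, 0, 0, 0, 0, 0, 0, 0, 0, 0, 0, 0, 0, 0, 0, 0, 0, 0, 0, 0, 0, 0, 0, 0, 0, 0, 0, 0, 0, 0, 0, 0, 0, 0, 0, 0, 0, 0, 0, 0, 0, 0, 0, 0, 0, 0, 0, 0, 0, 0, 0, 0, 0, 0, 0, 0, 0, 0, 0, 0, 0, 0, 0, 0, 0, 0, 0, 0, 0, 0, 0, 0, 0, 0, 0, 0, 0, 0, 0, 0, 0, 0, 0, 0, 0, 0, 0, 0, 0, 0, 0, 0, 0, 0, 0, 0, 0, 0, 0]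

def weightG3 : List ℤ :=
  [0, 0, 0, 0, 0, 0, 0, 0, 0, 0, 0, 0, 0, 0, 0, 0, 0, 0, 0, 0, 0, 0, 0, 0, 0, 0, 0, 0, 0, 0, 0, 0, 0, 0, 0, 0, 0, 0, 0, 0, 0, 0, 0, 0, 0, 0, 0, 0, 0, 0, 0, 0, 0, 0, 0, 0, 0, 0, 0, 0, 0, 0, 0, 0, 0, 0, 0, 0, 0, 0, 0, 0, 0, 0, 0, 0, 0, 0, 0, 0, 0, 0, 0, 0, 0, 0, 0, 0, 0, 0, 0, 0, 0, 0, 0, 0, 0, 0, 0, 0, 0, 0, 0, 0, 0, 0, 0, 0, 0, 0, 0, 0, 0, 0, 0, 0, 0, 0, 0, 0]

def weightG4 : List ℤ :=
  [0, 0, 0, 0, 0, 0, 0, 0, 0, 0, 0, 0, 0, 0, 0, 0, 0, 0, 0, 0, 0, 0, 0, 0, 0, 0, 0, 0, 0, 0, 0, 0, 0, 0, 0, 0, 0, 0, 0, 0, 0, 0, 0, 0, 0, 0, 0, 0, 0, 0, 0, 0, 0, 0, 0, 0, 0, 0, 0, 0, 0, 0, 0, 0, 0, 0, 0, 0, 0, 0, 0, 0, 0, 0, 0, 0, 0, 0, 0, 0, 0, 0, 0, 0, 0, 0, 0, 0, 0, 0, 0, 0, 0, 0, 0, 0, 0, 0, 0, 0, 0, 0, 0, 0, 0, 0, 0, 0, 0, 0, 0, 0, 0, 0, 0, 0, 0, 0, 0, 0]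

def weightG5 : List ℤ :=
  [0, 0, 0, 0, 0, 0, 0, 0, 0, 0, 0, 0, 0, 0, 0, 0, 0, 0, 0, 0, 0, 0, 0, 0, 0, 0, 0, 0, 0, 0, 0, 0, 0, 0, 0, 0, 0, 0, 0, 0, 0, 0, 0, 0, 0, 0, 0, 0, 0, 0, 0, 0, 0, 0, 0, 0, 0, 0, 0, 0, 0, 0, 0, 0, 0, 0, 0, 0, 0, 0, 0, 0, 0, 0, 0, 0, 0, 0, 0, 0, 0, 0, 0, 0, 0, 0, 0, 0, 0, 0, 0, 0, 0, 0, 0, 0, 0, 0, 0, 0, 0, 0, 0, 0, 0, 0, 0, 0, 0, 0, 0, 0, 0, 0, 0, 0, 0, 0, 0, 0]

def weightG6 : List ℤ :=
  [0, 0, 0, 0, 0, 0, 0, 0, 0, 0, 0, 0, 0, 0, 0, 0, 0, 0, 0, 0, 0, 0, 0, 0, 0, 0, 0, 0, 0, 0, 0, 0, 0, 0, 0, 0, 0, 0, 0, 0, 0, 0, 0, 0, 0, 0, 0, 0, 0, 0, 0, 0, 0, 0, 0, 0, 0, 0, 0, 0, 0, 0, 0, 0, 0, 0, 0, 0, 0, 0, 0, 0, 0, 0, 0, 0, 0, 0, 0, 0, 0, 0, 0, 0, 0, 0, 0, 0, 0, 0, 0, 0, 0, 0, 0, 0, 0, 0, 0, 0, 0, 0, 0, 0, 0, 0, 0, 0, 0, 0, 0, 0, 0, 0, 0, 0, 0, 0, 0, 0]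

def weightG7 : List ℤ :=
  [0, 0, 0, 0, 0, 0, 0, 0, 0, 0, 0, 0, 0, 0, 0, 0, 0, 0, 0, 0, 0, 0, 0, 0, 0, 0, 0, 0, 0, 0, 0, 0, 0, 0, 0, 0, 0, 0, 0, 0, 0, 0, 0, 0, 0, 0, 0, 0, 0, 0, 0, 0, 0, 0, 0, 0, 0, 0, 0, 0, 0, 0, 0, 0, 0, 0, 0, 0, 0, 0, 0, 0, 0, 0, 0, 0, 0, 0, 0, 0, 0, 0, 0, 0, 0, 0, 0, 0, 0, 0, 0, 0, 0, 0, 0, 0, 0, 0, 0, 0, 0, 0, 0, 0, 0, 0, 0, 0, 0, 0, 0, 0, 0, 0, 0, 0, 0, 0, 0, 0]

def weightG8 : List ℤ :=
  [0, 0, 0, 0, 0, 0, 0, 0, 0, 0, 0, 0, 0, 0, 0, 0, 0, 0, 0, 0, 0, 0, 0, 0, 0, 0, 0, 0, 0, 0, 0, 0, 0, 0, 0, 0, 0, 0, 0, 0, 0, 0, 0, 0, 0, 0, 0, 0, 0, 0, 0, 0, 0, 0, 0, 0, 0, 0, 0, 0, 0, 0, 0, 0, 0, 0, 0, 0, 0, 0, 0, 0, 0, 0, 0, 0, 0, 0, 0, 0, 0, 0, 0, 0, 0, 0, 0, 0, 0, 0, 0, 0, 0, 0, 0, 0, 0, 0, 0, 0, 0, 0, 0, 0, 0, 0, 0, 0, 0, 0, 0, 0, 0, 0, 0, 0, 0, 0, 0, 0]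

def weightG9 : List ℤ :=
  [0, 0, 0, 0, 0, 0, 0, 0, 0, 0, 0, 0, 0, 0, 0, 0, 0, 0, 0, 0, 0, 0, 0, 0, 0, 0, 0, 0, 0, 0, 0, 0, 0, 0, 0, 0, 0, 0, 0, 0, 0, 0, 0, 0, 0]

def weightG : List ℤ :=
  List.flatten [weightG0, weightG1, weightG2, weightG3, weightG4, weightG5, weightG6, weightG7, weightG8, weightG9]

def weightT0 : MTree :=
  (.node 3 (.node 0 (.node 4 (.leaf 141) (.leaf 27)) (.leaf 0)) (.node 0 (.leaf 41) (.leaf 0)))

def weightT1 : MTree :=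
  (.node 3 (.leaf 3933) (.node 0 (.node 4 (.leaf 1155) (.node 1 (.node 2 (.node 3 (.leaf 225) (.node 0 (.leaf 65) (.leaf 0))) (.node 3 (.node 0 (.node 4 (.node 1 (.node 2 (.leaf 250) (.node 3 (.leaf 283) (.node 0 (.leaf 269) (.node 4 (.leaf 355) (.node 1 (.node 2 (.leaf 274) (.node 3 (.leaf 367) (.node 0 (.leaf 281) (.leaf 276)))) (.leaf 0)))))) (.leaf 2)) (.node 1 (.node 2 (.leaf 176) (.node 3 (.node 0 (.leaf 0) (.leaf 148)) (.node 0 (.leaf 59) (.node 4 (.node 1 (.node 2 (.leaf 186) (.node 3 (.node 0 (.leaf 151) (.leaf 147)) (.node 0 (.leaf 102) (.leaf 87)))) (.leaf 0)) (.leaf 0))))) (.leaf 0))) (.node 4 (.leaf 322) (.leaf 292))) (.node 0 (.node 4 (.node 1 (.node 2 (.leaf 304) (.node 3 (.node 0 (.leaf 244) (.leaf 303)) (.leaf 64))) (.leaf 0)) (.node 1 (.node 2 (.leaf 62) (.node 3 (.node 0 (.leaf 0) (.leaf 0)) (.leaf 0))) (.leaf 0))) (.leaf 234)))) (.leaf 87))) (.leaf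 138)))

def weightT2 : MTree :=
  (.node 0 (.node 4 (.leaf 435) (.node 1 (.node 2 (.node 3 (.leaf 0) (.node 0 (.leaf 124) (.leaf 85))) (.node 3 (.leaf 0) (.node 0 (.leaf 88) (.leaf 47)))) (.leaf 0))) (.leaf 54))

def weightT3 : MTree :=
  (.node 1 (.node 2 (.leaf 1455) (.leaf 909)) (.leaf 259))

def weightT4 : MTree :=
  (.node 3 (.node 0 (.node 4 (.node 1 (.node 2 (.node 3 (.leaf 589) (.node 0 (.leaf 291) (.node 4 (.leaf 395) (.node 1 (.node 2 (.node 3 (.node 0 (.leaf 287) (.leaf 285)) (.node 0 (.leaf 290) (.leaf 285))) (.node 3 (.node 0 (.leaf 277) (.leaf 277)) (.node 0 (.leaf 264) (.leaf 260)))) (.leaf 6))))) (.node 3 (.leaf 576) (.node 0 (.leaf 229) (.leaf 295)))) (.leaf 30)) (.node 1 (.node 2 (.node 3 (.node 0 (.leaf 25) (.leaf 272)) (.node 0 (.leaf 86) (.node 4 (.node 1 (.node 2 (.node 3 (.node 0 (.leaf 184) (.leaf 185)) (.node 0 (.leaf 74) (.leaf 50))) (.node 3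 (.node 0 (.leaf 117) (.leaf 124)) (.leaf 0))) (.leaf 0)) (.leaf 0)))) (.node 3 (.node 0 (.leaf 0) (.leaf 112)) (.node 0 (.leaf 0) (.leaf 0)))) (.leaf 0))) (.node 4 (.node 1 (.node 2 (.node 3 (.leaf 238) (.leaf 283)) (.leaf 310)) (.leaf 0)) (.node 1 (.node 2 (.node 3 (.leaf 64) (.leaf 96)) (.leaf 156)) (.leaf 0)))) (.node 0 (.node 4 (.node 1 (.node 2 (.node 3 (.node 0 (.leaf 236) (.leaf 293)) (.leaf 0)) (.leaf 181)) (.leaf 0)) (.leaf 0)) (.leaf 210)))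

def weightT5 : MTree :=
  (.node 3 (.node 0 (.leaf 213) (.leaf 134)) (.leaf 0))

def weightT6 : MTree :=
  (.node 2 weightT4 weightT5)

def weightT7 : MTree :=
  (.leaf 137)

def weightT8 : MTree :=
  (.node 1 weightT6 weightT7)

def weightT9 : MTree :=
  (.node 4 weightT3 weightT8)

def weightT10 : MTree :=
  (.leaf 177)

def weightT11 : MTree :=
  (.node 0 weightT9 weightT10)

def weightT12 : MTree :=
  (.node 3 weightT2 weightT11)

def weightT13 : MTree :=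
  (.node 2 weightT1 weightT12)

def weightT14 : MTree :=
  (.node 2 (.node 3 (.leaf 0) (.leaf 162)) (.node 3 (.leaf 0) (.leaf 214)))

def weightT15 : MTree :=
  (.node 1 weightT13 weightT14)

def weightT16 : MTree :=
  (.node 1 (.node 2 (.node 3 (.node 0 (.leaf 0) (.leaf 0)) (.node 0 (.node 4 (.node 1 (.node 2 (.node 3 (.leaf 0) (.leaf 0)) (.node 3 (.node 0 (.leaf 0) (.leaf 0)) (.node 0 (.leaf 0) (.leaf 0)))) (.leaf 0)) (.leaf 0)) (.leaf 0))) (.node 3 (.node 0 (.node 4 (.node 1 (.node 2 (.node 3 (.leaf 0) (.node 0 (.leaf 0) (.leaf 0))) (.leaf 0)) (.leaf 0)) (.leaf 0)) (.leaf 0)) (.node 0 (.node 4 (.node 1 (.node 2 (.node 3 (.node 0 (.leaf 0) (.leaf 0)) (.leaf 0)) (.leaf 0)) (.leaf 0)) (.leaf 0)) (.leaf 0)))) (.node 2 (.leaf 0) (.node 3 (.leaf 0) (.leaf 0))))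

def weightT17 : MTree :=
  (.node 4 weightT15 weightT16)

def weightT18 : MTree :=
  (.leaf 0)

def weightT19 : MTree :=
  (.node 0 weightT17 weightT18)

def weightT20 : MTree :=
  (.node 0 (.node 4 (.node 1 (.node 2 (.node 3 (.node 0 (.leaf 243) (.leaf 0)) (.leaf 0)) (.leaf 264)) (.leaf 103)) (.node 1 (.node 2 (.leaf 0) (.leaf 0)) (.leaf 0))) (.leaf 0))

def weightT21 : MTree :=
  (.node 3 weightT19 weightT20)

def weightT22 : MTree :=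
  (.node 2 weightT0 weightT21)

def weightT23 : MTree :=
  (.node 2 (.node 3 (.leaf 0) (.leaf 0)) (.node 3 (.node 0 (.leaf 0) (.leaf 0)) (.leaf 130)))

def weightT24 : MTree :=
  (.node 1 weightT22 weightT23)

def weightT25 : MTree :=
  (.node 1 (.node 2 (.node 3 (.node 0 (.leaf 0) (.leaf 0)) (.leaf 0)) (.node 3 (.node 0 (.node 4 (.node 1 (.node 2 (.node 3 (.leaf 0) (.node 0 (.leaf 0) (.leaf 0))) (.node 3 (.node 0 (.leaf 0) (.leaf 0)) (.leaf 0))) (.leaf 0)) (.node 1 (.node 2 (.node 3 (.leaf 0) (.leaf 0)) (.node 3 (.leaf 0) (.leaf 0))) (.leaf 0))) (.leaf 0)) (.leaf 0))) (.node 2 (.node 3 (.leaf 0) (.leaf 0)) (.node 3 (.leaf 0) (.leaf 0))))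

def weightT26 : MTree :=
  (.node 4 weightT24 weightT25)

def weightT27 : MTree :=
  (.leaf 0)

def weightT28 : MTree :=
  (.node 0 weightT26 weightT27)

def weightT29 : MTree :=
  (.node 0 (.leaf 0) (.node 4 (.node 1 (.node 2 (.node 3 (.leaf 5868) (.node 0 (.leaf 0) (.leaf 15570))) (.leaf 0)) (.leaf 3838)) (.node 1 (.node 2 (.node 3 (.leaf 4162) (.node 0 (.leaf 0) (.leaf 13783))) (.leaf 0)) (.leaf 2738))))

def weightT30 : MTree :=
  (.node 3 weightT28 weightT29)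

def weightT31 : MTree :=
  (.node 3 (.node 0 (.node 4 (.node 1 (.node 2 (.node 3 (.node 0 (.leaf 139) (.leaf 0)) (.node 0 (.leaf 153) (.leaf 0))) (.leaf 177)) (.node 2 (.node 3 (.leaf 0) (.leaf 0)) (.leaf 0))) (.node 1 (.node 2 (.node 3 (.node 0 (.leaf 0) (.leaf 0)) (.leaf 0)) (.leaf 0)) (.leaf 0))) (.leaf 0)) (.leaf 0))

def weightT32 : MTree :=
  (.node 4 (.leaf 3116) (.node 1 (.node 2 (.node 3 (.node 0 (.node 4 (.leaf 1841) (.node 1 (.node 2 (.leaf 713) (.leaf 3036)) (.node 2 (.leaf 557) (.leaf 3064)))) (.node 4 (.leaf 3014) (.node 1 (.node 2 (.node 3 (.leaf 2637) (.leaf 0)) (.node 3 (.leaf 4251) (.node 0 (.leaf 3095) (.node 4 (.leaf 3263) (.node 1 (.node 2 (.leaf 2513) (.leaf 4040)) (.leaf 3648)))))) (.node 2 (.leaf 1398) (.node 3 (.leaf 3525) (.leaf 3097)))))) (.leaf 0)) (.node 3 (.node 0 (.node 4 (.leaf 3750) (.leaf 4586)) (.leaf 5159)) (.node 0 (.leaf 4277) (.leaf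 4168)))) (.node 2 (.node 3 (.node 0 (.node 4 (.leaf 1633) (.node 1 (.node 2 (.leaf 0) (.leaf 2837)) (.leaf 2338))) (.node 4 (.leaf 1898) (.node 1 (.node 2 (.leaf 276) (.leaf 3161)) (.leaf 2091)))) (.leaf 0)) (.node 3 (.node 0 (.node 4 (.leaf 3823) (.node 1 (.node 2 (.leaf 4143) (.leaf 4710)) (.node 2 (.node 3 (.leaf 3586) (.leaf 4129)) (.leaf 4792)))) (.leaf 4782)) (.node 0 (.node 4 (.leaf 3682) (.node 1 (.node 2 (.leaf 3627) (.leaf 4605)) (.node 2 (.node 3 (.node 0 (.leaf 3914) (.leaf 3626)) (.leaf 0)) (.leaf 4785)))) (.leaf 4421))))))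

def weightT33 : MTree :=
  (.leaf 4785)

def weightT34 : MTree :=
  (.leaf 4080)

def weightT35 : MTree :=
  (.node 2 (.node 3 (.node 0 (.leaf 3553) (.leaf 4038)) (.leaf 0)) (.node 3 (.node 0 (.node 4 (.leaf 4348) (.node 1 (.node 2 (.node 3 (.leaf 4314) (.node 0 (.leaf 4270) (.node 4 (.leaf 4308) (.node 1 (.node 2 (.leaf 4278) (.node 3 (.leaf 4567) (.leaf 4673))) (.leaf 4042))))) (.leaf 4981)) (.leaf 4373))) (.node 4 (.leaf 4957) (.node 1 (.node 2 (.node 3 (.leaf 4962) (.node 0 (.node 4 (.leaf 4622) (.node 1 (.node 2 (.leaf 4595) (.node 3 (.leaf 4897) (.node 0 (.node 4 (.leaf 4689) (.leaf 4846)) (.leaf 4978)))) (.leaf 4262))) (.node 4 (.leaf 4852) (.node 1 (.node 2 (.leaf 4713) (.leaf 5223)) (.leaf 4417))))) (.leaf 5566)) (.leaf 4762)))) (.node 0 (.node 4 (.leaf 3865) (.node 1 (.node 2 (.node 3 (.node 0 (.leaf 3711) (.node 4 (.leaf 3293) (.node 1 (.node 2 (.leaf 0) (.leaf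 4393)) (.leaf 1940)))) (.leaf 0)) (.node 3 (.leaf 4750) (.leaf 0))) (.leaf 3905))) (.node 4 (.leaf 4238) (.node 1 (.node 2 (.node 3 (.node 0 (.node 4 (.leaf 3456) (.node 1 (.node 2 (.leaf 0) (.leaf 4606)) (.leaf 1784))) (.leaf 4562)) (.leaf 0)) (.node 3 (.leaf 5181) (.leaf 0))) (.leaf 3947))))))

def weightT36 : MTree :=
  (.node 2 (.leaf 1676) (.leaf 4173))

def weightT37 : MTree :=
  (.node 1 weightT35 weightT36)

def weightT38 : MTree :=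
  (.node 4 weightT34 weightT37)

def weightT39 : MTree :=
  (.node 4 (.leaf 5055) (.node 1 (.node 2 (.node 3 (.leaf 4462) (.leaf 0)) (.node 3 (.node 0 (.node 4 (.leaf 5496) (.node 1 (.node 2 (.node 3 (.leaf 5452) (.leaf 5509)) (.leaf 6083)) (.leaf 5076))) (.leaf 6572)) (.node 0 (.node 4 (.leaf 4381) (.leaf 5333)) (.leaf 5340)))) (.leaf 4408)))

def weightT40 : MTree :=
  (.node 0 weightT38 weightT39)

def weightT41 : MTree :=
  (.leaf 0)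

def weightT42 : MTree :=
  (.node 3 weightT40 weightT41)

def weightT43 : MTree :=
  (.node 3 (.leaf 7003) (.leaf 3561))

def weightT44 : MTree :=
  (.node 2 weightT42 weightT43)

def weightT45 : MTree :=
  (.node 2 (.node 3 (.leaf 2820) (.leaf 0)) (.node 3 (.leaf 4935) (.leaf 3529)))

def weightT46 : MTree :=
  (.node 1 weightT44 weightT45)

def weightT47 : MTree :=
  (.node 4 weightT33 weightT46)

def weightT48 : MTree :=
  (.node 0 weightT32 weightT47)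

def weightT49 : MTree :=
  (.leaf 0)

def weightT50 : MTree :=
  (.node 3 weightT48 weightT49)

def weightT51 : MTree :=
  (.node 2 weightT31 weightT50)

def weightT52 : MTree :=
  (.node 3 (.leaf 215) (.leaf 0))

def weightT53 : MTree :=
  (.leaf 2840)

def weightT54 : MTree :=
  (.node 2 (.node 3 (.leaf 2452) (.leaf 0)) (.node 3 (.node 0 (.node 4 (.leaf 3835) (.node 1 (.node 2 (.leaf 4187) (.leaf 4833)) (.node 2 (.leaf 4078) (.leaf 4827)))) (.leaf 4612)) (.node 0 (.node 4 (.leaf 3738) (.node 1 (.node 2 (.node 3 (.node 0 (.node 4 (.leaf 3284) (.node 1 (.node 2 (.leaf 0) (.leaf 4146)) (.node 2 (.leaf 0) (.node 3 (.leaf 4249) (.leaf 3245))))) (.leaf 3672)) (.leaf 0)) (.node 3 (.leaf 4877) (.leaf 4379))) (.node 2 (.node 3 (.node 0 (.node 4 (.leaf 3298) (.node 1 (.node 2 (.leaf 0) (.node 3 (.node 0 (.node 4 (.leaf 3934) (.node 1 (.leaf 4317) (.node 2 (.leaf 3397) (.leaf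 4392)))) (.leaf 3967)) (.leaf 4024))) (.node 2 (.leaf 0) (.node 3 (.node 0 (.node 4 (.leaf 3938) (.node 1 (.node 2 (.leaf 3327) (.leaf 4424)) (.node 2 (.leaf 3210) (.leaf 4424)))) (.leaf 3912)) (.leaf 4262))))) (.leaf 3594)) (.leaf 0)) (.node 3 (.node 0 (.node 4 (.leaf 4500) (.node 1 (.node 2 (.node 3 (.leaf 4671) (.leaf 4634)) (.leaf 4931)) (.node 2 (.node 3 (.leaf 4687) (.leaf 4669)) (.leaf 4947)))) (.leaf 4723)) (.leaf 4585))))) (.leaf 4415))))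

def weightT55 : MTree :=
  (.node 2 (.leaf 1129) (.node 3 (.node 0 (.node 4 (.leaf 3686) (.node 1 (.node 2 (.leaf 3944) (.leaf 4765)) (.leaf 4622))) (.leaf 4208)) (.node 0 (.node 4 (.leaf 3730) (.node 1 (.node 2 (.node 3 (.node 0 (.node 4 (.leaf 3188) (.node 1 (.node 2 (.leaf 0) (.node 3 (.node 0 (.node 4 (.leaf 3878) (.node 1 (.node 2 (.leaf 3044) (.leaf 4394)) (.leaf 4303))) (.leaf 3744)) (.leaf 4250))) (.node 2 (.leaf 0) (.node 3 (.leaf 4153) (.leaf 3935))))) (.leaf 3202)) (.leaf 0)) (.node 3 (.node 0 (.node 4 (.leaf 4491) (.node 1 (.node 2 (.node 3 (.leaf 4681) (.leaf 4668)) (.leaf 4945)) (.node 2 (.node 3 (.leaf 4633) (.leaf 4638)) (.leaf 4918)))) (.leaf 4658)) (.leaf 4617))) (.node 2 (.node 3 (.node 0 (.node 4 (.leaf 2796) (.node 1 (.node 2 (.leaf 0) (.leaf 4131)) (.leaf 3326))) (.leaf 2472)) (.leaf 0)) (.node 3 (.node 0 (.node 4 (.leaf 4407) (.node 1 (.node 2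 (.leaf 4649) (.leaf 4850)) (.leaf 4742))) (.leaf 4453)) (.leaf 4580))))) (.leaf 4140))))

def weightT56 : MTree :=
  (.node 1 weightT54 weightT55)

def weightT57 : MTree :=
  (.node 4 weightT53 weightT56)

def weightT58 : MTree :=
  (.node 4 (.leaf 2431) (.node 1 (.node 2 (.leaf 591) (.leaf 4413)) (.leaf 3421)))

def weightT59 : MTree :=
  (.node 0 weightT57 weightT58)

def weightT60 : MTree :=
  (.leaf 941)

def weightT61 : MTree :=
  (.node 3 weightT59 weightT60)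

def weightT62 : MTree :=
  (.node 2 weightT52 weightT61)

def weightT63 : MTree :=
  (.node 1 weightT51 weightT62)

def weightT64 : MTree :=
  (.node 3 (.node 0 (.node 4 (.node 1 (.node 2 (.node 3 (.leaf 0) (.leaf 0)) (.leaf 0)) (.leaf 0)) (.leaf 0)) (.leaf 40)) (.leaf 0))

def weightT65 : MTree :=
  (.node 4 (.node 1 (.node 2 (.node 3 (.node 0 (.node 4 (.node 1 (.node 2 (.leaf 854) (.leaf 3177)) (.node 2 (.leaf 696) (.leaf 3206))) (.leaf 2252)) (.node 4 (.node 1 (.node 2 (.node 3 (.leaf 2774) (.leaf 0)) (.node 3 (.leaf 4385) (.node 0 (.leaf 3235) (.node 4 (.node 1 (.node 2 (.leaf 2581) (.leaf 4107)) (.leaf 3715)) (.leaf 3487))))) (.node 2 (.leaf 1533) (.node 3 (.leaf 3657) (.leaf 3229)))) (.leaf 3409))) (.leaf 0)) (.node 3 (.node 0 (.node 4 (.leaf 4727) (.leaf 4241)) (.leaf 5423)) (.node 0 (.leaf 4567) (.leaf 4452)))) (.node 2 (.node 3 (.node 0 (.node 4 (.node 1 (.node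 2 (.leaf 197) (.leaf 2977)) (.leaf 2478)) (.leaf 2040)) (.node 4 (.node 1 (.node 2 (.leaf 415) (.leaf 3300)) (.leaf 2230)) (.leaf 2306))) (.leaf 0)) (.node 3 (.node 0 (.node 4 (.node 1 (.node 2 (.leaf 4285) (.leaf 4852)) (.node 2 (.node 3 (.leaf 3725) (.leaf 4269)) (.leaf 4932))) (.leaf 4298)) (.leaf 5060)) (.node 0 (.node 4 (.node 1 (.node 2 (.leaf 3768) (.leaf 4748)) (.node 2 (.node 3 (.node 0 (.leaf 4051) (.leaf 3764)) (.leaf 0)) (.leaf 4926))) (.leaf 4143)) (.leaf 4701))))) (.leaf 3880))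

def weightT66 : MTree :=
  (.node 2 (.node 3 (.node 0 (.leaf 3680) (.leaf 4152)) (.leaf 0)) (.node 3 (.node 0 (.node 4 (.node 1 (.node 2 (.node 3 (.leaf 4378) (.node 0 (.leaf 4336) (.node 4 (.node 1 (.node 2 (.leaf 4310) (.node 3 (.leaf 4599) (.leaf 4705))) (.leaf 4074)) (.leaf 4426)))) (.leaf 5044)) (.leaf 4435)) (.leaf 4579)) (.node 4 (.node 1 (.node 2 (.node 3 (.leaf 5019) (.node 0 (.node 4 (.node 1 (.node 2 (.leaf 4625) (.node 3 (.leaf 4927) (.node 0 (.node 4 (.leaf 4861) (.leaf 4748)) (.leaf 5008)))) (.leaf 4291)) (.leaf 4734)) (.node 4 (.node 1 (.node 2 (.leaf 4741) (.leaf 5251)) (.leaf 4445)) (.leaf 4957)))) (.leaf 5621)) (.leaf 4817)) (.leaf 5162))) (.node 0 (.node 4 (.node 1 (.node 2 (.node 3 (.node 0 (.leaf 3776) (.node 4 (.node 1 (.node 2 (.leaf 0) (.leaf 4425)) (.leaf 1972)) (.leaf 3388))) (.leaf 0)) (.node 3 (.leaf 4812) (.leaf 0))) (.leaf 3966)) (.leaf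 4071)) (.node 4 (.node 1 (.node 2 (.node 3 (.node 0 (.node 4 (.node 1 (.node 2 (.leaf 0) (.leaf 4637)) (.leaf 1815)) (.leaf 3549)) (.leaf 4621)) (.leaf 0)) (.node 3 (.leaf 5235) (.leaf 0))) (.leaf 4005)) (.leaf 4419)))))

def weightT67 : MTree :=
  (.node 2 (.leaf 1806) (.leaf 4280))

def weightT68 : MTree :=
  (.node 1 weightT66 weightT67)

def weightT69 : MTree :=
  (.leaf 4403)

def weightT70 : MTree :=
  (.node 4 weightT68 weightT69)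

def weightT71 : MTree :=
  (.node 4 (.node 1 (.node 2 (.node 3 (.leaf 4541) (.leaf 0)) (.node 3 (.node 0 (.node 4 (.node 1 (.node 2 (.node 3 (.leaf 5501) (.leaf 5556)) (.leaf 6129)) (.leaf 5123)) (.leaf 5667)) (.leaf 6642)) (.node 0 (.node 4 (.leaf 5378) (.leaf 4534)) (.leaf 5423)))) (.leaf 4481)) (.leaf 5311))

def weightT72 : MTree :=
  (.node 0 weightT70 weightT71)

def weightT73 : MTree :=
  (.leaf 0)

def weightT74 : MTree :=
  (.node 3 weightT72 weightT73)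

def weightT75 : MTree :=
  (.node 3 (.leaf 7141) (.leaf 3816))

def weightT76 : MTree :=
  (.node 2 weightT74 weightT75)

def weightT77 : MTree :=
  (.node 2 (.node 3 (.leaf 3082) (.leaf 0)) (.node 3 (.leaf 5157) (.leaf 3784)))

def weightT78 : MTree :=
  (.node 1 weightT76 weightT77)

def weightT79 : MTree :=
  (.leaf 5158)

def weightT80 : MTree :=
  (.node 4 weightT78 weightT79)

def weightT81 : MTree :=
  (.node 0 weightT65 weightT80)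

def weightT82 : MTree :=
  (.leaf 0)

def weightT83 : MTree :=
  (.node 3 weightT81 weightT82)

def weightT84 : MTree :=
  (.node 2 weightT64 weightT83)

def weightT85 : MTree :=
  (.node 3 (.leaf 0) (.leaf 0))

def weightT86 : MTree :=
  (.node 2 (.node 3 (.leaf 2744) (.leaf 0)) (.node 3 (.node 0 (.node 4 (.node 1 (.node 2 (.leaf 4326) (.leaf 4972)) (.node 2 (.leaf 4209) (.leaf 4965))) (.leaf 4306)) (.leaf 4889)) (.node 0 (.node 4 (.node 1 (.node 2 (.node 3 (.node 0 (.node 4 (.node 1 (.node 2 (.leaf 0) (.leaf 4213)) (.node 2 (.leaf 0) (.node 3 (.leaf 4314) (.leaf 3311)))) (.leaf 3503)) (.leaf 3809)) (.leaf 0)) (.node 3 (.leaf 5014) (.leaf 4513))) (.node 2 (.node 3 (.node 0 (.node 4 (.node 1 (.node 2 (.leaf 0) (.node 3 (.node 0 (.node 4 (.node 1 (.leaf 4349) (.node 2 (.leaf 3429) (.leaf 4425))) (.leaf 4054)) (.leaf 4034)) (.leaf 4089))) (.node 2 (.leaf 0) (.node 3 (.node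 0 (.node 4 (.node 1 (.node 2 (.leaf 3360) (.leaf 4456)) (.node 2 (.leaf 3242) (.leaf 4456))) (.leaf 4057)) (.leaf 3978)) (.leaf 4326)))) (.leaf 3516)) (.leaf 3730)) (.leaf 0)) (.node 3 (.node 0 (.node 4 (.node 1 (.node 2 (.node 3 (.leaf 4736) (.leaf 4699)) (.leaf 4996)) (.node 2 (.node 3 (.leaf 4752) (.leaf 4733)) (.leaf 5012))) (.leaf 4745)) (.leaf 4859)) (.leaf 4714)))) (.leaf 4191)) (.leaf 4693))))

def weightT87 : MTree :=
  (.node 2 (.leaf 1412) (.node 3 (.node 0 (.node 4 (.node 1 (.node 2 (.leaf 4072) (.leaf 4894)) (.leaf 4747)) (.leaf 4139)) (.leaf 4478)) (.node 0 (.node 4 (.node 1 (.node 2 (.node 3 (.node 0 (.node 4 (.node 1 (.node 2 (.leaf 0) (.node 3 (.node 0 (.node 4 (.node 1 (.node 2 (.leaf 3076) (.leaf 4426)) (.leaf 4335)) (.leaf 3997)) (.leaf 3810)) (.leaf 4314))) (.node 2 (.leaf 0) (.node 3 (.leaf 4216) (.leaf 3998)))) (.leaf 3402)) (.leaf 3336)) (.leaf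 0)) (.node 3 (.node 0 (.node 4 (.node 1 (.node 2 (.node 3 (.leaf 4746) (.leaf 4733)) (.leaf 5010)) (.node 2 (.node 3 (.leaf 4696) (.leaf 4701)) (.leaf 4982))) (.leaf 4732)) (.leaf 4792)) (.leaf 4744))) (.node 2 (.node 3 (.node 0 (.node 4 (.node 1 (.node 2 (.leaf 0) (.leaf 4194)) (.leaf 3387)) (.leaf 3005)) (.leaf 2602)) (.leaf 0)) (.node 3 (.node 0 (.node 4 (.node 1 (.node 2 (.leaf 4712) (.leaf 4913)) (.leaf 4803)) (.leaf 4639)) (.leaf 4583)) (.leaf 4705)))) (.leaf 4130)) (.leaf 4410))))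

def weightT88 : MTree :=
  (.node 1 weightT86 weightT87)

def weightT89 : MTree :=
  (.leaf 3572)

def weightT90 : MTree :=
  (.node 4 weightT88 weightT89)

def weightT91 : MTree :=
  (.node 4 (.node 1 (.node 2 (.leaf 856) (.leaf 4670)) (.leaf 3677)) (.leaf 3072))

def weightT92 : MTree :=
  (.node 0 weightT90 weightT91)

def weightT93 : MTree :=
  (.leaf 1440)

def weightT94 : MTree :=
  (.node 3 weightT92 weightT93)

def weightT95 : MTree :=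
  (.node 2 weightT85 weightT94)

def weightT96 : MTree :=
  (.node 1 weightT84 weightT95)

def weightT97 : MTree :=
  (.node 4 weightT63 weightT96)

def weightT98 : MTree :=
  (.node 4 (.node 1 (.node 2 (.leaf 0) (.node 3 (.node 0 (.node 4 (.leaf 6569) (.node 1 (.node 2 (.node 3 (.node 0 (.node 4 (.leaf 6211) (.node 1 (.node 2 (.leaf 5068) (.node 3 (.leaf 7643) (.leaf 5207))) (.leaf 4734))) (.leaf 8998)) (.leaf 0)) (.leaf 9715)) (.leaf 4941))) (.node 4 (.leaf 8875) (.node 1 (.node 2 (.leaf 11763) (.leaf 12834)) (.leaf 4757)))) (.leaf 0))) (.leaf 2685)) (.node 1 (.node 2 (.leaf 0) (.node 3 (.node 0 (.node 4 (.node 1 (.node 2 (.node 3 (.node 0 (.node 4 (.node 1 (.node 2 (.leaf 5101) (.node 3 (.leaf 7667) (.leaf 5273))) (.leaf 4753)) (.leaf 6287)) (.leaf 8901)) (.leaf 0)) (.leaf 9598)) (.leaf 5019)) (.leaf 6160)) (.node 4 (.node 1 (.node 2 (.leaf 11280) (.leaf 12320)) (.leaf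 4621)) (.leaf 7624))) (.leaf 0))) (.leaf 2965)))

def weightT99 : MTree :=
  (.node 0 weightT97 weightT98)

def weightT100 : MTree :=
  (.leaf 1120)

def weightT101 : MTree :=
  (.node 3 weightT99 weightT100)

def weightT102 : MTree :=
  (.node 2 weightT30 weightT101)

def weightT103 : MTree :=
  (.node 3 (.node 0 (.node 4 (.node 1 (.node 2 (.leaf 49) (.node 3 (.leaf 0) (.leaf 0))) (.leaf 0)) (.node 1 (.node 2 (.leaf 0) (.leaf 0)) (.leaf 0))) (.leaf 0)) (.leaf 13))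

def weightT104 : MTree :=
  (.node 0 (.node 4 (.node 1 (.node 2 (.node 3 (.leaf 0) (.leaf 0)) (.node 3 (.node 0 (.node 4 (.leaf 2395) (.node 1 (.node 2 (.leaf 0) (.node 3 (.leaf 4349) (.node 0 (.node 4 (.leaf 3468) (.node 1 (.node 2 (.leaf 2655) (.node 3 (.leaf 4593) (.leaf 4371))) (.node 2 (.leaf 1494) (.leaf 4302)))) (.leaf 3387)))) (.node 2 (.leaf 0) (.node 3 (.leaf 3411) (.leaf 3716))))) (.leaf 2196)) (.leaf 896))) (.node 2 (.leaf 0) (.node 3 (.leaf 2544) (.leaf 0)))) (.node 1 (.node 2 (.leaf 0) (.node 3 (.node 0 (.node 4 (.node 1 (.node 2 (.leaf 0) (.node 3 (.leaf 4590) (.node 0 (.node 4 (.node 1 (.node 2 (.leaf 2776) (.node 3 (.leaf 4713) (.leaf 4491))) (.node 2 (.leaf 1611) (.leaf 4417))) (.leaf 3839)) (.leaf 3644)))) (.node 2 (.leaf 0) (.node 3 (.leaf 3634) (.leaf 3936)))) (.leaf 2882)) (.leaf 2696)) (.leaf 1370))) (.node 2 (.leaf 0) (.node 3 (.leaf 2944) (.leaf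 0))))) (.leaf 0))

def weightT105 : MTree :=
  (.node 4 (.leaf 1472) (.leaf 1796))

def weightT106 : MTree :=
  (.node 1 (.leaf 0) (.node 2 (.node 3 (.leaf 0) (.node 0 (.leaf 0) (.node 4 (.node 1 (.leaf 0) (.node 2 (.leaf 0) (.leaf 872))) (.node 1 (.leaf 0) (.node 2 (.leaf 0) (.node 3 (.node 0 (.leaf 0) (.node 4 (.leaf 0) (.node 1 (.leaf 0) (.node 2 (.leaf 0) (.leaf 0))))) (.leaf 0))))))) (.node 3 (.leaf 0) (.node 0 (.leaf 871) (.node 4 (.leaf 513) (.node 1 (.leaf 0) (.node 2 (.node 3 (.leaf 0) (.leaf 0)) (.leaf 0))))))))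

def weightT107 : MTree :=
  (.leaf 0)

def weightT108 : MTree :=
  (.leaf 152)

def weightT109 : MTree :=
  (.leaf 0)

def weightT110 : MTree :=
  (.node 1 (.leaf 0) (.node 2 (.node 3 (.leaf 0) (.leaf 0)) (.node 3 (.node 0 (.leaf 0) (.node 4 (.node 1 (.leaf 0) (.node 2 (.leaf 0) (.node 3 (.leaf 0) (.leaf 0)))) (.node 1 (.leaf 0) (.node 2 (.node 3 (.leaf 0) (.node 0 (.leaf 0) (.node 4 (.leaf 0) (.node 1 (.leaf 0) (.node 2 (.leaf 0) (.node 3 (.leaf 0) (.leaf 0))))))) (.node 3 (.leaf 86) (.node 0 (.leaf 0) (.node 4 (.node 1 (.leaf 0) (.node 2 (.node 3 (.leaf 0) (.leaf 0)) (.leaf 0))) (.node 1 (.leaf 0) (.node 2 (.node 3 (.node 0 (.leaf 0) (.node 4 (.node 1 (.leaf 0) (.node 2 (.leaf 0) (.leaf 25))) (.node 1 (.leaf 0) (.node 2 (.node 3 (.leaf 179) (.leaf 193)) (.node 3 (.leaf 186) (.leaf 187)))))) (.leaf 99)) (.leaf 264)))))))))) (.leaf 0))))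

def weightT111 : MTree :=
  (.node 1 (.leaf 0) (.node 2 (.node 3 (.leaf 52) (.leaf 0)) (.node 3 (.node 0 (.leaf 0) (.node 4 (.node 1 (.leaf 0) (.node 2 (.node 3 (.leaf 193) (.node 0 (.leaf 0) (.node 4 (.node 1 (.leaf 0) (.node 2 (.leaf 0) (.node 3 (.leaf 222) (.leaf 130)))) (.leaf 276)))) (.node 3 (.leaf 290) (.node 0 (.leaf 0) (.node 4 (.node 1 (.leaf 0) (.node 2 (.node 3 (.leaf 363) (.leaf 152)) (.leaf 220))) (.leaf 334)))))) (.leaf 626))) (.leaf 42))))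

def weightT112 : MTree :=
  (.node 4 weightT110 weightT111)

def weightT113 : MTree :=
  (.node 0 weightT109 weightT112)

def weightT114 : MTree :=
  (.node 3 weightT108 weightT113)

def weightT115 : MTree :=
  (.node 3 (.leaf 0) (.node 0 (.leaf 1040) (.node 4 (.node 1 (.leaf 0) (.node 2 (.node 3 (.leaf 32) (.leaf 0)) (.leaf 0))) (.leaf 1108))))

def weightT116 : MTree :=
  (.node 2 weightT114 weightT115)

def weightT117 : MTree :=
  (.node 1 weightT107 weightT116)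

def weightT118 : MTree :=
  (.node 4 weightT106 weightT117)

def weightT119 : MTree :=
  (.node 0 weightT105 weightT118)

def weightT120 : MTree :=
  (.node 3 weightT104 weightT119)

def weightT121 : MTree :=
  (.node 2 weightT103 weightT120)

def weightT122 : MTree :=
  (.node 1 weightT102 weightT121)

theorem weight_check :
    checkUnit 75 288230376151711744 [2, 4, 4, 4, 2] weightF weightG weightT122 = true := by
  decide +kernel

end Vale.Agent.P098.Cert6
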