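import Vale.Agent.P098.Cert6.Vector
import Vale.Agent.P098.Cert6.Weight
import Vale.Agent.P098.Cert6.WeightData
import Vale.Agent.P098.Check.Scalar

/-!
P098, dimension six: the polynomial conditions of the vector.
-/

namespace Vale.Agent.P098.Cert6

open Check

def edgeLowF : List ℤ :=
  List.flatten [[109632, -1017264, 3051792, -2034528, 885130, 1690176, -5070528, 3380352, -3610713, -635790, 0, 0, 3428411, 1056360, 0, 0, -528180, 0, 0, 0]]

def edgeLowG : List ℤ :=
  List.flatten [[0, -16, 16, 0, 0, 0, 0, 0, 5, 0, 0, 0, 0, 0, 0, 0, 0, 0, 0, 0]]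

def edgeLowTree : MultTree :=
  .node 0 115 (.node 1 128 (.node 0 57 (.node 1 64 (.leaf 0) (.leaf 0)) (.leaf 0)) (.leaf 0)) (.node 0 172 (.node 1 128 (.leaf 0) (.leaf 218)) (.node 1 128 (.leaf 0) (.leaf 0)))

lemma edgeLow_check : checkScalar 256 (2 ^ 124) 5070528 [4, 3] edgeLowF edgeLowG edgeLowTree [(0, 230), (0, 256)] = true := by
  decide +kernel

def edgeTopF : List ℤ :=
  List.flatten [[367167488, -2661612800, 13270585088, -33901607424, 46104987648, -6501617664, -37098418176, 20787683328, -1020934304, 4181644288, -23056499200, 71197237248, -135473115648, 124726099968, -41575366656, 0, 1142240176, -3457307936, 11008552448, -15363581952, -4780750080, 10826918400, 0, 0, 44607760, 4620734080, -20170191040, 47322086400, -29232679680, 0, 0, 0, -1110104840, 2600628240, -9713034000, 8796871200, 0, 0, 0, 0, -21848210, 1254504000, -4736776800, 0, 0, 0, 0, 0],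
    [-292479675, 2326095750, 0, 0, 0, 0, 0, 0, -148024275, 0, 0, 0, 0, 0, 0, 0]]

def edgeTopG : List ℤ :=
  List.flatten [[0, -16, 16, 0, 0, 0, 0, 0, 0, 0, 0, 0, 0, 0, 0, 0, 5, 0, 0, 0, 0, 0, 0, 0, 0, 0, 0, 0, 0, 0, 0, 0, 0, 0, 0, 0, 0, 0, 0, 0, 0, 0, 0, 0, 0, 0, 0, 0],
    [0, 0, 0, 0, 0, 0, 0, 0, 0, 0, 0, 0, 0, 0, 0, 0]]

def edgeTopTree : MultTree :=
  .node 1 128 (.node 0 115 (.node 1 64 (.leaf 0) (.leaf 0)) (.node 1 64 (.node 0 172 (.node 0 143 (.leaf 0) (.node 1 32 (.leaf 24312630) (.node 0 157 (.leaf 0) (.node 1 48 (.leaf 3367862) (.leaf 0))))) (.node 1 32 (.leaf 137656616) (.node 0 201 (.node 1 48 (.node 0 186 (.leaf 19922694) (.leaf 34303494)) (.node 0 186 (.node 1 56 (.leaf 7067639) (.leaf 0)) (.node 1 56 (.leaf 20138321) (.leaf 10671168)))) (.leaf 65171692)))) (.node 1 96 (.node 0 172 (.leaf 0) (.node 1 80 (.node 0 201 (.leaf 0) (.leaf 17693240)) (.leaf 0))) (.leaf 0)))) (.node 0 115 (.leaf 7548719) (.node 1 192 (.node 0 172 (.leaf 0) (.leaf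 0)) (.node 0 172 (.node 1 224 (.leaf 19994390) (.leaf 28570176)) (.node 1 224 (.node 0 201 (.node 0 186 (.node 1 208 (.leaf 7927036) (.leaf 19469651)) (.leaf 13904929)) (.leaf 2680777)) (.leaf 20611330)))))

lemma edgeTop_check : checkScalar 256 (2 ^ 223) 135473115648 [7, 7] edgeTopF edgeTopG edgeTopTree [(0, 230), (0, 256)] = true := by
  decide +kernel

def gPosF : List ℤ :=
  List.flatten [[1080047406, 329001026, -462607105, -329278621, 149467500, -131193399, -664501801, 610051904, 31630825, 0, -827311466, 944323846, -371922896, 0, 0]]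

def gPosG : List ℤ :=
  List.flatten [[-1, 0, 0, 0, 0, 0, 0, 0, 0, 0, 0, 0, 0, 0, 0]]

def gPosTree : MultTree :=
  .leaf 0

lemma gPos_check : checkScalar 256 (2 ^ 115) 1080047406 [2, 4] gPosF gPosG gPosTree [(0, 256), (0, 256)] = true := by
  decide +kernel

def gNegF : List ℤ :=
  List.flatten [[917952594, 1670992974, -464948895, -1670673379, 1250578500, 529297399, -1335460199, -731711904, 177137175, 0, -1172680534, 869942154, 970044896, 0, 0]]

def gNegG : List ℤ :=
  List.flatten [[-1, 0, 0, 0, 0, 0, 0, 0, 0, 0, 0, 0, 0, 0, 0]]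

def gNegTree : MultTree :=
  .leaf 0

lemma gNeg_check : checkScalar 256 (2 ^ 115) 1670992974 [2, 4] gNegF gNegG gNegTree [(0, 256), (0, 256)] = true := by
  decide +kernel

def tripleF : List ℤ :=
  List.flatten [[52633982403, -107496739490, 78758890400, -12026988000, -3801600000, -160929787760, 132686441200, 2177064000, -15206400000, 0, 191304428400, 8397756000, -26611200000, 0, 0, -35182512000, -38016000000, 0, 0, 0, -30412800000, 0, 0, 0, 0, -22605223949, 98174343934, -122116401120, 57015943200, -10185984000, 142414705808, -284136475920, 184315176000, -40743936000, 0, -317361206160, 290223842400, -71301888000, 0, 0, 262696118400, -101859840000, 0, 0, 0, -81487872000, 0, 0],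
    [0, 0, 266631857341, -707039147234, 794589172920, -407173687200, 78612624000, -1141600309528, 2058174673920, -1356774480000, 314450496000, 0, 2143711449360, -2141288762400, 550288368000, 0, 0, -1895977670400, 786126240000, 0, 0, 0, 628900992000, 0, 0, 0, 0, -398790578926, 982496602852, -1049242228960, 519966897600, -95999232000, 1598320341664, -2700256273760, 1702328496000, -383996928000, 0, -2829308198880, 2683091707200, -671994624000, 0, 0, 2406264979200, -959992320000, 0, 0, 0, -767993856000],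
    [0, 0, 0, 0, 179316629888, -430510156726, 447125002980, -214441108800, 38141016000, -695235134732, 1125410171880, -692055228000, 152564064000, 0, 1197155077440, -1089573213600, 266987112000, 0, 0, -987443889600, 381410160000, 0, 0, 0, 305128128000, 0, 0, 0, 0, 110073397599, -312223736046, 333843255480, -151638616800, 24487056000, -501876943032, 844012344480, -472237920000, 97948224000, 0, 898459665840, -741414405600, 171409392000, 0, 0, -689810457600, 244870560000, 0, 0],
    [0, 195896448000, 0, 0, 0, 0, -133686124911, 353982245010, -385120621200, 187081020000, -32194080000, 596408114880, -1053360358800, 596301192000, -128776320000, 0, -1066997214000, 937913796000, -225358560000, 0, 0, 857783952000, -321940800000, 0, 0, 0, -257552640000, 0, 0, 0, 0, 185783487394, -519191000534, 440203486620, -112872883200, -595416000, -744769863508, 762170404920, -221637396000, -2381664000, 0, 1062162008160, -331652282400, -4167912000, 0, 0, -449467118400, -5954160000],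
    [0, 0, 0, -4763328000, 0, 0, 0, 0, -262651004842, 775092244220, -706474022400, 229511400000, -18706560000, 1127447745760, -1351103421600, 588098064000, -74826240000, 0, -1743488916000, 907400952000, -130945920000, 0, 0, 981647904000, -187065600000, 0, 0, 0, -149652480000, 0, 0, 0, 0, 0, 0, 0, 0, 0, 0, 0, 0, 0, 0, 0, 0, 0, 0, 0],
    [0, 0, 0, 0, 0, 0, 0, 0, 0, 0, -135407302080, 451267995216, -337489056480, 42848044800, 16955904000, 611230391232, -408410350080, -31299648000, 67823616000, 0, -752865210240, -69839942400, 118691328000, 0, 0, 113742105600, 169559040000, 0, 0, 0, 135647232000, 0, 0, 0, 0, -32542310858, 314804968530, -464976168100, 302742480000, -69570840000, 581738020940, -1501391587400, 1085523756000, -278283360000, 0, -1361474508000, 1722206268000, -486995880000],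
    [0, 0, 1447510776000, -695708400000, 0, 0, 0, -556566720000, 0, 0, 0, 0, 180952621390, -777206632338, 871478997140, -418290086400, 74457528000, -1231895590876, 2195129918440, -1350337116000, 297830112000, 0, 2333935468320, -2126023336800, 521202696000, 0, 0, -1926315940800, 744575280000, 0, 0, 0, 595660224000, 0, 0, 0, 0, 0, 0, 0, 0, 0, 0, 0, 0, 0, 0, 0],
    [0, 0, 0, 0, 0, 0, 0, 0, 0, 0, 0, 0, 0, 0, 0, 0, 0, 0, 0, 0, 0, 0, 0, 0, 0, 0, 0, 0, 0, 0, 0, 0, 0, 0, 0, 0, 0, 0, 0]]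

def tripleG : List ℤ :=
  List.flatten [[483, -760, 300, 0, 0, -1240, 400, 0, 0, 0, 800, 0, 0, 0, 0, 0, 0, 0, 0, 0, 0, 0, 0, 0, 0, 0, 0, 0, 0, 0, 0, 0, 0, 0, 0, 0, 0, 0, 0, 0, 0, 0, 0, 0, 0, 0, 0, 0],
    [0, 0, 0, 0, 0, 0, 0, 0, 0, 0, 0, 0, 0, 0, 0, 0, 0, 0, 0, 0, 0, 0, 0, 0, 0, 0, 0, 0, 0, 0, 0, 0, 0, 0, 0, 0, 0, 0, 0, 0, 0, 0, 0, 0, 0, 0, 0, 0],
    [0, 0, 0, 0, 0, 0, 0, 0, 0, 0, 0, 0, 0, 0, 0, 0, 0, 0, 0, 0, 0, 0, 0, 0, 0, 0, 0, 0, 0, 0, 0, 0, 0, 0, 0, 0, 0, 0, 0, 0, 0, 0, 0, 0, 0, 0, 0, 0],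
    [0, 0, 0, 0, 0, 0, 0, 0, 0, 0, 0, 0, 0, 0, 0, 0, 0, 0, 0, 0, 0, 0, 0, 0, 0, 0, 0, 0, 0, 0, 0, 0, 0, 0, 0, 0, 0, 0, 0, 0, 0, 0, 0, 0, 0, 0, 0, 0],
    [0, 0, 0, 0, 0, 0, 0, 0, 0, 0, 0, 0, 0, 0, 0, 0, 0, 0, 0, 0, 0, 0, 0, 0, 0, 0, 0, 0, 0, 0, 0, 0, 0, 0, 0, 0, 0, 0, 0, 0, 0, 0, 0, 0, 0, 0, 0, 0],
    [0, 0, 0, 0, 0, 0, 0, 0, 0, 0, 0, 0, 0, 0, 0, 0, 0, 0, 0, 0, 0, 0, 0, 0, 0, 0, 0, 0, 0, 0, 0, 0, 0, 0, 0, 0, 0, 0, 0, 0, 0, 0, 0, 0, 0, 0, 0, 0],
    [0, 0, 0, 0, 0, 0, 0, 0, 0, 0, 0, 0, 0, 0, 0, 0, 0, 0, 0, 0, 0, 0, 0, 0, 0, 0, 0, 0, 0, 0, 0, 0, 0, 0, 0, 0, 0, 0, 0, 0, 0, 0, 0, 0, 0, 0, 0, 0],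
    [0, 0, 0, 0, 0, 0, 0, 0, 0, 0, 0, 0, 0, 0, 0, 0, 0, 0, 0, 0, 0, 0, 0, 0, 0, 0, 0, 0, 0, 0, 0, 0, 0, 0, 0, 0, 0, 0, 0]]

def tripleTree : MultTree :=
  .node 0 128 (.node 3 230 (.node 2 141 (.node 3 115 (.node 0 64 (.leaf 0) (.leaf 0)) (.node 2 70 (.leaf 0) (.leaf 0))) (.leaf 0)) (.node 2 141 (.node 2 70 (.leaf 21878018) (.leaf 0)) (.node 1 128 (.node 3 345 (.leaf 0) (.leaf 95560936)) (.node 0 64 (.leaf 40818187) (.leaf 37016182))))) (.node 3 230 (.node 2 141 (.leaf 41218090) (.node 2 211 (.leaf 0) (.leaf 0))) (.node 2 141 (.leaf 0) (.node 1 128 (.leaf 0) (.node 2 211 (.leaf 0) (.leaf 19864641)))))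

lemma triple_check : checkScalar 256 (2 ^ 250) 2829308198880 [2, 4, 4, 4] tripleF tripleG tripleTree [(0, 256), (0, 256), (0, 282), (0, 461)] = true := by
  decide +kernel

def sign0PosF : List ℤ :=
  List.flatten [[4315, -100195, 2209301, -3999946, 2796199, 479424, -3999876, 3390016, -3999963, 0, -588230, 3999966, 2230769, 0, 0]]

def sign0PosG : List ℤ :=
  List.flatten [[0, -1, 0, 0, 0, 0, 0, 0, 0, 0, 1, 0, 0, 0, 0]]

def sign0PosTree : MultTree :=
  .node 0 128 (.node 1 128 (.node 0 64 (.node 1 64 (.node 1 32 (.leaf 0) (.leaf 0)) (.leaf 0)) (.node 1 64 (.node 0 96 (.leaf 0) (.leaf 0)) (.node 0 96 (.node 0 80 (.leaf 0) (.leaf 0)) (.leaf 0)))) (.node 0 64 (.leaf 0) (.node 1 192 (.node 0 96 (.node 0 80 (.node 1 160 (.leaf 0) (.leaf 0)) (.leaf 0)) (.leaf 0)) (.node 0 96 (.node 0 80 (.leaf 0) (.leaf 0)) (.leaf 0))))) (.node 1 128 (.leaf 324386) (.leaf 0))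

lemma sign0Pos_check : checkScalar 256 (2 ^ 124) 3999966 [2, 4] sign0PosF sign0PosG sign0PosTree [(0, 256), (0, 256)] = true := by
  decide +kernel

def sign0NegF : List ℤ :=
  List.flatten [[4315, -100195, 2209301, -3999946, 2796199, 479424, -3999876, 3390016, -3999963, 0, -588230, 3999966, 2230769, 0, 0]]

def sign0NegG : List ℤ :=
  List.flatten [[0, -1, 0, 0, 0, 0, 0, 0, 0, 0, 1, 0, 0, 0, 0]]

def sign0NegTree : MultTree :=
  .node 0 128 (.node 1 128 (.node 0 64 (.node 1 64 (.node 1 32 (.leaf 0) (.leaf 0)) (.leaf 0)) (.node 1 64 (.node 0 96 (.leaf 0) (.leaf 0)) (.node 0 96 (.node 0 80 (.leaf 0) (.leaf 0)) (.leaf 0)))) (.node 0 64 (.leaf 0) (.node 1 192 (.node 0 96 (.node 0 80 (.node 1 160 (.leaf 0) (.leaf 0)) (.leaf 0)) (.leaf 0)) (.node 0 96 (.node 0 80 (.leaf 0) (.leaf 0)) (.leaf 0))))) (.node 1 128 (.leaf 324386) (.leaf 0))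

lemma sign0Neg_check : checkScalar 256 (2 ^ 124) 3999966 [2, 4] sign0NegF sign0NegG sign0NegTree [(0, 256), (0, 256)] = true := by
  decide +kernel

def sign1PosF : List ℤ :=
  List.flatten [[107551, 3106086, -2818748, -3999982, 3808856, -1094405, -3818015, 3999981, -219398, 0, 599206, 1276416, 1299814, 0, 0]]

def sign1PosG : List ℤ :=
  List.flatten [[0, -1, 0, 0, 0, 0, 0, 0, 0, 0, 1, 0, 0, 0, 0]]

def sign1PosTree : MultTree :=
  .node 1 128 (.node 0 128 (.node 0 64 (.node 1 64 (.node 0 32 (.leaf 1272771) (.node 1 32 (.node 0 48 (.node 1 16 (.leaf 2178393) (.leaf 0)) (.node 1 16 (.node 0 56 (.leaf 2198509) (.leaf 2156192)) (.leaf 0))) (.leaf 0))) (.leaf 0)) (.node 1 64 (.node 0 96 (.node 1 32 (.node 0 80 (.node 1 16 (.leaf 2057599) (.node 0 72 (.leaf 1606665) (.leaf 1624466))) (.node 1 16 (.leaf 1801568) (.leaf 1568747))) (.leaf 745729)) (.node 1 32 (.leaf 1554401) (.node 0 112 (.leaf 1038520) (.leaf 1000495)))) (.leaf 0))) (.node 0 192 (.node 1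 64 (.leaf 1159401) (.node 0 160 (.node 1 96 (.node 0 144 (.node 1 80 (.leaf 561279) (.leaf 0)) (.node 1 80 (.leaf 575558) (.leaf 449605))) (.leaf 111876)) (.node 1 96 (.leaf 538548) (.leaf 284928)))) (.leaf 668799))) (.node 0 128 (.node 1 192 (.node 0 64 (.leaf 0) (.node 0 96 (.leaf 0) (.leaf 0))) (.node 0 64 (.node 0 32 (.leaf 0) (.node 1 224 (.leaf 0) (.leaf 0))) (.node 0 96 (.node 1 224 (.node 0 80 (.node 1 208 (.leaf 0) (.leaf 0)) (.node 1 208 (.leaf 0) (.leaf 0))) (.node 0 80 (.leaf 0) (.leaf 0))) (.node 1 224 (.leaf 0) (.leaf 0))))) (.node 0 192 (.node 1 192 (.leaf 0) (.leaf 0)) (.leaf 0)))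

lemma sign1Pos_check : checkScalar 256 (2 ^ 127) 3999982 [2, 4] sign1PosF sign1PosG sign1PosTree [(0, 256), (0, 256)] = true := by
  decide +kernel

def sign1NegF : List ℤ :=
  List.flatten [[107551, 3106086, -2818748, -3999982, 3808856, -1094405, -3818015, 3999981, -219398, 0, 599206, 1276416, 1299814, 0, 0]]

def sign1NegG : List ℤ :=
  List.flatten [[0, -1, 0, 0, 0, 0, 0, 0, 0, 0, 1, 0, 0, 0, 0]]

def sign1NegTree : MultTree :=
  .node 1 128 (.node 0 128 (.node 0 64 (.node 1 64 (.node 0 32 (.leaf 1272771) (.node 1 32 (.node 0 48 (.node 1 16 (.leaf 2178393) (.leaf 0)) (.node 1 16 (.node 0 56 (.leaf 2198509) (.leaf 2156192)) (.leaf 0))) (.leaf 0))) (.leaf 0)) (.node 1 64 (.node 0 96 (.node 1 32 (.node 0 80 (.node 1 16 (.leaf 2057599) (.node 0 72 (.leaf 1606665) (.leaf 1624466))) (.node 1 16 (.leaf 1801568) (.leaf 1568747))) (.leaf 745729)) (.node 1 32 (.leaf 1554401) (.node 0 112 (.leaf 1038520) (.leaf 1000495)))) (.leaf 0))) (.node 0 192 (.node 1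 64 (.leaf 1159401) (.node 0 160 (.node 1 96 (.node 0 144 (.node 1 80 (.leaf 561279) (.leaf 0)) (.node 1 80 (.leaf 575558) (.leaf 449605))) (.leaf 111876)) (.node 1 96 (.leaf 538548) (.leaf 284928)))) (.leaf 668799))) (.node 0 128 (.node 1 192 (.node 0 64 (.leaf 0) (.node 0 96 (.leaf 0) (.leaf 0))) (.node 0 64 (.node 0 32 (.leaf 0) (.node 1 224 (.leaf 0) (.leaf 0))) (.node 0 96 (.node 1 224 (.node 0 80 (.node 1 208 (.leaf 0) (.leaf 0)) (.node 1 208 (.leaf 0) (.leaf 0))) (.node 0 80 (.leaf 0) (.leaf 0))) (.node 1 224 (.leaf 0) (.leaf 0))))) (.node 0 192 (.node 1 192 (.leaf 0) (.leaf 0)) (.leaf 0)))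

lemma sign1Neg_check : checkScalar 256 (2 ^ 127) 3999982 [2, 4] sign1NegF sign1NegG sign1NegTree [(0, 256), (0, 256)] = true := by
  decide +kernel

noncomputable section

theorem edge_vec6 : EdgeIneq vec6 marg6 := by
  intro ν p hν hd
  have h1 : ν ^ 2 ≤ (4 : ℝ) / 5 := by linarith [sq_nonneg p]
  have h2 : p ^ 2 ≤ (1 : ℝ) / 4 := by linarith [sq_nonneg ν]
  have hx : InBox 256 [(0, 230), (0, 256)] [-ν, p + 1 / 2] := by
    simp only [InBox]
    push_cast
    refine ⟨⟨by linarith, by nlinarith⟩, ⟨by nlinarith, by nlinarith⟩, trivial⟩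
  constructor
  · have hg : evalZ [4, 3] edgeLowG [-ν, p + 1 / 2] ≤ 0 := by
      simp [edgeLowG, evalZ, chunksInt, Check.size, hornerR]
      linarith
    have key := checkScalar_sound edgeLow_check (by norm_num) hx hg
    simp [edgeLowF, evalZ, chunksInt, Check.size, hornerR] at key
    simp [lowPoly, valsAt, Coefs.map, Aff.fn, vec6, vec6Z, poly6, mons6, marg6, edgeCube, edgeW]
    linear_combination (1 / 4000000 : ℝ) * key
  · have hg : evalZ [7, 7] edgeTopG [-ν, p + 1 / 2] ≤ 0 := by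
      simp [edgeTopG, evalZ, chunksInt, Check.size, hornerR]
      linarith
    have key := checkScalar_sound edgeTop_check (by norm_num) hx hg
    simp [edgeTopF, evalZ, chunksInt, Check.size, hornerR] at key
    simp [topPoly, valsAt, Coefs.map, Aff.fn, vec6, vec6Z, poly6, mons6, marg6, edgeCube, edgeQuart, edgeW]
    linear_combination (1 / 512000000 : ℝ) * key

theorem g_vec6 : GIneq vec6.G := by
  intro s P hs hP
  have hx : InBox 256 [(0, 256), (0, 256)] [s, P] := by
    simp only [InBox]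
    push_cast
    refine ⟨⟨by linarith [hs.1], by linarith [hs.2]⟩, ⟨by linarith [hP.1], by linarith [hP.2]⟩, trivial⟩
  constructor
  · have key := checkScalar_sound gPos_check (by norm_num) hx (by
      simp [gPosG, evalZ, chunksInt, Check.size, hornerR])
    simp [gPosF, evalZ, chunksInt, Check.size, hornerR] at key
    simp [Coefs.map, Aff.fn, vec6, vec6Z, poly6, mons6, tauMax]
    linarith
  · have key := checkScalar_sound gNeg_check (by norm_num) hx (by
      simp [gNegG, evalZ, chunksInt, Check.size, hornerR])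
    simp [gNegF, evalZ, chunksInt, Check.size, hornerR] at key
    simp [Coefs.map, Aff.fn, vec6, vec6Z, poly6, mons6, tauMax]
    linarith

theorem triple_vec6 : TripleIneq vec6 marg6 := by
  intro s P a b hs hsP hP hd
  have h1 : a ^ 2 ≤ (121 : ℝ) / 400 := by nlinarith [sq_nonneg (2 * a + 3 * b)]
  have h2 : b ^ 2 ≤ (81 : ℝ) / 100 := by nlinarith [sq_nonneg (4 * a + b)]
  have hs1 : s ≤ 1 := by nlinarith
  have hP0 : 0 ≤ P := le_trans (sq_nonneg s) hsP
  have hx : InBox 256 [(0, 256), (0, 256), (0, 282), (0, 461)] [s, P, a + 11 / 20, b + 9 / 10] := by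
    simp only [InBox]
    push_cast
    refine ⟨⟨by linarith, by linarith⟩, ⟨by linarith, by linarith⟩, ⟨by nlinarith, by nlinarith⟩,
      ⟨by nlinarith, by nlinarith⟩, trivial⟩
  have hg : evalZ [2, 4, 4, 4] tripleG [s, P, a + 11 / 20, b + 9 / 10] ≤ 0 := by
    simp [tripleG, evalZ, chunksInt, Check.size, hornerR]
    linarith
  have key := checkScalar_sound triple_check (by norm_num) hx hg
  simp [tripleF, evalZ, chunksInt, Check.size, hornerR] at key
  simp [tripleForm, tripleCube, valsAt, Coefs.map, Aff.fn, vec6, vec6Z, poly6, mons6, marg6]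
  linear_combination (1 / 2000000000 : ℝ) * key

theorem sign_vec6 : SignIneq vec6 := by
  intro s P hs hsP hP e
  have hs1 : s ≤ 1 := by nlinarith
  have hP0 : 0 ≤ P := le_trans (sq_nonneg s) hsP
  have hx : InBox 256 [(0, 256), (0, 256)] [s, P] := by
    simp only [InBox]
    push_cast
    refine ⟨⟨by linarith, by linarith⟩, ⟨by linarith, by linarith⟩, trivial⟩
  fin_cases e <;> constructor
  · have key := checkScalar_sound sign0Pos_check (by norm_num) hx (by
      simp [sign0PosG, evalZ, chunksInt, Check.size, hornerR]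
      linarith)
    simp [sign0PosF, evalZ, chunksInt, Check.size, hornerR] at key
    simp [Coefs.map, Aff.fn, vec6, vec6Z, poly6, mons6, tauMax]
    linarith
  · have key := checkScalar_sound sign0Neg_check (by norm_num) hx (by
      simp [sign0NegG, evalZ, chunksInt, Check.size, hornerR]
      linarith)
    simp [sign0NegF, evalZ, chunksInt, Check.size, hornerR] at key
    simp [Coefs.map, Aff.fn, vec6, vec6Z, poly6, mons6, tauMax]
    linarith
  · have key := checkScalar_sound sign1Pos_check (by norm_num) hx (by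
      simp [sign1PosG, evalZ, chunksInt, Check.size, hornerR]
      linarith)
    simp [sign1PosF, evalZ, chunksInt, Check.size, hornerR] at key
    simp [Coefs.map, Aff.fn, vec6, vec6Z, poly6, mons6, tauMax]
    linarith
  · have key := checkScalar_sound sign1Neg_check (by norm_num) hx (by
      simp [sign1NegG, evalZ, chunksInt, Check.size, hornerR]
      linarith)
    simp [sign1NegF, evalZ, chunksInt, Check.size, hornerR] at key
    simp [Coefs.map, Aff.fn, vec6, vec6Z, poly6, mons6, tauMax]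
    linarith

end

end Vale.Agent.P098.Cert6
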