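import Vale.Agent.P098.Cert6.Kron

/-!
P098, dimension six: the chart of the configurations `(μ; a, a, b, d)` and expressions with a power
of its denominator.  With `x = 2 m' - 1`, `N = n²` the chart is `μ = 576 x / D`,
`D = 4 (80 + 81 x² + 40 N)`, `b, d = c ± n T`, `T = 320 / D`; the box is `m', N / 2 ∈ [0, 1]`.
-/

namespace Vale.Agent.P098.Cert6.Kron

/-- A power of an expression. -/
def ppow (a : Poly) : ℕ → Poly
  | 0 => .const 1
  | 1 => a
  | n + 2 => .mul a (ppow a (n + 1))

/-- `xᵢ + yᵢ`, one in value. -/
def one' (i : Fin 4) : Poly := .add (.x i) (.y i)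

/-- Raise the degrees. -/
def pad (a : Poly) (δ : Deg) : Poly :=
  .mul (.mul (.mul (.mul a (ppow (one' 0) δ.1)) (ppow (one' 1) δ.2.1)) (ppow (one' 2) δ.2.2.1))
    (ppow (one' 3) δ.2.2.2)

/-- `xₘ - yₘ`, that is `2 m' - 1`. -/
def mdiff : Poly := .add (.x 2) (.neg (.y 2))

/-- The denominator of the chart, of degree `(2, 1)` in `(m', N')`. -/
def den : Poly :=
  .mul (.const 4) (.add (.add (.mul (.const 80) (.mul (ppow (one' 2) 2) (one' 3)))
    (.mul (.const 81) (.mul (ppow mdiff 2) (one' 3))))
    (.mul (.const 80) (.mul (ppow (one' 2) 2) (.x 3))))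

/-- A numerator, the power of the denominator below it, and its degree. -/
structure Hom where
  k : ℕ
  d : Deg
  e : Poly

/-- The degree after multiplication by `den ^ j`. -/
def dUp (d : Deg) (j : ℕ) : Deg := (d.1, d.2.1, d.2.2.1 + 2 * j, d.2.2.2 + j)

/-- The numerator over `den ^ k` of degree `d`. -/
def Hom.up (h : Hom) (k : ℕ) (d : Deg) : Poly :=
  let j := k - h.k
  let d' := dUp h.d j
  pad (.mul h.e (ppow den j))
    (d.1 - d'.1, d.2.1 - d'.2.1, d.2.2.1 - d'.2.2.1, d.2.2.2 - d'.2.2.2)

/-- The sum of two numerators. -/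
def Hom.add (a b : Hom) : Hom :=
  let k := max a.k b.k
  let da := dUp a.d (k - a.k)
  let db := dUp b.d (k - b.k)
  let d : Deg :=
    (max da.1 db.1, max da.2.1 db.2.1, max da.2.2.1 db.2.2.1, max da.2.2.2 db.2.2.2)
  ⟨k, d, .add (a.up k d) (b.up k d)⟩

/-- Quotients by powers of the denominator, `none` being zero. -/
abbrev HV : Type := Option Hom

instance : Add HV where
  add
    | none, b => b
    | a, none => a
    | some a, some b => some (a.add b)

instance : Mul HV where
  mul
    | some a, some b => some ⟨a.k + b.k, dadd a.d b.d, .mul a.e b.e⟩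
    | _, _ => none

instance : Neg HV where
  neg
    | none => none
    | some a => some { a with e := .neg a.e }

/-- An integer. -/
def cst (z : ℤ) : HV := if z = 0 then none else some ⟨0, (0, 0, 0, 0), .const z⟩

/-- The value. -/
noncomputable def val (p : Fin 4 → ℝ) : HV → ℝ
  | none => 0
  | some h => evalR p h.e / evalR p den ^ h.k

variable {p : Fin 4 → ℝ}

lemma evalR_ppow (a : Poly) : ∀ n, evalR p (ppow a n) = evalR p a ^ n
  | 0 => by simp [ppow, evalR]
  | 1 => by simp [ppow]
  | n + 2 => by rw [ppow, evalR, evalR_ppow a (n + 1), ← pow_succ']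

lemma evalR_one' (i : Fin 4) : evalR p (one' i) = 1 := by simp [one', evalR]

lemma evalR_pad (a : Poly) (δ : Deg) : evalR p (pad a δ) = evalR p a := by
  simp [pad, evalR, evalR_ppow, evalR_one']

lemma evalR_den : evalR p den =
    4 * (80 + 81 * (2 * p 2 - 1) ^ 2 + 80 * p 3) := by
  simp [den, mdiff, evalR, evalR_ppow, evalR_one']
  ring

lemma den_pos (h : 0 ≤ p 3) : 0 < evalR p den := by
  rw [evalR_den]
  positivity

lemma evalR_up (hp : 0 ≤ p 3) (h : Hom) {k : ℕ} (hk : h.k ≤ k) (d : Deg) :
    evalR p (h.up k d) = val p (some h) * evalR p den ^ k := by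
  have := (den_pos hp).ne'
  simp only [Hom.up, evalR_pad, evalR, evalR_ppow, val]
  rw [div_mul_eq_mul_div, eq_div_iff (pow_ne_zero _ this), mul_assoc, ← pow_add,
    Nat.sub_add_cancel hk]

lemma val_add (hp : 0 ≤ p 3) : ∀ a b : HV, val p (a + b) = val p a + val p b
  | none, none => by show val p none = _; simp [val]
  | none, some b => by show val p (some b) = _; simp [val]
  | some a, none => by show val p (some a) = _; simp [val]
  | some a, some b => by
    show val p (some (a.add b)) = _
    rw [val, Hom.add, evalR, evalR_up hp a (le_max_left _ _), evalR_up hp b (le_max_right _ _),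
      ← add_mul, mul_div_cancel_right₀ _ (pow_ne_zero _ (den_pos hp).ne')]

lemma val_mul : ∀ a b : HV, val p (a * b) = val p a * val p b
  | none, none => by show val p none = _; simp [val]
  | none, some b => by show val p none = _; simp [val]
  | some a, none => by show val p none = _; simp [val]
  | some a, some b => by
    show val p (some ⟨a.k + b.k, dadd a.d b.d, .mul a.e b.e⟩) = _
    simp [val, evalR, pow_add, div_mul_div_comm]

lemma val_neg : ∀ a : HV, val p (-a) = -val p a
  | none => by show val p none = _; simp [val]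
  | some a => by
    show val p (some { a with e := Poly.neg a.e }) = _
    simp [val, evalR, neg_div]

lemma val_cst (z : ℤ) : val p (cst z) = z := by
  unfold cst
  split <;> simp [val, evalR, *]

/-- The numerator over `den ^ K` of degree `d`. -/
def finish (K : ℕ) (d : Deg) : HV → Poly
  | none => pad (.const 0) d
  | some h => h.up K d

lemma evalR_finish (hp : 0 ≤ p 3) {K : ℕ} {d : Deg} {a : HV}
    (hk : (a.map Hom.k).getD 0 ≤ K) : evalR p (finish K d a) = val p a * evalR p den ^ K := by
  cases a with
  | none => simp [finish, val, evalR_pad, evalR]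
  | some h => exact evalR_up hp h hk d

end Vale.Agent.P098.Cert6.Kron
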