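import Vale.Agent.P098.ReduceN.Main

/-!
P098, the homogeneous certificate class in any dimension: coefficients are powers of
`ρ = |r D²v|` times functions of `(s, P, τ)`, `τ = C₃ / ρ³`, one degree one in `ρ` in total.
At eigenvalues of square sum one the pointwise inequality is a quadratic form in
`(u, y, o = 1, R = ρ)` with coefficients free of `ρ`.
-/

open Matrix

namespace Vale.Agent.P098.Cert6

open Vale.Agent.P098.ReduceN (Fields psum usum hdot diagWeight tripleWeight fluxTrace)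
open Vale.Agent.P098.Reduce (hsum)

noncomputable section

/-- A function of `(s, P, τ)` at a point with its three partial derivatives. -/
abbrev Jet : Type := ℝ × ℝ × ℝ × ℝ

/-- The value and the three partial derivatives. -/
def jetOf (g : ℝ × ℝ × ℝ → ℝ) (w : ℝ × ℝ × ℝ) : Jet :=
  (g w, fderiv ℝ g w (1, 0, 0), fderiv ℝ g w (0, 1, 0), fderiv ℝ g w (0, 0, 1))

/-- One entry for the test function `ρ G`, one for each field `ρ^(-1-a) A`, `ρ^(-2-p-q) X`, and two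
for each `ρ^(1-j) (C₀ + ρ C₁)`. -/
structure Coefs (σ : Fields) (α : Type) where
  G : α
  A : Fin σ.M → α
  X : Fin σ.K → α
  C : Fin 2 → Fin σ.J → α

/-- Apply a map to every entry. -/
def Coefs.map {σ : Fields} {α β : Type} (f : α → β) (K : Coefs σ α) : Coefs σ β :=
  ⟨f K.G, fun m => f (K.A m), fun k => f (K.X k), fun e j => f (K.C e j)⟩

variable {n : ℕ} {σ : Fields}

/-- `ρ^(-E)` times the differential of `ρ^E g`. -/
def dH (X : Jet) (E : ℝ) (l v : Fin n → ℝ) (c : Fin n) (q o R : ℝ) : ℝ :=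
  (E * X.1 - 3 * psum l 3 * X.2.2.2) * usum l v 1 + 3 * X.2.2.2 * usum l v 2 +
    q * (o * X.2.1 + 2 * l c * R * X.2.2.1)

/-- The weight of the squared third derivatives. -/
def kerV (K : Coefs σ Jet) (a b c : ℝ) : ℝ :=
  (∑ m, (K.A m).1 * hsum (σ.a m + 1) b c) +
    ∑ k, (K.X k).1 *
      (a ^ (σ.p k + 1) * hsum (σ.q k + 1) b c - a ^ (σ.q k + 1) * hsum (σ.p k + 1) b c)

/-- The weights in the tangential frame. -/
def kerAt (K : Coefs σ Jet) (l : Fin n → ℝ) (a i j : Fin n) : ℝ := kerV K (l a) (l i) (l j)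

/-- The variable of the `e`-th part of `H^j g`. -/
def omega (o R : ℝ) : Fin 2 → ℝ := ![o, R]

/-- The quadratic form of the class in `(v, y, o, R)`. -/
def form (K : Coefs σ Jet) (l : Fin n → ℝ) (c : Fin n) (v : Fin n → ℝ) (s q o R y : ℝ) : ℝ :=
  y * dH K.G 1 l v c q o R - y ^ 2 * K.G.1 +
    (∑ m, dH (K.A m) (-1 - (σ.a m : ℝ)) l v c q o R * usum l v (σ.a m + 1)) +
    (∑ i, diagWeight (kerAt K l) c i * v i ^ 2) +
    (∑ k, (dH (K.X k) (-2 - (σ.p k : ℝ) - (σ.q k : ℝ)) l v c q o R *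
        (l c ^ (σ.p k + 1) * usum l v (σ.q k + 1) - l c ^ (σ.q k + 1) * usum l v (σ.p k + 1)) +
      (K.X k).1 * (hdot l v (σ.p k + 1) c * usum l v (σ.q k + 1) -
        hdot l v (σ.q k + 1) c * usum l v (σ.p k + 1)))) +
    (∑ j, ∑ e, omega o R e * (q * (l c ^ σ.j j *
        dH (K.C e j) (1 - (σ.j j : ℝ) + (e : ℕ)) l v c q o R +
        (K.C e j).1 * hdot l v (σ.j j) c) +
      (K.C e j).1 * (if σ.j j = 0 then -((n : ℝ) * s * o)
        else R * psum l (σ.j j + 1) - s * o * psum l (σ.j j)))) +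
    o ^ 2 * (((n : ℝ) - 1) ^ 2 / 4 * K.G.1 + (∑ m, (n : ℝ) * (K.A m).1 * psum l (σ.a m + 2)) +
      ∑ k, (K.X k).1 *
        (psum l (σ.p k + 1) * psum l (σ.q k + 2) - psum l (σ.q k + 1) * psum l (σ.p k + 2)))

/-- The part of the boundary expression of degree two in `ρ`. -/
def edgeTop (K : Coefs σ Jet) (l : Fin n → ℝ) (a : Fin n) : ℝ :=
  K.G.1 * l a + (∑ m, (K.A m).1 * fluxTrace l a (σ.a m + 1)) +
    (∑ j, (K.C 1 j).1 * l a ^ σ.j j) +
    ∑ k, (K.X k).1 * (l a ^ (σ.p k + 1) * fluxTrace l a (σ.q k + 1) -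
      l a ^ (σ.q k + 1) * fluxTrace l a (σ.p k + 1))

/-- The part of the boundary expression of degree one in `ρ`. -/
def edgeLow (K : Coefs σ Jet) (l : Fin n → ℝ) (a : Fin n) : ℝ :=
  ∑ j, (K.C 0 j).1 * l a ^ σ.j j

/-- The jets at `(s, P)` and the eigenvalues `l`. -/
def jetsAt (K : Coefs σ (ℝ × ℝ × ℝ → ℝ)) (l : Fin n → ℝ) (s P : ℝ) : Coefs σ Jet :=
  K.map fun g => jetOf g (s, P, psum l 3)

/-- A certificate of the class: positivity of the test function on the ball of eigenvalues, and the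
inequalities on the unit sphere with margin `t`. -/
structure Certificate (n : ℕ) (σ : Fields) (K : Coefs σ (ℝ × ℝ × ℝ → ℝ)) (t : ℝ) : Prop where
  margin : 0 < t
  smoothG : ContDiff ℝ 2 K.G
  smoothA : ∀ m, ContDiff ℝ 2 (K.A m)
  smoothX : ∀ k, ContDiff ℝ 2 (K.X k)
  smoothC : ∀ e j, ContDiff ℝ 2 (K.C e j)
  pos : ∀ l : Fin n → ℝ, ∑ i, l i = 0 → psum l 2 ≤ 1 → ∀ s P : ℝ, s ∈ Set.Icc (0 : ℝ) 1 →
    P ∈ Set.Icc (0 : ℝ) 1 → 0 < K.G (s, P, psum l 3)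
  interior : ∀ l : Fin n → ℝ, ∑ i, l i = 0 → psum l 2 = 1 → ∀ (c : Fin n) (v : Fin n → ℝ),
    ∑ i, v i = 0 → ∀ s q R y : ℝ, 0 ≤ s → 0 ≤ q → s ^ 2 + q ^ 2 ≤ 1 → 0 < R →
      form (jetsAt K l s (s ^ 2 + q ^ 2)) l c v s q 1 R y + t * ((∑ i, v i ^ 2) + y ^ 2 + 1) ≤ 0
  triple : ∀ l : Fin n → ℝ, ∑ i, l i = 0 → psum l 2 = 1 → ∀ s P : ℝ, 0 ≤ s → s ^ 2 ≤ P → P ≤ 1 →
    ∀ a i j : Fin n, a ≠ i → a ≠ j → i ≠ j →
      tripleWeight (kerAt (jetsAt K l s P) l) a i j ≤ -t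
  edge : ∀ l : Fin n → ℝ, ∑ i, l i = 0 → psum l 2 = 1 → ∀ a : Fin n, l a ≤ 0 →
    edgeTop (jetsAt K l 0 1) l a ≤ -t ∧ edgeLow (jetsAt K l 0 1) l a ≤ -t

end

end Vale.Agent.P098.Cert6
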