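import Vale.Agent.P098.Cert6.Chart

/-!
P098, dimension six: the symmetric matrix of `-2` times the interior form on the chart, in the
variables `(w, S, e, z, o, R)`: third derivatives `q (-2 w - 2 S, w, w, S + n e, S - n e)`,
`y = q z`.  Written once over any type with sums and products, for the reals and for numerators.
-/

namespace Vale.Agent.P098.Cert6.Interior

/-- The integers among the values. -/
class Num (α : Type) where
  cast : ℤ → α

noncomputable instance : Num ℝ where cast z := z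

instance : Num Kron.HV where cast := Kron.cst

variable {α : Type} [Num α] [Add α] [Mul α] [Neg α]

/-- An integer as a value. -/
abbrev C (z : ℤ) : α := Num.cast z

/-- A value and the three partial derivatives. -/
structure J (α : Type) where
  g : α
  gs : α
  gP : α
  gt : α

/-- The point: `N = n²`, `T` the chart factor, `σ = q²`. -/
structure Pt (α : Type) where
  s : α
  σ : α
  μ : α
  a : α
  c : α
  T : α
  N : α

/-- `S₃`, of the eigenvalues `(μ; a, a, c + n T, c - n T)`. -/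
def Pt.p3 (p : Pt α) : α :=
  p.μ * p.μ * p.μ + C 2 * (p.a * p.a * p.a) + C 2 * (p.c * p.c * p.c) +
    C 6 * (p.c * (p.N * (p.T * p.T)))

/-- `S₄`. -/
def Pt.p4 (p : Pt α) : α :=
  p.μ * p.μ * (p.μ * p.μ) + C 2 * (p.a * p.a * (p.a * p.a)) + C 2 * (p.c * p.c * (p.c * p.c)) +
    C 12 * (p.c * p.c * (p.N * (p.T * p.T))) + C 2 * (p.N * p.N * (p.T * p.T * (p.T * p.T)))

/-- A polynomial in `(s, P)` of degree at most two in `s` and four in all, and its derivatives. -/
def poly (s P : α) : List ℤ → α × α × α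
  | [a₀, a₁, a₂, a₃, a₄, b₀, b₁, b₂, b₃, d₀, d₁, d₂] =>
    let A := C a₀ + P * (C a₁ + P * (C a₂ + P * (C a₃ + P * C a₄)))
    let B := C b₀ + P * (C b₁ + P * (C b₂ + P * C b₃))
    let D := C d₀ + P * (C d₁ + P * C d₂)
    (A + s * (B + s * D), B + C 2 * (s * D),
      C a₁ + P * (C (2 * a₂) + P * (C (3 * a₃) + P * C (4 * a₄))) +
        s * (C b₁ + P * (C (2 * b₂) + P * C (3 * b₃)) + s * (C d₁ + P * C (2 * d₂))))
  | _ => (C 0, C 0, C 0)

/-- The jet of `g₀ + τ g₁`. -/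
def jet (s P τ : α) (c : List ℤ × List ℤ) : J α :=
  let u := poly s P c.1
  let v := poly s P c.2
  ⟨u.1 + τ * v.1, u.2.1 + τ * v.2.1, u.2.2 + τ * v.2.2, v.1⟩

/-- The coefficients: `G`, `T : b`, `T : b²`, the cross field, and `bʲ p` for `j ≤ 3`. -/
structure Data (β : Type) where
  G : β
  A₀ : β
  A₁ : β
  X : β
  B : Fin 2 → Fin 4 → β

/-- All jets at a point. -/
def Data.at (V : Data (List ℤ × List ℤ)) (p : Pt α) : Data (J α) :=
  let f := jet p.s (p.s * p.s + p.σ) p.p3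
  ⟨f V.G, f V.A₀, f V.A₁, f V.X, fun e j => f (V.B e j)⟩

/-- Linear forms in `(w, S, e, z, o, R)`. -/
def lf (a b c d e f : α) : Fin 6 → α := ![a, b, c, d, e, f]

/-- The product of two linear forms, as twice a symmetric matrix. -/
def sym (A B : Fin 6 → α) (i j : Fin 6) : α := A i * B j + A j * B i

/-- `U₁`. -/
def Pt.u1 (p : Pt α) : Fin 6 → α :=
  lf (C 2 * (p.a + -p.μ)) (C 2 * (p.c + -p.μ)) (C 2 * (p.N * p.T)) (C 0) (C 0) (C 0)

/-- `U₂`. -/
def Pt.u2 (p : Pt α) : Fin 6 → α :=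
  lf (C 2 * (p.a * p.a + -(p.μ * p.μ))) (C 2 * (p.c * p.c + p.N * (p.T * p.T) + -(p.μ * p.μ)))
    (C 4 * (p.c * (p.N * p.T))) (C 0) (C 0) (C 0)

/-- The differential of the coefficient of weight `E`. -/
def Pt.dH (p : Pt α) (X : J α) (E : ℤ) : Fin 6 → α :=
  let c₁ := C E * X.g + -(C 3 * (p.p3 * X.gt))
  let c₂ := C 3 * X.gt
  let d := fun i => c₁ * p.u1 i + c₂ * p.u2 i
  lf (d 0) (d 1) (d 2) (C 0) X.gs (C 2 * (p.μ * X.gP))

/-- `H^j g` along the third derivatives, `j ≤ 3`. -/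
def Pt.hd (p : Pt α) : Fin 4 → Fin 6 → α :=
  ![fun _ => C 0, fun _ => C 0, p.u1, fun i => p.u2 i + p.μ * p.u1 i]

/-- A unit vector. -/
def ev (k : Fin 6) : Fin 6 → α := fun i => if i = k then C 1 else C 0

/-- One entry of the symmetric matrix of a diagonal form. -/
def dia (k : Fin 6) (w : α) (i j : Fin 6) : α := if i = k ∧ j = k then C 2 * w else C 0

/-- The squared third derivatives with their weights. -/
def Pt.wgt (p : Pt α) (V : Data (J α)) (t : ℤ) (i j : Fin 6) : α :=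
  let wc := V.A₀.g + C 2 * (p.μ * V.A₁.g) + -(p.μ * p.μ * V.X.g) + C t
  let α₀ := C 3 * V.A₀.g + C 2 * (p.μ * V.A₁.g) + p.μ * p.μ * V.X.g + C t
  let β := C 4 * V.A₁.g + -(C 4 * (p.μ * V.X.g))
  let h := lf (C 2) (C 2) (C 0) (C 0) (C 0) (C 0)
  wc * sym h h i j + dia 0 (C 2 * (α₀ + β * p.a)) i j + dia 1 (C 2 * (α₀ + β * p.c)) i j +
    dia 2 (C 2 * (p.N * (α₀ + β * p.c))) i j +
    C 4 * (β * (p.N * p.T)) * sym (ev 1) (ev 2) i j

/-- The weight of `j` in `H^j g`. -/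
def Pt.mu (p : Pt α) : Fin 4 → α := ![C 1, p.μ, p.μ * p.μ, p.μ * p.μ * p.μ]

/-- The part that carries `σ`. -/
def Pt.part1 (p : Pt α) (V : Data (J α)) (t : ℤ) (i j : Fin 6) : α :=
  let fld := fun (e : Fin 2) (k : Fin 4) =>
    let d := p.dH (V.B e k) (1 - (k : ℕ) + (e : ℕ))
    fun i => p.mu k * d i + (V.B e k).g * p.hd k i
  let sum4 := fun (e : Fin 2) i => fld e 0 i + fld e 1 i + (fld e 2 i + fld e 3 i)
  sym (ev 3) (p.dH V.G 1) i j + dia 3 (C t + -V.G.g) i j +
    (sym (p.dH V.A₀ (-1)) p.u1 i j + sym (p.dH V.A₁ (-2)) p.u2 i j) +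
    (sym (p.dH V.X (-3)) (fun i => p.μ * p.μ * p.u1 i + -(p.μ * p.u2 i)) i j +
      V.X.g * sym p.u1 p.u1 i j) +
    p.wgt V t i j + (sym (ev 4) (sum4 0) i j + sym (ev 5) (sum4 1) i j)

/-- The part without `σ`. -/
def Pt.part0 (p : Pt α) (V : Data (J α)) (t : ℤ) (i j : Fin 6) : α :=
  let T₄ := fun (e : Fin 2) =>
    lf (C 0) (C 0) (C 0) (C 0)
      (-(C 5 * (p.s * (V.B e 0).g)) + -(p.s * (V.B e 2).g) + -(p.s * (p.p3 * (V.B e 3).g)))
      ((V.B e 1).g + p.p3 * (V.B e 2).g + p.p4 * (V.B e 3).g)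
  dia 4 (C 4 * V.G.g + C 5 * V.A₀.g + C 5 * (p.p3 * V.A₁.g) + V.X.g + C t) i j +
    (sym (ev 4) (T₄ 0) i j + sym (ev 5) (T₄ 1) i j)

/-- The matrix. -/
def entry (V : Data (List ℤ × List ℤ)) (t : ℤ) (p : Pt α) (i j : Fin 6) : α :=
  -(p.σ * p.part1 (V.at p) t i j + p.part0 (V.at p) t i j)

/-! ### The point over the chart -/

open Kron in
/-- The point of the chart with the sign `ε`. -/
def chartPt (ε : ℤ) : Pt HV where
  s := some ⟨0, (1, 0, 0, 0), .x 0⟩
  σ := some ⟨0, (2, 1, 0, 0), .mul (.x 1) (.mul (.y 0) (.add (one' 0) (.x 0)))⟩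
  μ := some ⟨1, (0, 0, 1, 0), .mul (.const 576) mdiff⟩
  a := some ⟨1, (0, 0, 2, 1), .add (.mul (.const (-144)) (.mul mdiff (.mul (one' 2) (one' 3))))
    (.mul (.const ε) (.add (.mul (.const 320) (.mul (ppow (one' 2) 2) (one' 3)))
      (.neg (.add (.add (.mul (.const 160) (.mul (ppow (one' 2) 2) (one' 3)))
        (.mul (.const 162) (.mul (ppow mdiff 2) (one' 3))))
        (.mul (.const 160) (.mul (ppow (one' 2) 2) (.x 3)))))))⟩
  c := some ⟨1, (0, 0, 2, 1), .add (.mul (.const (-144)) (.mul mdiff (.mul (one' 2) (one' 3))))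
    (.mul (.const (-ε)) (.add (.mul (.const 320) (.mul (ppow (one' 2) 2) (one' 3)))
      (.neg (.add (.add (.mul (.const 160) (.mul (ppow (one' 2) 2) (one' 3)))
        (.mul (.const 162) (.mul (ppow mdiff 2) (one' 3))))
        (.mul (.const 160) (.mul (ppow (one' 2) 2) (.x 3)))))))⟩
  T := some ⟨1, (0, 0, 0, 0), .const 320⟩
  N := some ⟨0, (0, 0, 0, 1), .mul (.const 2) (.x 3)⟩

/-- The degree of all entries in `(s, u, m', N')`. -/
def tensorDeg : Kron.Deg := (10, 5, 12, 7)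

/-- The numerators of the entries over the sixth power of the denominator. -/
def numer (V : Data (List ℤ × List ℤ)) (t : ℤ) (ε : ℤ) (i j : Fin 6) : Kron.Poly :=
  Kron.finish 6 tensorDeg (entry V t (chartPt ε) i j)

/-- The condition under which `numer` is that. -/
def numerOK (V : Data (List ℤ × List ℤ)) (t : ℤ) (ε : ℤ) (i j : Fin 6) : Bool :=
  Nat.ble (((entry V t (chartPt ε) i j : Kron.HV).map Kron.Hom.k).getD 0) 6 &&
    decide (Kron.deg? (numer V t ε i j) = some tensorDeg)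

end Vale.Agent.P098.Cert6.Interior
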