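import Vale.Agent.P098.Cert6.DoubleRoot
import Vale.Agent.P098.Cert6.Entries

/-!
P098, dimension six: the entries of `Cert6.Entries` over the reals are the quadratic form of the
interior inequality at the configurations with a repeated value.
-/

open Matrix

namespace Vale.Agent.P098.Cert6.Interior

open Vale.Agent.P098.ReduceN (psum usum hdot diagWeight)
open Vale.Agent.P098.Reduce (hsum)

noncomputable section

/-- The jet with named components. -/
def ofJet (X : Jet) : J ℝ := ⟨X.1, X.2.1, X.2.2.1, X.2.2.2⟩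

/-- The coefficients in the shape of the entries. -/
def ofCoefs (K : Coefs fields Jet) : Data (J ℝ) :=
  ⟨ofJet K.G, ofJet (K.A 0), ofJet (K.A 1), ofJet (K.X 0), fun e j => ofJet (K.C e j.castSucc)⟩

/-- The eigenvalues at a point. -/
def Pt.eig (p : Pt ℝ) (n : ℝ) : Fin 5 → ℝ := edgeEig p.μ p.a (p.c + n * p.T) (p.c - n * p.T)

/-- The third derivatives over `q`. -/
def vvec (n w S e : ℝ) : Fin 5 → ℝ :=
  ![-(2 * w + 2 * S), w, w, S + n * e, S - n * e]

variable {p : Pt ℝ} {n : ℝ}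

lemma sum_vvec (w S e : ℝ) : ∑ i, vvec n w S e i = 0 := by
  simp [vvec, Fin.sum_univ_five]; ring

lemma eig_moments (hN : p.N = n ^ 2) :
    psum (p.eig n) 3 = p.p3 ∧ psum (p.eig n) 4 = p.p4 := by
  constructor <;>
    · simp [psum, Pt.eig, edgeEig, Fin.sum_univ_five, Pt.p3, Pt.p4, C, Num.cast, hN]
      ring

lemma lf_sum (a b c d e f : ℝ) (x : Fin 6 → ℝ) :
    ∑ i, lf a b c d e f i * x i =
      a * x 0 + b * x 1 + c * x 2 + d * x 3 + e * x 4 + f * x 5 := by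
  simp [lf, Fin.sum_univ_six]

lemma eig_usum (hN : p.N = n ^ 2) (x : Fin 6 → ℝ) :
    usum (p.eig n) (vvec n (x 0) (x 1) (x 2)) 1 = ∑ i, p.u1 i * x i ∧
      usum (p.eig n) (vvec n (x 0) (x 1) (x 2)) 2 = ∑ i, p.u2 i * x i := by
  simp only [Pt.u1, Pt.u2, lf_sum]
  constructor <;>
    · simp [usum, Pt.eig, edgeEig, vvec, Fin.sum_univ_five, C, Num.cast, hN]
      ring

lemma hdot_cases (l v : Fin 5 → ℝ) (c : Fin 5) (hv : ∑ i, v i = 0) :
    hdot l v 0 c = 0 ∧ hdot l v 1 c = 0 ∧ hdot l v 2 c = usum l v 1 ∧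
      hdot l v 3 c = usum l v 2 + l c * usum l v 1 := by
  have h1 : hdot l v 1 c = 0 := by simp [hdot, hsum, hv]
  have h2 : hdot l v 2 c = usum l v 1 := by
    simp only [hdot, usum, hsum, pow_one, pow_zero, zero_mul, zero_add, one_mul, add_mul,
      Finset.sum_add_distrib, ← Finset.mul_sum, hv, mul_zero]
  refine ⟨by simp [hdot, hsum], h1, h2, ?_⟩
  have : hdot l v 3 c = l c * hdot l v 2 c + usum l v 2 := by
    simp only [hdot, usum, Finset.mul_sum, ← Finset.sum_add_distrib]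
    exact Finset.sum_congr rfl fun i _ => by rw [hsum]; ring
  rw [this, h2]
  ring

/-- A product of linear forms. -/
lemma quad_sym (A B x : Fin 6 → ℝ) :
    ∑ i, ∑ j, x i * x j * sym A B i j = 2 * ((∑ i, A i * x i) * ∑ i, B i * x i) := by
  simp only [sym, mul_add, Finset.sum_add_distrib, Finset.sum_mul_sum, two_mul]
  congr 1
  · exact Finset.sum_congr rfl fun i _ => Finset.sum_congr rfl fun j _ => by ring
  · rw [Finset.sum_comm]
    exact Finset.sum_congr rfl fun i _ => Finset.sum_congr rfl fun j _ => by ring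

/-- A diagonal form. -/
lemma quad_dia (k : Fin 6) (w : ℝ) (x : Fin 6 → ℝ) :
    ∑ i, ∑ j, x i * x j * dia k w i j = 2 * (w * x k ^ 2) := by
  rw [Finset.sum_eq_single k (fun i _ hi => by simp [dia, hi, C, Num.cast])
    (fun h => absurd (Finset.mem_univ k) h), Finset.sum_eq_single k
      (fun j _ hj => by simp [dia, hj, C, Num.cast]) (fun h => absurd (Finset.mem_univ k) h)]
  simp [dia, C, Num.cast]
  ring

lemma ev_sum (k : Fin 6) (x : Fin 6 → ℝ) : ∑ i, ev (α := ℝ) k i * x i = x k := by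
  simp [ev, C, Num.cast]

lemma dH_sum (hN : p.N = n ^ 2) (X : J ℝ) (E : ℤ) (x : Fin 6 → ℝ) :
    ∑ i, p.dH X E i * x i =
      ((E : ℝ) * X.g - 3 * (psum (p.eig n) 3 * X.gt)) *
          usum (p.eig n) (vvec n (x 0) (x 1) (x 2)) 1 +
        3 * X.gt * usum (p.eig n) (vvec n (x 0) (x 1) (x 2)) 2 +
        (x 4 * X.gs + 2 * p.μ * x 5 * X.gP) := by
  rw [(eig_usum hN x).1, (eig_usum hN x).2, (eig_moments hN).1]
  simp only [Pt.dH, lf_sum, Pt.u1, Pt.u2]
  simp [lf, C, Num.cast]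
  ring

lemma quad_add (f g : Fin 6 → Fin 6 → ℝ) (x : Fin 6 → ℝ) :
    ∑ i, ∑ j, x i * x j * (f i j + g i j) =
      (∑ i, ∑ j, x i * x j * f i j) + ∑ i, ∑ j, x i * x j * g i j := by
  simp only [mul_add, Finset.sum_add_distrib]

lemma quad_smul (c : ℝ) (f : Fin 6 → Fin 6 → ℝ) (x : Fin 6 → ℝ) :
    ∑ i, ∑ j, x i * x j * (c * f i j) = c * ∑ i, ∑ j, x i * x j * f i j := by
  simp only [Finset.mul_sum, mul_left_comm c]

lemma lin_add (f g x : Fin 6 → ℝ) :
    ∑ i, (f i + g i) * x i = (∑ i, f i * x i) + ∑ i, g i * x i := by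
  simp only [add_mul, Finset.sum_add_distrib]

lemma lin_smul (c : ℝ) (f x : Fin 6 → ℝ) : ∑ i, c * f i * x i = c * ∑ i, f i * x i := by
  simp only [Finset.mul_sum, mul_assoc]

lemma lin_neg (f x : Fin 6 → ℝ) : ∑ i, -f i * x i = -∑ i, f i * x i := by
  simp only [neg_mul, Finset.sum_neg_distrib]

lemma hd_sum (hN : p.N = n ^ 2) (x : Fin 6 → ℝ) (k : Fin 4) :
    ∑ i, p.hd k i * x i = ![0, 0, usum (p.eig n) (vvec n (x 0) (x 1) (x 2)) 1,
      usum (p.eig n) (vvec n (x 0) (x 1) (x 2)) 2 +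
        p.μ * usum (p.eig n) (vvec n (x 0) (x 1) (x 2)) 1] k := by
  rw [(eig_usum hN x).1, (eig_usum hN x).2]
  fin_cases k <;> simp [Pt.hd, C, Num.cast, add_mul, mul_assoc, Finset.sum_add_distrib, Finset.mul_sum]

/-- The quadratic form of the matrix. -/
theorem quad_parts (K : Coefs fields Jet) (hK : ∀ e, K.C e 4 = 0) (t : ℤ) (hN : p.N = n ^ 2)
    (hl : ∑ i, p.eig n i = 0) (h2 : psum (p.eig n) 2 = 1) (x : Fin 6 → ℝ) :
    (∑ i, ∑ j, x i * x j * p.part1 (ofCoefs K) t i j) =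
        2 * (form K (p.eig n) 0 (vvec n (x 0) (x 1) (x 2)) p.s 1 (x 4) (x 5) (x 3) -
          form K (p.eig n) 0 0 p.s 0 (x 4) (x 5) 0 +
          t * ((∑ i, vvec n (x 0) (x 1) (x 2) i ^ 2) + x 3 ^ 2)) ∧
      (∑ i, ∑ j, x i * x j * p.part0 (ofCoefs K) t i j) =
        2 * (form K (p.eig n) 0 0 p.s 0 (x 4) (x 5) 0 + t * x 4 ^ 2) := by
  obtain ⟨v0, v1, v2, v3⟩ := hdot_cases (p.eig n) _ 0 (sum_vvec (n := n) (x 0) (x 1) (x 2))
  obtain ⟨m3, m4⟩ := eig_moments hN (p := p) (n := n)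
  have z0 : ∀ k, usum (p.eig n) (0 : Fin 5 → ℝ) k = 0 := fun k => by simp [usum]
  have z1 : ∀ k, hdot (p.eig n) (0 : Fin 5 → ℝ) k 0 = 0 := fun k => by simp [hdot]
  have l0 : p.eig n 0 = p.μ := rfl
  have p1 : psum (p.eig n) 1 = 0 := by simpa [psum] using hl
  constructor
  · simp only [Pt.part1, Pt.wgt, quad_add, quad_smul, quad_sym, quad_dia]
    simp only [ev_sum, lin_add, lin_smul, lin_neg, dH_sum hN, hd_sum hN, ← (eig_usum hN x).1, ← (eig_usum hN x).2, lf_sum]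
    have hW : ∑ i, diagWeight (kerAt K (p.eig n)) 0 i * vvec n (x 0) (x 1) (x 2) i ^ 2 =
        ((K.A 0).1 + 2 * p.μ * (K.A 1).1 - p.μ ^ 2 * (K.X 0).1) * (2 * x 0 + 2 * x 1) ^ 2 +
          2 * ((3 * (K.A 0).1 + 2 * p.μ * (K.A 1).1 + p.μ ^ 2 * (K.X 0).1) +
            (4 * (K.A 1).1 - 4 * p.μ * (K.X 0).1) * p.a) * x 0 ^ 2 +
          2 * ((3 * (K.A 0).1 + 2 * p.μ * (K.A 1).1 + p.μ ^ 2 * (K.X 0).1) +
            (4 * (K.A 1).1 - 4 * p.μ * (K.X 0).1) * p.c) * (x 1 ^ 2 + p.N * x 2 ^ 2) +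
          4 * (4 * (K.A 1).1 - 4 * p.μ * (K.X 0).1) * p.N * p.T * x 1 * x 2 := by
      simp [diag_eq, Fin.sum_univ_five, Pt.eig, edgeEig, vvec, weightConst, weightSlope, hN]
      ring
    simp [form, hW, ofCoefs, ofJet, Pt.mu, Fin.sum_univ_two, Fin.sum_univ_five, omega, dH, hK, v0,
      v1, v2, v3, z0, z1, l0, p1, h2, C, Num.cast]
    simp [vvec, hN]
    ring
  · simp only [Pt.part0, quad_add, quad_sym, quad_dia, ev_sum, lf_sum]
    simp [form, ofCoefs, ofJet, Fin.sum_univ_two, Fin.sum_univ_five, omega, dH, hK, z0, z1,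
      p1, h2, C, Num.cast]
    rw [m3, m4]
    ring

end

end Vale.Agent.P098.Cert6.Interior
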