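import Vale.Agent.P098.Cert6.Edge

/-!
P098, dimension six: the coefficient vector, as integers in units of one millionth.
-/

namespace Vale.Agent.P098.Cert6

open scoped ContDiff

/-- The exponents of `(s, P)`. -/
def mons6 : List (ℕ × ℕ) :=
  [(0, 0), (0, 1), (0, 2), (0, 3), (0, 4), (1, 0), (1, 1), (1, 2), (1, 3), (2, 0), (2, 1), (2, 2)]

/-- The coefficients of `(1, τ)` for every field, listed along `mons6`. -/
def vec6Z : Coefs fields (List ℤ × List ℤ) where
  G := ([1000000, 999997, -463778, -999976, 700023, 199052, -999981, -60830, 104384, -999996, 907133, 299061],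
      [120786, -999994, 1745, 999549, -820500, -492169, 499969, 999824, -108425, 257354, 55426, -999976])
  A := ![([-1647316, 690519, -114424, 434684, -162695, -2284085, 3571539, -1186739, -849246, -2170390, -1785049, 3450895],
      [946563, 57299, -1354987, 1023018, -188244, 267047, -9871, 3231286, -3361482, -3922008, 2799122, -376766]),
    ([-1681897, 1256944, 2606272, -3999985, 1898870, -3025455, 3999942, -3999941, 2714915, 3163356, 2839198, -3999971],
      [158400, 424416, -3275526, 3999968, -1589209, -1020294, 1341420, 24809, 779440, -706496, 2898785, -3102397])]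
  X := ![([881140, 867612, -944784, -719843, 184821, 1689198, -3999930, -1389285, 3583644, 2877075, -3999962, 388942],
      [])]
  C := ![![([-1141387, 3999987, -1862336, -3999975, 2976203, -3999998, 376453, 3999989, -2235080, -1493644, 3622257, -500611],
      [-2050450, 3233945, -1643095, 2367947, -1865961, -1536453, 2194584, 3999952, -3575767, 1848422, -3999896, 688589]),
      ([2104646, -1056516, -3309636, 3999196, -1484618, 3999993, -1204694, 3180488, -3999931, -3999984, 3999955, -2623519],
      [-526879, -897024, 1494901, 3999410, -3999984, 3751862, -3999984, -3999971, 1096514, -2714771, 3999948, 3488243]),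
      ([2738022, -3474496, -1061745, 3999975, -1166786, -3999994, -3999983, 3543118, 3999982, -3999982, 2141701, -3999968],
      []),
      ([4315, -100195, 2209301, -3999946, 2796199, 479424, -3999876, 3390016, -3999963, -588230, 3999966, 2230769],
      []),
      ([],
      [])],
    ![([-579311, -2051043, 2986953, -412452, -641320, -2994552, 3999981, -3999959, 2751508, 3999986, -2021064, -980989],
      [-428100, -464758, 2153777, -3999967, 2789208, -3924805, 3999982, -3999708, 3732437, -1530331, 2356864, -2292446]),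
      ([-713018, -1949126, 2311734, 3321862, -3980593, -587845, -1629014, 3999885, -3999992, -3999999, -3999998, -3999996],
      [-90891, -1316364, -325784, -664376, 2565540, -3884360, 1410939, 3999980, -1618886, -3999995, -3999981, -349987]),
      ([54741, 3803995, -3999980, 1505262, -1410729, 1403457, 2025380, -3999686, -2743083, 3467467, 3999995, 3999995],
      []),
      ([107551, 3106086, -2818748, -3999982, 3808856, -1094405, -3818015, 3999981, -219398, 599206, 1276416, 1299814],
      []),
      ([],
      [])]]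

noncomputable section

/-- The margin. -/
def marg6 : ℝ := 1 / 10000

/-- The polynomial with the coefficients `c` along `mons6`, in millionths. -/
def poly6 (c : List ℤ) (w : ℝ × ℝ) : ℝ :=
  (List.zipWith (fun (a : ℤ) (m : ℕ × ℕ) => (a : ℝ) * w.1 ^ m.1 * w.2 ^ m.2) c mons6).sum / 1000000

/-- The coefficient vector. -/
def vec6 : Coefs fields Aff := vec6Z.map fun g => (poly6 g.1, poly6 g.2)

lemma contDiff_zipSum : ∀ (c : List ℤ) (ms : List (ℕ × ℕ)), ContDiff ℝ 2 fun w : ℝ × ℝ =>
    (List.zipWith (fun (a : ℤ) (m : ℕ × ℕ) => (a : ℝ) * w.1 ^ m.1 * w.2 ^ m.2) c ms).sum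
  | [], _ => by simpa using contDiff_const
  | _ :: _, [] => by simpa using contDiff_const
  | a :: c, m :: ms => by
    have := contDiff_zipSum c ms
    simp only [List.zipWith_cons_cons, List.sum_cons]
    fun_prop

/-- Its entries are smooth. -/
lemma contDiff_poly6 (c : List ℤ) : ContDiff ℝ 2 (poly6 c) :=
  (contDiff_zipSum c mons6).div_const _

lemma marg6_pos : 0 < marg6 := by norm_num [marg6]

lemma vec6_smooth_G : ContDiff ℝ 2 vec6.G.1 ∧ ContDiff ℝ 2 vec6.G.2 :=
  ⟨contDiff_poly6 _, contDiff_poly6 _⟩

lemma vec6_smooth_A (m : Fin fields.M) : ContDiff ℝ 2 (vec6.A m).1 ∧ ContDiff ℝ 2 (vec6.A m).2 :=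
  ⟨contDiff_poly6 _, contDiff_poly6 _⟩

lemma vec6_smooth_X (k : Fin fields.K) : ContDiff ℝ 2 (vec6.X k).1 ∧ ContDiff ℝ 2 (vec6.X k).2 :=
  ⟨contDiff_poly6 _, contDiff_poly6 _⟩

lemma vec6_smooth_C (e : Fin 2) (j : Fin fields.J) :
    ContDiff ℝ 2 (vec6.C e j).1 ∧ ContDiff ℝ 2 (vec6.C e j).2 :=
  ⟨contDiff_poly6 _, contDiff_poly6 _⟩

/-- There is no field `b⁴ p`. -/
lemma vec6_C_four (e : Fin 2) : (vec6.C e 4).fn = 0 := by
  funext w
  fin_cases e <;> simp [vec6, vec6Z, Coefs.map, Aff.fn, poly6]

end

end Vale.Agent.P098.Cert6
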