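import Vale.Agent.P098.Cert6.EntryHom
import Vale.Agent.P098.Cert6.Form
import Vale.Agent.P098.Cert6.Vector

/-!
P098, dimension six: the values of the chart numerators are the interior form of the vector.
-/

open Matrix

namespace Vale.Agent.P098.Cert6.Interior

open Vale.Agent.P098.ReduceN (psum)

noncomputable section

/-- The derivative of a monomial sum. -/
lemma hasFDerivAt_zip (w : ℝ × ℝ) : ∀ (c : List ℤ) (ms : List (ℕ × ℕ)), HasFDerivAt
    (fun w : ℝ × ℝ =>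
      (List.zipWith (fun (a : ℤ) (m : ℕ × ℕ) => (a : ℝ) * w.1 ^ m.1 * w.2 ^ m.2) c ms).sum)
    ((List.zipWith (fun (a : ℤ) (m : ℕ × ℕ) =>
        (a : ℝ) * (m.1 * w.1 ^ (m.1 - 1)) * w.2 ^ m.2) c ms).sum • ContinuousLinearMap.fst ℝ ℝ ℝ +
      (List.zipWith (fun (a : ℤ) (m : ℕ × ℕ) =>
        (a : ℝ) * w.1 ^ m.1 * (m.2 * w.2 ^ (m.2 - 1))) c ms).sum • ContinuousLinearMap.snd ℝ ℝ ℝ) w
  | [], ms => by simpa using hasFDerivAt_const (0 : ℝ) w
  | _ :: _, [] => by simpa using hasFDerivAt_const (0 : ℝ) w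
  | a :: c, m :: ms => by
    have h := (((hasFDerivAt_fst (𝕜 := ℝ) (p := w)).pow m.1).const_mul (a : ℝ)).mul
      ((hasFDerivAt_snd (𝕜 := ℝ) (p := w)).pow m.2)
    simp only [List.zipWith_cons_cons, List.sum_cons]
    refine (h.add (hasFDerivAt_zip w c ms)).congr_fderiv ?_
    ext <;> simp; ring

/-- The lists of coefficients the evaluator reads. -/
def Long (c : List ℤ) : Prop := c = [] ∨ c.length = 12

lemma poly_eq {c : List ℤ} (hc : Long c) (s P : ℝ) :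
    (poly s P c).1 = 1000000 * poly6 c (s, P) ∧
      (poly s P c).2.1 = 1000000 * fderiv ℝ (poly6 c) (s, P) (1, 0) ∧
      (poly s P c).2.2 = 1000000 * fderiv ℝ (poly6 c) (s, P) (0, 1) := by
  have h : fderiv ℝ (poly6 c) (s, P) = (1000000 : ℝ)⁻¹ • _ :=
    ((hasFDerivAt_zip (s, P) c mons6).mul_const (1000000 : ℝ)⁻¹).fderiv
  rw [h]
  obtain rfl | hc := hc
  · simp [poly, poly6, C, Num.cast]
  obtain ⟨a₀, a₁, a₂, a₃, a₄, b₀, b₁, b₂, b₃, d₀, d₁, d₂, rfl⟩ :
      ∃ a₀ a₁ a₂ a₃ a₄ b₀ b₁ b₂ b₃ d₀ d₁ d₂,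
        c = [a₀, a₁, a₂, a₃, a₄, b₀, b₁, b₂, b₃, d₀, d₁, d₂] := by
    match c, hc with
    | [_, _, _, _, _, _, _, _, _, _, _, _], _ => exact ⟨_, _, _, _, _, _, _, _, _, _, _, _, rfl⟩
  simp [poly, poly6, mons6, C, Num.cast]
  refine ⟨?_, ?_, ?_⟩ <;> ring

/-- The jet of a coefficient in millionths. -/
lemma jet_eq {c : List ℤ × List ℤ} (h1 : Long c.1) (h2 : Long c.2) (s P τ : ℝ) :
    jet s P τ c = ofJet (1000000 • jetOf (Aff.fn (poly6 c.1, poly6 c.2)) (s, P, τ)) := by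
  obtain ⟨u0, u1, u2⟩ := poly_eq h1 s P
  obtain ⟨v0, v1, v2⟩ := poly_eq h2 s P
  have hd : ∀ d : List ℤ, DifferentiableAt ℝ (poly6 d) (s, P) := fun d =>
    ((contDiff_poly6 d).differentiable (by norm_num)).differentiableAt
  set π : ℝ × ℝ × ℝ →L[ℝ] ℝ × ℝ := (ContinuousLinearMap.fst ℝ ℝ (ℝ × ℝ)).prod
    ((ContinuousLinearMap.fst ℝ ℝ ℝ).comp (ContinuousLinearMap.snd ℝ ℝ (ℝ × ℝ)))
  set ρ : ℝ × ℝ × ℝ →L[ℝ] ℝ :=
    (ContinuousLinearMap.snd ℝ ℝ ℝ).comp (ContinuousLinearMap.snd ℝ ℝ (ℝ × ℝ))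
  have h : HasFDerivAt (Aff.fn (poly6 c.1, poly6 c.2))
      ((fderiv ℝ (poly6 c.1) (s, P)).comp π + (τ • (fderiv ℝ (poly6 c.2) (s, P)).comp π +
        poly6 c.2 (s, P) • ρ)) (s, P, τ) :=
    ((hd c.1).hasFDerivAt.comp (s, P, τ) π.hasFDerivAt).add
      (ρ.hasFDerivAt.mul ((hd c.2).hasFDerivAt.comp (s, P, τ) π.hasFDerivAt))
  simp [jet, ofJet, jetOf, h.fderiv, π, ρ, Aff.fn, u0, u1, u2, v0, v1, v2, Prod.mk_zero_zero]
  refine ⟨?_, ?_, ?_⟩ <;> ring

/-- The coefficient lists in the shape of the entries. -/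
def vecData : Data (List ℤ × List ℤ) :=
  ⟨vec6Z.G, vec6Z.A 0, vec6Z.A 1, vec6Z.X 0, fun e j => vec6Z.C e j.castSucc⟩

/-- The jets in millionths. -/
def jets6 (l : Fin 5 → ℝ) (s P : ℝ) : Coefs fields Jet :=
  (jetsAt (vec6.map Aff.fn) l s P).map fun X => 1000000 • X

lemma data_at (p : Pt ℝ) {n : ℝ} (hN : p.N = n ^ 2) :
    vecData.at p = ofCoefs (jets6 (p.eig n) p.s (p.s * p.s + p.σ)) := by
  simp only [Data.at, ofCoefs, jets6, jetsAt, Coefs.map, (eig_moments hN).1, vecData, vec6]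
  congr 1
  all_goals first
    | exact jet_eq (by first | exact Or.inl rfl | exact Or.inr rfl)
        (by first | exact Or.inl rfl | exact Or.inr rfl) _ _ _
    | (funext e j; fin_cases e <;> fin_cases j <;>
        exact jet_eq (by first | exact Or.inl rfl | exact Or.inr rfl)
          (by first | exact Or.inl rfl | exact Or.inr rfl) _ _ _)

/-- The margin in millionths. -/
def marg6Z : ℤ := 100

/-- The chart: `(s, u, m', N')` with the sign `ε`. -/
def realPt (ε : ℤ) (z : Fin 4 → ℝ) : Pt ℝ :=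
  (chartPt ε).map (Kron.val z)

/-- The chart denominator. -/
def chartDen (z : Fin 4 → ℝ) : ℝ := 4 * (80 + 81 * (2 * z 2 - 1) ^ 2 + 80 * z 3)

lemma realPt_eq (ε : ℤ) (z : Fin 4 → ℝ) :
    realPt ε z = ⟨z 0, z 1 * (1 - z 0 ^ 2), 576 * (2 * z 2 - 1) / chartDen z,
      (-144 * (2 * z 2 - 1) + ε * (320 - chartDen z / 2)) / chartDen z,
      (-144 * (2 * z 2 - 1) - ε * (320 - chartDen z / 2)) / chartDen z,
      320 / chartDen z, 2 * z 3⟩ := by
  simp [realPt, chartPt, Pt.map, Kron.val, Kron.evalR, Kron.evalR_den, Kron.evalR_ppow,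
    Kron.evalR_one', Kron.mdiff, chartDen]
  ring_nf
  simp

/-- The chart gives configurations of sum zero and square sum one. -/
lemma realPt_sphere {ε : ℤ} (hε : ε = 1 ∨ ε = -1) {z : Fin 4 → ℝ} {n : ℝ} (hz : 0 ≤ z 3)
    (hn : (realPt ε z).N = n ^ 2) :
    ∑ i, (realPt ε z).eig n i = 0 ∧ psum ((realPt ε z).eig n) 2 = 1 := by
  have hd : 0 < chartDen z := by unfold chartDen; positivity
  rw [realPt_eq] at hn ⊢
  simp only at hn
  constructor
  · simp [Pt.eig, edgeEig, Fin.sum_univ_five]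
    field_simp
    ring
  · simp [psum, Pt.eig, edgeEig, Fin.sum_univ_five]
    field_simp
    simp only [chartDen] at *
    rcases hε with rfl | rfl <;> push_cast <;> linear_combination (-819200 : ℝ) * hn

lemma form_smul (r : ℝ) (K : Coefs fields Jet) (l : Fin 5 → ℝ) (c : Fin 5) (v : Fin 5 → ℝ)
    (s q o R y : ℝ) :
    form (K.map fun X => r • X) l c v s q o R y = r * form K l c v s q o R y := by
  have hk : ∀ a b d, kerAt (K.map fun X => r • X) l a b d = r * kerAt K l a b d := fun a b d => by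
    simp [kerAt, kerV, Coefs.map, Fin.sum_univ_two]
    ring
  have hw : ∀ i, ReduceN.diagWeight (kerAt (K.map fun X => r • X) l) c i =
      r * ReduceN.diagWeight (kerAt K l) c i := fun i => by
    simp only [ReduceN.diagWeight, hk]
    split <;> ring
  simp only [form, hw]
  simp [Coefs.map, dH, Fin.sum_univ_two, Fin.sum_univ_five]
  ring

/-- The interior form at the point, split by the factor `σ`, with the margin. -/
def redForm (p : Pt ℝ) (n : ℝ) (x : Fin 6 → ℝ) : ℝ :=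
  let K := jetsAt (vec6.map Aff.fn) (p.eig n) p.s (p.s * p.s + p.σ)
  p.σ * (form K (p.eig n) 0 (vvec n (x 0) (x 1) (x 2)) p.s 1 (x 4) (x 5) (x 3) -
      form K (p.eig n) 0 0 p.s 0 (x 4) (x 5) 0 +
      marg6 * ((∑ i, vvec n (x 0) (x 1) (x 2) i ^ 2) + x 3 ^ 2)) +
    (form K (p.eig n) 0 0 p.s 0 (x 4) (x 5) 0 + marg6 * x 4 ^ 2)

/-- The quadratic form of the entries at a point of the chart. -/
theorem quad_entry (p : Pt ℝ) {n : ℝ} (hn : p.N = n ^ 2) (hl : ∑ i, p.eig n i = 0)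
    (h2 : psum (p.eig n) 2 = 1) (x : Fin 6 → ℝ) :
    ∑ i, ∑ j, x i * x j * entry vecData marg6Z p i j = -2000000 * redForm p n x := by
  have hK : ∀ e, (jets6 (p.eig n) p.s (p.s * p.s + p.σ)).C e 4 = 0 := fun e => by
    show (1000000 : ℕ) • jetOf (Aff.fn (vec6.C e 4)) _ = 0
    rw [vec6_C_four]
    simp [jetOf, fderiv_zero]
  obtain ⟨h1, h0⟩ := quad_parts _ hK marg6Z hn hl h2 x
  simp only [entry, data_at p hn, mul_neg, mul_add, Finset.sum_neg_distrib, Finset.sum_add_distrib]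
  rw [show (∑ i, ∑ j, x i * x j * (p.σ * p.part1 (ofCoefs _) marg6Z i j)) = p.σ * _ from
    quad_smul p.σ _ x, h1, h0]
  have e : jets6 (p.eig n) p.s (p.s * p.s + p.σ) =
      (jetsAt (vec6.map Aff.fn) (p.eig n) p.s (p.s * p.s + p.σ)).map fun X => (1000000 : ℝ) • X := by
    simp only [jets6, ← Nat.cast_smul_eq_nsmul ℝ]
    norm_num
  rw [e, form_smul, form_smul, redForm]
  simp only [marg6Z, marg6]
  push_cast
  ring

/-- The numerators at a chart point. -/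
theorem quad_numer {ε : ℤ} (hε : ε = 1 ∨ ε = -1)
    (hok : ∀ i j, numerOK vecData marg6Z ε i j = true)
    {z : Fin 4 → ℝ} (hz : 0 ≤ z 3) {n : ℝ} (hn : n ^ 2 = 2 * z 3) (x : Fin 6 → ℝ) :
    ∑ i, ∑ j, x i * x j * Kron.evalR z (numer vecData marg6Z ε i j) =
      -2000000 * chartDen z ^ 6 * redForm (realPt ε z) n x := by
  have hn' : (realPt ε z).N = n ^ 2 := by rw [realPt_eq]; exact hn.symm
  obtain ⟨hl, h2⟩ := realPt_sphere hε hz hn'
  simp only [evalR_numer (hok _ _) hz, Kron.evalR_den, ← mul_assoc, ← Finset.sum_mul]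
  rw [show (chartPt ε).map (Kron.val z) = realPt ε z from rfl, quad_entry _ hn' hl h2 x, chartDen]
  ring

end

end Vale.Agent.P098.Cert6.Interior
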