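import Vale.Agent.P098.Check6.Dominant
import Vale.Agent.P098.Cert6.Value

/-!
P098, dimension six: nonnegativity of the tensor forms gives the reduced interior inequality on
the chart.
-/

namespace Vale.Agent.P098.Cert6.Interior

open Check6 (quadForm)

/-- All numerators have the tensor degree and at most the sixth power of the denominator. -/
lemma numer_ok : ∀ {ε : ℤ}, ε = 1 ∨ ε = -1 → ∀ i j, numerOK vecData marg6Z ε i j = true := by
  have h : ([1, -1].all fun ε => (List.finRange 6).all fun i =>
      (List.finRange 6).all fun j => numerOK vecData marg6Z ε i j) = true := by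
    decide +kernel
  simp only [List.all_eq_true, List.mem_finRange, true_implies] at h
  intro ε hε i j
  exact h ε (by rcases hε with rfl | rfl <;> simp) i j

noncomputable section

lemma sym_comm (A B : Fin 6 → ℝ) (i j : Fin 6) : sym A B i j = sym A B j i := by
  simp only [sym]; ring

lemma dia_comm (k : Fin 6) (w : ℝ) (i j : Fin 6) : dia k w i j = dia k w j i := by
  simp only [dia, and_comm]

/-- The matrix is symmetric. -/
lemma entry_comm (V : Data (List ℤ × List ℤ)) (t : ℤ) (p : Pt ℝ) (i j : Fin 6) :
    entry V t p i j = entry V t p j i := by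
  simp only [entry, Pt.part1, Pt.part0, Pt.wgt, sym_comm _ _ i j, dia_comm _ _ i j]

/-- From the tensor form to the reduced inequality. -/
theorem redForm_nonpos {ε : ℤ} (hε : ε = 1 ∨ ε = -1) {z : Fin 4 → ℝ} (hz : 0 ≤ z 3) {n : ℝ}
    (hn : n ^ 2 = 2 * z 3) {κ : ℝ} (hκ : 0 < κ) {B : Fin 6 → Fin 6 → ℝ}
    (hB : ∀ i j, i ≤ j → B i j = κ * Kron.evalR z (numer vecData marg6Z ε i j) ∧ B j i = B i j)
    {x : Fin 6 → ℝ} (hx : 0 ≤ quadForm B x) : redForm (realPt ε z) n x ≤ 0 := by
  have hall : ∀ i j, B i j = κ * Kron.evalR z (numer vecData marg6Z ε i j) := fun i j => by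
    rcases le_total i j with h | h
    · exact (hB i j h).1
    · rw [(hB j i h).2, (hB j i h).1, evalR_numer (numer_ok hε _ _) hz,
        evalR_numer (numer_ok hε _ _) hz, entry_comm]
  have e : quadForm B x = κ * ∑ i, ∑ j, x i * x j * Kron.evalR z (numer vecData marg6Z ε i j) := by
    simp only [quadForm, hall, Finset.mul_sum]
    exact Finset.sum_congr rfl fun i _ => Finset.sum_congr rfl fun j _ => by ring
  rw [e, quad_numer hε (numer_ok hε) hz hn x] at hx
  by_contra hc
  have : 0 < chartDen z := by unfold chartDen; positivity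
  have := mul_pos hκ (mul_pos (pow_pos this 6) (not_le.1 hc))
  linarith

end

end Vale.Agent.P098.Cert6.Interior
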