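import Vale.Agent.P098.Cert6.Class

/-!
P098, the homogeneous class: the damping of `T : H` inside the ball of eigenvalues, and continuity
and homogeneity of the form.
-/

open Matrix

namespace Vale.Agent.P098.Cert6

open Vale.Agent.P098.ReduceN (Fields psum usum hdot diagWeight tripleWeight fluxTrace)
open Vale.Agent.P098.Reduce (hsum)

noncomputable section

variable {n : ℕ} {σ : Fields}

/-- The exponent of the damping. -/
def kexp (n : ℕ) : ℝ := 2 / (3 * n)

/-- The damping factor, `(1 - |l|²)^(k/2)`. -/
def fade (l : Fin n → ℝ) : ℝ := max (1 - psum l 2) 0 ^ (kexp n / 2)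

/-- The weight of `τ c i i` in `T : H`. -/
def linWeight (c i : Fin n) : ℝ := if i = c then 1 else 3

/-- The form of the damping term. -/
def damp (l : Fin n → ℝ) (c : Fin n) (v : Fin n → ℝ) (o : ℝ) : ℝ :=
  (∑ i, linWeight c i * v i ^ 2) - (1 + kexp n) * usum l v 1 ^ 2 + (n : ℝ) * o ^ 2 * psum l 2

/-- The form with the damping of strength `Λ`. -/
def formD (Λ : ℝ) (K : Coefs σ Jet) (l : Fin n → ℝ) (c : Fin n) (v : Fin n → ℝ) (s q o R y : ℝ) :
    ℝ :=
  form K l c v s q o R y - Λ * fade l * damp l c v o

lemma psum_two_nonneg (l : Fin n → ℝ) : 0 ≤ psum l 2 := Finset.sum_nonneg fun i _ => sq_nonneg _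

lemma kexp_pos (hn : 0 < n) : 0 < kexp n := by
  have : (0 : ℝ) < n := Nat.cast_pos.2 hn
  rw [kexp]; positivity

lemma fade_nonneg (l : Fin n → ℝ) : 0 ≤ fade l := Real.rpow_nonneg (le_max_right _ _) _

lemma fade_pos {l : Fin n → ℝ} (h : psum l 2 < 1) : 0 < fade l :=
  Real.rpow_pos_of_pos (lt_max_of_lt_left (sub_pos.2 h)) _

lemma fade_eq_zero (hn : 0 < n) {l : Fin n → ℝ} (h : psum l 2 = 1) : fade l = 0 := by
  rw [fade, h, sub_self, max_self, Real.zero_rpow (div_pos (kexp_pos hn) two_pos).ne']

lemma linWeight_one_le (c i : Fin n) : 1 ≤ linWeight c i := by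
  unfold linWeight; split_ifs <;> norm_num

/-- The damping form is positive on the ball. -/
theorem damp_ge (hn : 0 < n) {l : Fin n → ℝ} (hl : ∑ i, l i = 0) (h2 : psum l 2 ≤ 1) (c : Fin n)
    (v : Fin n → ℝ) (o : ℝ) : kexp n ^ 2 * ∑ i, v i ^ 2 ≤ damp l c v o := by
  have hn' : (0 : ℝ) < n := Nat.cast_pos.2 hn
  set k := kexp n with hk
  set W := ∑ i, linWeight c i * v i ^ 2 with hW
  have hk0 : 0 < k := kexp_pos hn
  have hmu : (n : ℝ) * l c ^ 2 ≤ ((n : ℝ) - 1) * psum l 2 := by
    have h := sq_sum_le_card_mul_sum_sq (s := Finset.univ.erase c) (f := l)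
    have e1 : ∑ i ∈ Finset.univ.erase c, l i = -l c := by
      rw [← Finset.sum_erase_add _ _ (Finset.mem_univ c)] at hl; linarith
    have e2 : ∑ i ∈ Finset.univ.erase c, l i ^ 2 = psum l 2 - l c ^ 2 := by
      rw [psum, ← Finset.sum_erase_add _ _ (Finset.mem_univ c)]; ring
    rw [e1, e2, neg_sq, Finset.card_erase_of_mem (Finset.mem_univ c), Finset.card_univ,
      Fintype.card_fin, Nat.cast_sub hn, Nat.cast_one] at h
    linarith
  have hU : usum l v 1 ^ 2 ≤ (1 - k) * W := by
    have h := Finset.sum_sq_le_sum_mul_sum_of_sq_le_mul Finset.univ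
      (r := fun i => l i * v i) (f := fun i => l i ^ 2 / linWeight c i)
      (g := fun i => linWeight c i * v i ^ 2)
      (fun i _ => div_nonneg (sq_nonneg _) (zero_le_one.trans (linWeight_one_le c i)))
      (fun i _ => mul_nonneg (zero_le_one.trans (linWeight_one_le c i)) (sq_nonneg _))
      (fun i _ => le_of_eq (by
        have := zero_lt_one.trans_le (linWeight_one_le c i)
        field_simp))
    have e : ∑ i, l i ^ 2 / linWeight c i = psum l 2 / 3 + 2 / 3 * l c ^ 2 := by
      have e' : ∀ i, l i ^ 2 / linWeight c i = l i ^ 2 / 3 + (if i = c then 2 / 3 * l i ^ 2 else 0) :=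
        fun i => by unfold linWeight; split_ifs <;> ring
      simp only [e', Finset.sum_add_distrib, Finset.sum_ite_eq', Finset.mem_univ, if_true, psum,
        Finset.sum_div]
    have hb : psum l 2 / 3 + 2 / 3 * l c ^ 2 ≤ 1 - k := by
      have : (n : ℝ) * (psum l 2 / 3 + 2 / 3 * l c ^ 2) ≤ n * (1 - k) := by
        rw [show (n : ℝ) * (1 - k) = n - 2 / 3 by rw [hk, kexp]; field_simp]
        have : (1 : ℝ) ≤ n := Nat.one_le_cast.2 hn
        have := mul_le_mul_of_nonneg_left h2 (show (0 : ℝ) ≤ (n : ℝ) - 2 / 3 by linarith)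
        linarith
      exact le_of_mul_le_mul_left this hn'
    have e1 : usum l v 1 = ∑ i, l i * v i := by simp [usum]
    rw [e1]
    refine h.trans ?_
    rw [e]
    exact mul_le_mul_of_nonneg_right hb (Finset.sum_nonneg fun i _ =>
      mul_nonneg (zero_le_one.trans (linWeight_one_le c i)) (sq_nonneg _))
  have hWv : ∑ i, v i ^ 2 ≤ W := Finset.sum_le_sum fun i _ =>
    le_mul_of_one_le_left (sq_nonneg _) (linWeight_one_le c i)
  have h1 := mul_le_mul_of_nonneg_left hU (show (0 : ℝ) ≤ 1 + k by linarith)
  have h2' := mul_le_mul_of_nonneg_left hWv (sq_nonneg k)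
  have h3 : 0 ≤ (n : ℝ) * o ^ 2 * psum l 2 :=
    mul_nonneg (mul_nonneg hn'.le (sq_nonneg o)) (psum_two_nonneg l)
  simp only [damp, ← hk, ← hW]
  linarith

lemma usum_smul_left (l v : Fin n → ℝ) (r : ℝ) (m : ℕ) :
    usum l (r • v) m = r * usum l v m := by
  simp only [usum, Pi.smul_apply, smul_eq_mul, Finset.mul_sum]
  exact Finset.sum_congr rfl fun i _ => by ring

lemma hdot_smul_left (l v : Fin n → ℝ) (r : ℝ) (j : ℕ) (c : Fin n) :
    hdot l (r • v) j c = r * hdot l v j c := by
  simp only [hdot, Pi.smul_apply, smul_eq_mul, Finset.mul_sum]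
  exact Finset.sum_congr rfl fun i _ => by ring

lemma dH_smul (X : Jet) (E : ℝ) (l v : Fin n → ℝ) (c : Fin n) (q o R r : ℝ) :
    dH X E l (r • v) c q (r * o) (r * R) = r * dH X E l v c q o R := by
  simp only [dH, usum_smul_left]; ring

/-- The form is quadratic in `(v, y, o, R)`. -/
theorem form_smul (K : Coefs σ Jet) (l : Fin n → ℝ) (c : Fin n) (v : Fin n → ℝ)
    (s q o R y r : ℝ) :
    form K l c (r • v) s q (r * o) (r * R) (r * y) = r ^ 2 * form K l c v s q o R y := by
  simp only [form, dH_smul, usum_smul_left, hdot_smul_left, Pi.smul_apply, smul_eq_mul, mul_add,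
    mul_sub, Finset.mul_sum]
  refine congrArg₂ (· + ·) (congrArg₂ (· + ·) (congrArg₂ (· + ·) (congrArg₂ (· + ·)
    (congrArg₂ (· + ·) (by ring) (Finset.sum_congr rfl fun m _ => by ring))
    (Finset.sum_congr rfl fun i _ => by ring)) (Finset.sum_congr rfl fun k _ => by ring))
    (Finset.sum_congr rfl fun j _ => Finset.sum_congr rfl fun e _ => ?_)) ?_
  · fin_cases e <;> simp only [omega, Fin.zero_eta, Fin.mk_one, Matrix.cons_val_zero,
      Matrix.cons_val_one, Matrix.cons_val_fin_one] <;> split_ifs <;> ring
  · refine congrArg₂ (· + ·) (congrArg₂ (· + ·) (by ring)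
      (Finset.sum_congr rfl fun m _ => by ring)) (Finset.sum_congr rfl fun k _ => by ring)

lemma formD_smul (Λ : ℝ) (K : Coefs σ Jet) (l : Fin n → ℝ) (c : Fin n) (v : Fin n → ℝ)
    (s q o R y r : ℝ) :
    formD Λ K l c (r • v) s q (r * o) (r * R) (r * y) = r ^ 2 * formD Λ K l c v s q o R y := by
  have e : damp l c (r • v) (r * o) = r ^ 2 * damp l c v o := by
    simp only [damp, usum_smul_left, Pi.smul_apply, smul_eq_mul, mul_add, mul_sub, Finset.mul_sum]
    refine congrArg₂ (· + ·) (congrArg₂ (· - ·) (Finset.sum_congr rfl fun i _ => by ring)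
      (by ring)) (by ring)
  rw [formD, formD, form_smul, e]; ring

section Continuity

variable {X : Type*} [TopologicalSpace X]

lemma continuous_psum {l : X → Fin n → ℝ} (hl : Continuous l) (m : ℕ) :
    Continuous fun x => psum (l x) m := by
  unfold psum; fun_prop

lemma continuous_usum {l v : X → Fin n → ℝ} (hl : Continuous l) (hv : Continuous v) (m : ℕ) :
    Continuous fun x => usum (l x) (v x) m := by
  unfold usum; fun_prop

lemma continuous_hsum₂ {a b : X → ℝ} (ha : Continuous a) (hb : Continuous b) :
    ∀ j : ℕ, Continuous fun x => hsum j (a x) (b x)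
  | 0 => by simp only [hsum]; exact continuous_const
  | j + 1 => by
    simp only [hsum]
    exact ((continuous_hsum₂ ha hb j).mul hb).add (ha.pow j)

lemma continuous_hdot {l v : X → Fin n → ℝ} (hl : Continuous l) (hv : Continuous v) (j : ℕ)
    (c : Fin n) : Continuous fun x => hdot (l x) (v x) j c :=
  continuous_finsetSum _ fun i _ => (continuous_hsum₂ ((continuous_apply i).comp hl)
    ((continuous_apply c).comp hl) j).mul ((continuous_apply i).comp hv)

lemma continuous_fade (hn : 0 < n) {l : X → Fin n → ℝ} (hl : Continuous l) :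
    Continuous fun x => fade (l x) :=
  ((continuous_const.sub (continuous_psum hl 2)).max continuous_const).rpow_const
    fun _ => Or.inr (div_pos (kexp_pos hn) two_pos).le

lemma continuous_damp {l v : X → Fin n → ℝ} {o : X → ℝ} (hl : Continuous l) (hv : Continuous v)
    (ho : Continuous o) (c : Fin n) : Continuous fun x => damp (l x) c (v x) (o x) := by
  have := continuous_usum hl hv 1
  have := continuous_psum hl 2
  unfold damp
  fun_prop

/-- The jets as functions of the parameters. -/
structure ContCoefs (K : X → Coefs σ Jet) : Prop where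
  G : Continuous fun x => (K x).G
  A : ∀ m, Continuous fun x => (K x).A m
  X : ∀ k, Continuous fun x => (K x).X k
  C : ∀ e j, Continuous fun x => (K x).C e j

variable {K : X → Coefs σ Jet} (hK : ContCoefs K) {l : X → Fin n → ℝ} (hl : Continuous l)

include hK hl

lemma continuous_kerAt (a i j : Fin n) : Continuous fun x => kerAt (K x) (l x) a i j := by
  have hh := fun a b : Fin n => continuous_hsum₂ ((continuous_apply a).comp hl)
    ((continuous_apply b).comp hl)
  exact (continuous_finsetSum _ fun m _ => (hK.A m).fst.mul (hh i j _)).add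
    (continuous_finsetSum _ fun k _ => (hK.X k).fst.mul
      (((((continuous_apply a).comp hl).pow _).mul (hh i j _)).sub
        ((((continuous_apply a).comp hl).pow _).mul (hh i j _))))

lemma continuous_tripleWeight (a i j : Fin n) :
    Continuous fun x => tripleWeight (kerAt (K x) (l x)) a i j := by
  have h := continuous_kerAt hK hl
  unfold tripleWeight
  exact (((((h a i j).add (h a j i)).add (h i a j)).add (h i j a)).add (h j a i)).add (h j i a)

lemma continuous_form {v : X → Fin n → ℝ} {s q o R y : X → ℝ} (hv : Continuous v)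
    (hs : Continuous s) (hq : Continuous q) (ho : Continuous o) (hR : Continuous R)
    (hy : Continuous y) (c : Fin n) :
    Continuous fun x => form (K x) (l x) c (v x) (s x) (q x) (o x) (R x) (y x) := by
  have hU := continuous_usum hl hv
  have hP := continuous_psum hl
  have hH := fun j => continuous_hdot hl hv j c
  have hc : Continuous fun x => l x c := (continuous_apply c).comp hl
  have hd : ∀ {J : X → Jet}, Continuous J → ∀ E : ℝ,
      Continuous fun x => dH (J x) E (l x) (v x) c (q x) (o x) (R x) := fun {J} hJ E => by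
    have := hJ.fst; have := hJ.snd.fst; have := hJ.snd.snd.fst; have := hJ.snd.snd.snd
    have := hU 1; have := hU 2; have := hP 3
    unfold dH
    fun_prop
  have hk : ∀ i, Continuous fun x => diagWeight (kerAt (K x) (l x)) c i := fun i => by
    have h := continuous_kerAt hK hl
    unfold diagWeight
    split_ifs
    exacts [h c c c, ((h c i i).add (h i c i)).add (h i i c)]
  have hw : ∀ e, Continuous fun x => omega (o x) (R x) e := fun e => by
    fin_cases e
    · exact ho
    · exact hR
  unfold form
  refine (((((hy.mul (hd hK.G 1)).sub ((hy.pow 2).mul hK.G.fst)).add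
    (continuous_finsetSum _ fun m _ => (hd (hK.A m) _).mul (hU _))).add
    (continuous_finsetSum _ fun i _ => (hk i).mul (((continuous_apply i).comp hv).pow 2))).add
    (continuous_finsetSum _ fun k _ => ?_)).add
    (continuous_finsetSum _ fun j _ => continuous_finsetSum _ fun e _ => ?_) |>.add ?_
  · exact ((hd (hK.X k) _).mul (((hc.pow _).mul (hU _)).sub ((hc.pow _).mul (hU _)))).add
      ((hK.X k).fst.mul (((hH _).mul (hU _)).sub ((hH _).mul (hU _))))
  · refine (hw e).mul ((hq.mul (((hc.pow _).mul (hd (hK.C e j) _)).add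
      ((hK.C e j).fst.mul (hH _)))).add ((hK.C e j).fst.mul ?_))
    split_ifs
    exacts [((continuous_const.mul hs).mul ho).neg,
      (hR.mul (hP _)).sub ((hs.mul ho).mul (hP _))]
  · exact (ho.pow 2).mul (((continuous_const.mul hK.G.fst).add
      (continuous_finsetSum _ fun m _ => (continuous_const.mul (hK.A m).fst).mul (hP _))).add
      (continuous_finsetSum _ fun k _ => (hK.X k).fst.mul (((hP _).mul (hP _)).sub
        ((hP _).mul (hP _)))))

lemma continuous_edge (a : Fin n) :
    (Continuous fun x => edgeTop (K x) (l x) a) ∧ Continuous fun x => edgeLow (K x) (l x) a := by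
  have hc : Continuous fun x => l x a := (continuous_apply a).comp hl
  have hP := continuous_psum hl
  have hf : ∀ k, Continuous fun x => fluxTrace (l x) a k := fun k =>
    ((hc.mul (hP _)).sub (hP _)).add ((hc.pow _).mul (hP _))
  exact ⟨((( hK.G.fst.mul hc).add (continuous_finsetSum _ fun m _ => (hK.A m).fst.mul (hf _))).add
      (continuous_finsetSum _ fun j _ => (hK.C 1 j).fst.mul (hc.pow _))).add
      (continuous_finsetSum _ fun k _ => (hK.X k).fst.mul
        (((hc.pow _).mul (hf _)).sub ((hc.pow _).mul (hf _)))),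
    continuous_finsetSum _ fun j _ => (hK.C 0 j).fst.mul (hc.pow _)⟩

end Continuity

end

end Vale.Agent.P098.Cert6
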