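import Mathlib

/-!
P098, dimension six: with the first three power sums of four numbers fixed the fourth is extreme at
a configuration with a repeated value; with two power sums of three numbers fixed so is the third.
-/

namespace Vale.Agent.P098.Cert6

noncomputable section

/-- The power sums of `(a, a, b, c)`. -/
def rep (a b c : ℝ) (k : ℕ) : ℝ := 2 * a ^ k + b ^ k + c ^ k

/-- The first three power sums agree. -/
def Agree (a b c : ℝ) (S : ℕ → ℝ) : Prop :=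
  rep a b c 1 = S 1 ∧ rep a b c 2 = S 2 ∧ rep a b c 3 = S 3

/-- A critical point of the quartic with roots `w` gives a configuration with a repeated value. -/
lemma double_of_crit {w₀ w₁ w₂ w₃ c x₀ : ℝ} {q : ℝ → ℝ}
    (hq : ∀ x, q x = (x - w₀) * (x - w₁) * (x - w₂) * (x - w₃))
    (hd : (c - w₁) * (c - w₂) * (c - w₃) + (c - w₀) * (c - w₂) * (c - w₃) +
      (c - w₀) * (c - w₁) * (c - w₃) + (c - w₀) * (c - w₁) * (c - w₂) = 0)
    (hne : x₀ ≠ c) (hsign : q x₀ ≤ q c) :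
    ∃ b d, Agree c b d (fun k => w₀ ^ k + w₁ ^ k + w₂ ^ k + w₃ ^ k) ∧
      rep c b d 4 = w₀ ^ 4 + w₁ ^ 4 + w₂ ^ 4 + w₃ ^ 4 + 4 * q c := by
  set S := w₀ + w₁ + w₂ + w₃ - 2 * c with hS
  set K := w₀ * w₁ + w₀ * w₂ + w₀ * w₃ + w₁ * w₂ + w₁ * w₃ + w₂ * w₃ - c ^ 2 - 2 * c * S with hK
  have hid : q x₀ = q c + (x₀ - c) ^ 2 * (x₀ ^ 2 - S * x₀ + K) := by
    rw [hq, hq, hK, hS]
    linear_combination (x₀ - c) * hd
  have hquad : x₀ ^ 2 - S * x₀ + K ≤ 0 := by
    by_contra h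
    have := mul_pos (pow_two_pos_of_ne_zero (sub_ne_zero.2 hne)) (not_le.1 h)
    linarith
  have hdisc : 0 ≤ S ^ 2 - 4 * K := by linarith [sq_nonneg (2 * x₀ - S)]
  set r := √(S ^ 2 - 4 * K)
  have hr : r ^ 2 = S ^ 2 - 4 * K := Real.sq_sqrt hdisc
  obtain ⟨b, d, hbd, hmul⟩ : ∃ b d : ℝ, b + d = S ∧ b * d = K :=
    ⟨(S + r) / 2, (S - r) / 2, by ring, by linear_combination (-1 / 4) * hr⟩
  have e2 : b ^ 2 + d ^ 2 = S ^ 2 - 2 * K := by rw [← hbd, ← hmul]; ring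
  have e3 : b ^ 3 + d ^ 3 = S ^ 3 - 3 * K * S := by rw [← hbd, ← hmul]; ring
  have e4 : b ^ 4 + d ^ 4 = S ^ 4 - 4 * S ^ 2 * K + 2 * K ^ 2 := by rw [← hbd, ← hmul]; ring
  refine ⟨b, d, ⟨?_, ?_, ?_⟩, ?_⟩
  · simp only [rep, pow_one]
    linarith
  · simp only [rep]
    rw [add_assoc, e2, hK, hS]
    ring
  · simp only [rep]
    rw [add_assoc, e3, hK, hS]
    linear_combination 3 * hd
  · simp only [rep]
    rw [add_assoc, e4, hq, hK, hS]
    linear_combination 4 * (w₀ + w₁ + w₂ + w₃ - c) * hd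

lemma exists_crit {w₀ w₁ w₂ w₃ a b : ℝ} (hab : a < b)
    (ha : (a - w₀) * (a - w₁) * (a - w₂) * (a - w₃) = 0)
    (hb : (b - w₀) * (b - w₁) * (b - w₂) * (b - w₃) = 0) :
    ∃ c, a < c ∧ c < b ∧ (c - w₁) * (c - w₂) * (c - w₃) + (c - w₀) * (c - w₂) * (c - w₃) +
      (c - w₀) * (c - w₁) * (c - w₃) + (c - w₀) * (c - w₁) * (c - w₂) = 0 := by
  obtain ⟨c, hc, h⟩ := exists_hasDerivAt_eq_zero hab
    (f := fun x => (x - w₀) * (x - w₁) * (x - w₂) * (x - w₃))
    (by fun_prop) (by simp only [ha, hb])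
    (fun x _ => ((((hasDerivAt_id x).sub_const w₀).fun_mul ((hasDerivAt_id x).sub_const w₁)).fun_mul
      ((hasDerivAt_id x).sub_const w₂)).fun_mul ((hasDerivAt_id x).sub_const w₃))
  exact ⟨c, hc.1, hc.2, by simp only [id] at h; linarith⟩

/-- The fourth power sum lies between those of two configurations with a repeated value and the
same first three power sums. -/
theorem exists_repeated (v : Fin 4 → ℝ) :
    ∃ a b c a' b' c', Agree a b c (fun k => ∑ i, v i ^ k) ∧ Agree a' b' c' (fun k => ∑ i, v i ^ k) ∧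
      rep a b c 4 ≤ ∑ i, v i ^ 4 ∧ ∑ i, v i ^ 4 ≤ rep a' b' c' 4 := by
  set w := v ∘ Tuple.sort v with hw
  have hsum : ∀ k, ∑ i, v i ^ k = w 0 ^ k + w 1 ^ k + w 2 ^ k + w 3 ^ k := fun k => by
    rw [← Equiv.sum_comp (Tuple.sort v) (fun i => v i ^ k), Fin.sum_univ_four]
    rfl
  simp only [hsum]
  have hm : Monotone w := Tuple.monotone_sort v
  have triv : ∀ a b c, (∀ k, rep a b c k = w 0 ^ k + w 1 ^ k + w 2 ^ k + w 3 ^ k) →
      ∃ a b c a' b' c', Agree a b c (fun k => w 0 ^ k + w 1 ^ k + w 2 ^ k + w 3 ^ k) ∧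
        Agree a' b' c' (fun k => w 0 ^ k + w 1 ^ k + w 2 ^ k + w 3 ^ k) ∧
        rep a b c 4 ≤ w 0 ^ 4 + w 1 ^ 4 + w 2 ^ 4 + w 3 ^ 4 ∧
        w 0 ^ 4 + w 1 ^ 4 + w 2 ^ 4 + w 3 ^ 4 ≤ rep a' b' c' 4 := fun a b c h =>
    ⟨a, b, c, a, b, c, ⟨h 1, h 2, h 3⟩, ⟨h 1, h 2, h 3⟩, (h 4).le, (h 4).ge⟩
  rcases eq_or_lt_of_le (hm (show (0 : Fin 4) ≤ 1 by decide)) with e | h01
  · exact triv (w 0) (w 2) (w 3) fun k => by rw [rep, ← e]; ring
  rcases eq_or_lt_of_le (hm (show (1 : Fin 4) ≤ 2 by decide)) with e | h12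
  · exact triv (w 1) (w 0) (w 3) fun k => by rw [rep, ← e]; ring
  rcases eq_or_lt_of_le (hm (show (2 : Fin 4) ≤ 3 by decide)) with e | h23
  · exact triv (w 2) (w 0) (w 1) fun k => by rw [rep, ← e]; ring
  set q := fun x => (x - w 0) * (x - w 1) * (x - w 2) * (x - w 3) with hqdef
  have hq : ∀ x, q x = (x - w 0) * (x - w 1) * (x - w 2) * (x - w 3) := fun _ => rfl
  obtain ⟨c₁, a1, b1, d1⟩ := exists_crit (w₀ := w 0) (w₁ := w 1) (w₂ := w 2) (w₃ := w 3) h01
    (by simp) (by simp)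
  obtain ⟨c₂, a2, b2, d2⟩ := exists_crit (w₀ := w 0) (w₁ := w 1) (w₂ := w 2) (w₃ := w 3) h12
    (by simp) (by simp)
  obtain ⟨c₃, a3, b3, d3⟩ := exists_crit (w₀ := w 0) (w₁ := w 1) (w₂ := w 2) (w₃ := w 3) h23
    (by simp) (by simp)
  have neg₁ : q c₁ < 0 := mul_neg_of_pos_of_neg (mul_pos_of_neg_of_neg
    (mul_neg_of_pos_of_neg (by linarith) (by linarith)) (by linarith)) (by linarith)
  have pos₂ : 0 < q c₂ := mul_pos_of_neg_of_neg (mul_neg_of_pos_of_neg
    (mul_pos (by linarith) (by linarith)) (by linarith)) (by linarith)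
  have neg₃ : q c₃ < 0 := mul_neg_of_pos_of_neg (mul_pos
    (mul_pos (by linarith) (by linarith)) (by linarith)) (by linarith)
  obtain ⟨b', d', hA', h4'⟩ := double_of_crit hq d2 (x₀ := w 1) (ne_of_lt a2)
    (by rw [hq (w 1), sub_self, mul_zero, zero_mul, zero_mul]; exact pos₂.le)
  rcases le_total (q c₁) (q c₃) with h | h
  · obtain ⟨b, d, hA, h4⟩ := double_of_crit hq d3 (x₀ := c₁) (by linarith) h
    exact ⟨c₃, b, d, c₂, b', d', hA, hA', by rw [h4]; linarith, by rw [h4']; linarith⟩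
  · obtain ⟨b, d, hA, h4⟩ := double_of_crit hq d1 (x₀ := c₃) (by linarith) h
    exact ⟨c₁, b, d, c₂, b', d', hA, hA', by rw [h4]; linarith, by rw [h4']; linarith⟩

/-- The third power sum of three numbers lies between those of the configurations `(a, a, b)` with
the same sum and square sum. -/
theorem exists_pair (x y z : ℝ) :
    ∃ a b a' b', 2 * a + b = x + y + z ∧ 2 * a ^ 2 + b ^ 2 = x ^ 2 + y ^ 2 + z ^ 2 ∧
      2 * a' + b' = x + y + z ∧ 2 * a' ^ 2 + b' ^ 2 = x ^ 2 + y ^ 2 + z ^ 2 ∧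
      2 * a ^ 3 + b ^ 3 ≤ x ^ 3 + y ^ 3 + z ^ 3 ∧ x ^ 3 + y ^ 3 + z ^ 3 ≤ 2 * a' ^ 3 + b' ^ 3 := by
  set m := (x + y + z) / 3 with hm
  set u := x - m with hu
  set v := y - m with hv
  have hz : z = m - u - v := by rw [hu, hv, hm]; ring
  have hx : x = m + u := by rw [hu]; ring
  have hy : y = m + v := by rw [hv]; ring
  set r := √((u ^ 2 + u * v + v ^ 2) / 3)
  have hr : r ^ 2 = (u ^ 2 + u * v + v ^ 2) / 3 :=
    Real.sq_sqrt (by nlinarith [sq_nonneg (u + v), sq_nonneg u, sq_nonneg v])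
  have key : |3 * u * v * (u + v)| ≤ 6 * r ^ 3 := by
    refine abs_le_of_sq_le_sq ?_ (by positivity)
    rw [show (6 * r ^ 3) ^ 2 = 36 * (r ^ 2) ^ 3 by ring, hr]
    have := sq_nonneg ((u - v) * (2 * u + v) * (u + 2 * v))
    linarith
  rw [abs_le] at key
  refine ⟨m + r, m - 2 * r, m - r, m + 2 * r, by rw [hm]; ring, ?_, by rw [hm]; ring, ?_, ?_, ?_⟩
  · rw [hx, hy, hz]; linear_combination 6 * hr
  · rw [hx, hy, hz]; linear_combination 6 * hr
  · rw [hx, hy, hz]; linear_combination key.2 + 18 * m * hr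
  · rw [hx, hy, hz]; linear_combination key.1 - 18 * m * hr

/-- The third power sum of five numbers of sum zero is at most `671/1000` times the power `3/2`
of the square sum. -/
theorem abs_cube_sum_le (L : Fin 5 → ℝ) (hL : ∑ i, L i = 0) {r : ℝ} (hr : 0 ≤ r)
    (h2 : ∑ i, L i ^ 2 = r ^ 2) : |∑ i, L i ^ 3| ≤ 671 / 1000 * r ^ 3 := by
  have hbd : ∀ i, |L i| ≤ 1789 / 2000 * r := fun i => by
    refine abs_le_of_sq_le_sq ?_ (by positivity)
    have hs := hL
    rw [Fin.sum_univ_succAbove _ i] at hs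
    rw [Fin.sum_univ_succAbove _ i] at h2
    have c := sq_sum_le_card_mul_sum_sq (s := (Finset.univ : Finset (Fin 4)))
      (f := fun j => L (i.succAbove j))
    rw [Finset.card_univ, Fintype.card_fin, show (∑ j, L (i.succAbove j)) = -L i by linarith, neg_sq]
      at c
    push_cast at c
    nlinarith
  have one : ∀ e : ℝ, (e = 1 ∨ e = -1) → 0 ≤ e * (∑ i, L i ^ 3) + 671 / 1000 * r ^ 3 := by
    intro e he
    set M : ℝ := 1789 / 2000
    set α := r / (5 * M)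
    have h : 0 ≤ ∑ i, (e * L i - α) ^ 2 * (e * L i + M * r) :=
      Finset.sum_nonneg fun i _ => mul_nonneg (sq_nonneg _) (by
        have := abs_le.1 (hbd i)
        rcases he with rfl | rfl <;> linarith [this.1, this.2])
    have he2 : e ^ 2 = 1 := by rcases he with rfl | rfl <;> norm_num
    have ex : ∀ i, (e * L i - α) ^ 2 * (e * L i + M * r) =
        e * L i ^ 3 + (M * r - 2 * α) * L i ^ 2 + (α ^ 2 - 2 * α * M * r) * e * L i +
          α ^ 2 * M * r := fun i => by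
      linear_combination (e * L i ^ 3 + (M * r - 2 * α) * L i ^ 2) * he2
    simp only [ex, Finset.sum_add_distrib, ← Finset.mul_sum, h2, hL, Finset.sum_const,
      Finset.card_univ, Fintype.card_fin, nsmul_eq_mul, mul_zero, add_zero] at h
    simp only [α, M] at h
    ring_nf at h ⊢
    nlinarith [pow_nonneg hr 3]
  rw [abs_le]
  constructor <;> linarith [one 1 (Or.inl rfl), one (-1) (Or.inr rfl)]

end

end Vale.Agent.P098.Cert6
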