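import Vale.Agent.P098.Cert6.Class
import Vale.Agent.P098.Cert6.Moments

/-!
P098, dimension six, fields `T : b`, `T : b²`, `b^j p`, and the one of the powers two and one, with
coefficients affine in `τ`: the boundary inequalities, the triples and the sign of the test
coefficient from polynomial inequalities in two to four variables.
-/

namespace Vale.Agent.P098.Cert6

open Vale.Agent.P098.ReduceN (Fields psum fluxTrace tripleWeight)
open Vale.Agent.P098.Reduce (hsum)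

noncomputable section

/-- The fields of the class used in dimension six. -/
abbrev fields : Fields where
  M := 2
  J := 5
  K := 1
  a := ![0, 1]
  j := fun j => j.val
  p := ![1]
  q := ![0]

/-- A function of `(s, P)` and `τ`, affine in `τ`. -/
abbrev Aff : Type := (ℝ × ℝ → ℝ) × (ℝ × ℝ → ℝ)

/-- The value at `(s, P, τ)`. -/
def Aff.fn (g : Aff) (w : ℝ × ℝ × ℝ) : ℝ := g.1 (w.1, w.2.1) + w.2.2 * g.2 (w.1, w.2.1)

/-- All the values at `(s, P, τ)`. -/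
def valsAt (V : Coefs fields Aff) (w : ℝ × ℝ × ℝ) : Coefs fields ℝ := V.map fun g => g.fn w

/-- A bound for the third power sum of five eigenvalues of sum zero and square sum one. -/
def tauMax : ℝ := 671 / 1000

/-- The square of half the difference of the single values: the normal eigenvalue is `ν`, the other
four are `m + p, m + p, m - p ± w` with `m = -ν/4`. -/
def edgeW (ν p : ℝ) : ℝ := (1 - 5 / 4 * ν ^ 2 - 4 * p ^ 2) / 2

/-- The third power sum of the five eigenvalues. -/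
def edgeCube (ν p : ℝ) : ℝ :=
  ν ^ 3 + 2 * (-ν / 4 + p) ^ 3 + 2 * (-ν / 4 - p) ^ 3 + 6 * (-ν / 4 - p) * edgeW ν p

/-- The fourth power sum of the five eigenvalues. -/
def edgeQuart (ν p : ℝ) : ℝ :=
  ν ^ 4 + 2 * (-ν / 4 + p) ^ 4 + 2 * (-ν / 4 - p) ^ 4 + 12 * (-ν / 4 - p) ^ 2 * edgeW ν p +
    2 * edgeW ν p ^ 2

/-- The boundary scalar of the zeroth order fields. -/
def lowPoly (V : Coefs fields ℝ) (ν : ℝ) : ℝ :=
  V.C 0 0 + V.C 0 1 * ν + V.C 0 2 * ν ^ 2 + V.C 0 3 * ν ^ 3 + V.C 0 4 * ν ^ 4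

/-- The boundary scalar of the second order, `S₃, S₄` the power sums. -/
def topPoly (V : Coefs fields ℝ) (ν S₃ S₄ : ℝ) : ℝ :=
  V.G * ν + V.A 0 * (2 * ν - S₃) + V.A 1 * (ν * S₃ - S₄ + ν ^ 2) +
    V.X 0 * (ν ^ 3 - 2 * ν ^ 2 * S₃ + ν * S₄) +
    (V.C 1 0 + V.C 1 1 * ν + V.C 1 2 * ν ^ 2 + V.C 1 3 * ν ^ 3 + V.C 1 4 * ν ^ 4)

/-- The boundary inequalities to be checked, at `(s, P) = (0, 1)`. -/
def EdgeIneq (V : Coefs fields Aff) (t : ℝ) : Prop :=
  ∀ ν p : ℝ, ν ≤ 0 → 5 * ν ^ 2 + 16 * p ^ 2 ≤ 4 →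
    lowPoly (valsAt V (0, 1, edgeCube ν p)) ν + t ≤ 0 ∧
      topPoly (valsAt V (0, 1, edgeCube ν p)) ν (edgeCube ν p) (edgeQuart ν p) + t ≤ 0

/-- A configuration with a repeated value is a point of the domain. -/
lemma rep_to_param {ν a b c : ℝ} (h1 : 2 * a + b + c = -ν)
    (h2 : 2 * a ^ 2 + b ^ 2 + c ^ 2 = 1 - ν ^ 2) :
    5 * ν ^ 2 + 16 * (a + ν / 4) ^ 2 ≤ 4 ∧
      ν ^ 3 + rep a b c 3 = edgeCube ν (a + ν / 4) ∧
      ν ^ 4 + rep a b c 4 = edgeQuart ν (a + ν / 4) := by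
  obtain rfl : c = -ν - 2 * a - b := by linarith
  have hw : edgeW ν (a + ν / 4) = (a + b + ν / 2) ^ 2 := by
    rw [edgeW]; linear_combination (-1 / 2) * h2
  refine ⟨?_, ?_, ?_⟩
  · have := sq_nonneg (a + b + ν / 2)
    rw [← hw, edgeW] at this
    linarith
  · simp only [rep, edgeCube, hw]; ring
  · simp only [rep, edgeQuart, hw]; ring

/-- The boundary inequalities of the class on the unit sphere of eigenvalues. -/
theorem edge_of_poly {V : Coefs fields Aff} {t : ℝ} (h : EdgeIneq V t) (l : Fin 5 → ℝ)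
    (hl : ∑ i, l i = 0) (h2 : psum l 2 = 1) (a : Fin 5) (ha : l a ≤ 0) :
    edgeTop (jetsAt (V.map Aff.fn) l 0 1) l a ≤ -t ∧
      edgeLow (jetsAt (V.map Aff.fn) l 0 1) l a ≤ -t := by
  have elow : edgeLow (jetsAt (V.map Aff.fn) l 0 1) l a =
      lowPoly (valsAt V (0, 1, psum l 3)) (l a) := by
    simp [edgeLow, lowPoly, jetsAt, valsAt, Coefs.map, jetOf, Fin.sum_univ_five]
  have etop : edgeTop (jetsAt (V.map Aff.fn) l 0 1) l a =
      topPoly (valsAt V (0, 1, psum l 3)) (l a) (psum l 3) (psum l 4) := by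
    simp [edgeTop, topPoly, jetsAt, valsAt, Coefs.map, jetOf, fluxTrace, Fin.sum_univ_five, h2]
    ring
  rw [elow, etop]
  set v : Fin 4 → ℝ := fun i => l (a.succAbove i)
  have hP : ∀ k, psum l k = l a ^ k + ∑ i, v i ^ k := fun k => by
    rw [psum, Fin.sum_univ_succAbove _ a]
  have v1 : ∑ i, v i ^ 1 = -l a := by
    rw [Fin.sum_univ_succAbove _ a] at hl
    simp only [pow_one, v]
    linarith
  have v2 : ∑ i, v i ^ 2 = 1 - l a ^ 2 := by linarith [hP 2, h2]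
  obtain ⟨x, y, z, x', y', z', ⟨g1, g2, g3⟩, ⟨k1, k2, k3⟩, lo, hi⟩ := exists_repeated v
  simp only [] at g1 k1 g2 k2 g3 k3
  rw [v1] at g1 k1
  rw [v2] at g2 k2
  simp only [rep, pow_one] at g1 k1 g2 k2
  obtain ⟨gd, gc, gq⟩ := rep_to_param g1 g2
  obtain ⟨kd, kc, kq⟩ := rep_to_param k1 k2
  obtain ⟨glow, gtop⟩ := h _ _ ha gd
  obtain ⟨-, ktop⟩ := h _ _ ha kd
  rw [← gc, g3, ← hP 3] at glow gtop
  rw [← gq] at gtop
  rw [← kc, k3, ← hP 3, ← kq] at ktop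
  refine ⟨?_, by linarith⟩
  rw [hP 4]
  simp only [topPoly] at gtop ktop ⊢
  generalize valsAt V (0, 1, psum l 3) = W at gtop ktop ⊢
  rcases le_total 0 (-W.A 1 + W.X 0 * l a) with hs | hs
  · linarith [mul_nonneg hs (sub_nonneg.2 hi)]
  · linarith [mul_nonneg_of_nonpos_of_nonpos hs (sub_nonpos.2 lo)]

/-- The test coefficient at the two extreme values of `τ`. -/
def GIneq (g : Aff) : Prop :=
  ∀ s P : ℝ, s ∈ Set.Icc (0 : ℝ) 1 → P ∈ Set.Icc (0 : ℝ) 1 →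
    0 < g.fn (s, P, tauMax) ∧ 0 < g.fn (s, P, -tauMax)

/-- The test coefficient is positive on the ball of eigenvalues. -/
theorem pos_of_poly {V : Coefs fields Aff} (h : GIneq V.G) (l : Fin 5 → ℝ) (hl : ∑ i, l i = 0)
    (h2 : psum l 2 ≤ 1) (s P : ℝ) (hs : s ∈ Set.Icc (0 : ℝ) 1) (hP : P ∈ Set.Icc (0 : ℝ) 1) :
    0 < (V.map Aff.fn).G (s, P, psum l 3) := by
  have hQ : 0 ≤ psum l 2 := Finset.sum_nonneg fun i _ => sq_nonneg _
  obtain ⟨t1, t2⟩ := abs_le.1 ((abs_cube_sum_le l hl (Real.sqrt_nonneg (psum l 2))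
    (by rw [Real.sq_sqrt hQ]; rfl)).trans (mul_le_of_le_one_right (by norm_num)
      (pow_le_one₀ (Real.sqrt_nonneg _) (Real.sqrt_le_one.2 h2))))
  obtain ⟨g1, g2⟩ := h s P hs hP
  simp only [Aff.fn, tauMax, Coefs.map] at g1 g2 ⊢
  rw [show psum l 3 = ∑ i, l i ^ 3 from rfl]
  rcases le_total 0 (V.G.2 (s, P)) with hg | hg
  · linarith [mul_le_mul_of_nonneg_left t1 hg]
  · linarith [mul_le_mul_of_nonpos_left t2 hg]

/-- The weight of a triple of sum `σ₁` and square sum `σ₂`. -/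
def tripleForm (V : Coefs fields ℝ) (σ₁ σ₂ : ℝ) : ℝ :=
  6 * V.A 0 + 4 * V.A 1 * σ₁ + V.X 0 * (4 * σ₂ - 2 * σ₁ ^ 2)

/-- The cube sum with the triple `(a, a, b)` and square sum one. -/
def tripleCube (a b : ℝ) : ℝ :=
  2 * a ^ 3 + b ^ 3 - (2 * a + b) * (3 * (1 - (2 * a ^ 2 + b ^ 2)) - (2 * a + b) ^ 2) / 2

/-- The triple inequality to be checked. -/
def TripleIneq (V : Coefs fields Aff) (t : ℝ) : Prop :=
  ∀ s P a b : ℝ, 0 ≤ s → s ^ 2 ≤ P → P ≤ 1 →
    2 * a ^ 2 + b ^ 2 + (2 * a + b) ^ 2 / 2 ≤ 1 →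
    tripleForm (valsAt V (s, P, tripleCube a b)) (2 * a + b) (2 * a ^ 2 + b ^ 2) + t ≤ 0

/-- The weights of distinct triples on the unit sphere of eigenvalues. -/
theorem triple_of_poly {V : Coefs fields Aff} {t : ℝ} (h : TripleIneq V t) (l : Fin 5 → ℝ)
    (hl : ∑ i, l i = 0) (h2 : psum l 2 = 1) (s P : ℝ) (hs : 0 ≤ s) (hsP : s ^ 2 ≤ P) (hP : P ≤ 1)
    (a i j : Fin 5) (hai : a ≠ i) (haj : a ≠ j) (hij : i ≠ j) :
    tripleWeight (kerAt (jetsAt (V.map Aff.fn) l s P) l) a i j ≤ -t := by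
  obtain ⟨d, e, hde, hS⟩ : ∃ d e, d ≠ e ∧ ({a, i, j} : Finset (Fin 5))ᶜ = {d, e} := by
    refine Finset.card_eq_two.1 ?_
    rw [Finset.card_compl, Fintype.card_fin, Finset.card_eq_three.2 ⟨a, i, j, hai, haj, hij, rfl⟩]
  have hall : ∀ f : Fin 5 → ℝ, ∑ k, f k = f a + f i + f j + f d + f e := fun f => by
    rw [← Finset.sum_add_sum_compl ({a, i, j} : Finset (Fin 5)) f, hS, Finset.sum_pair hde,
      Finset.sum_insert (by simp [hai, haj]), Finset.sum_pair hij]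
    ring
  have eform : tripleWeight (kerAt (jetsAt (V.map Aff.fn) l s P) l) a i j =
      tripleForm (valsAt V (s, P, psum l 3)) (l a + l i + l j) (l a ^ 2 + l i ^ 2 + l j ^ 2) := by
    simp [tripleWeight, kerAt, kerV, tripleForm, jetsAt, valsAt, Coefs.map, jetOf, hsum]
    ring
  obtain ⟨x, y, x', y', a1, a2, b1, b2, klo, khi⟩ := exists_pair (l a) (l i) (l j)
  have h0 := (hall l).symm.trans hl
  have h22 : l a ^ 2 + l i ^ 2 + l j ^ 2 + l d ^ 2 + l e ^ 2 = 1 :=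
    (hall fun k => l k ^ 2).symm.trans h2
  set S := l a + l i + l j with hS'
  set Q := l a ^ 2 + l i ^ 2 + l j ^ 2 with hQ
  have hd : S ^ 2 / 2 ≤ l d ^ 2 + l e ^ 2 := by
    rw [show S = -(l d + l e) by linarith, neg_sq]
    linarith [sq_nonneg (l d - l e)]
  have hcube : psum l 3 = l a ^ 3 + l i ^ 3 + l j ^ 3 - S * (3 * (1 - Q) - S ^ 2) / 2 := by
    rw [show (1 : ℝ) - Q = l d ^ 2 + l e ^ 2 by linarith, show S = -(l d + l e) by linarith, psum,
      hall]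
    ring
  have g1 := h s P x y hs hsP hP (by rw [a1, a2]; linarith)
  have g2 := h s P x' y' hs hsP hP (by rw [b1, b2]; linarith)
  rw [eform, hcube]
  simp only [tripleCube, tripleForm, valsAt, Coefs.map, Aff.fn, a1, a2, b1, b2] at g1 g2 ⊢
  set β := 6 * (V.A 0).2 (s, P) + 4 * (V.A 1).2 (s, P) * S +
    (V.X 0).2 (s, P) * (4 * Q - 2 * S ^ 2)
  rcases le_total 0 β with hb | hb
  · linarith [mul_le_mul_of_nonneg_left khi hb]
  · linarith [mul_le_mul_of_nonpos_left klo hb]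

end

end Vale.Agent.P098.Cert6
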