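import Vale.Agent.P098.Cert6.Entries

/-!
P098, dimension six: the entries commute with maps that preserve sums, products and integers, so
the numerators of `numer` are the entries at the point of the chart times a power of the
denominator.
-/

namespace Vale.Agent.P098.Cert6.Interior

variable {α β : Type} [Num α] [Add α] [Mul α] [Neg α] [Num β] [Add β] [Mul β] [Neg β]

/-- Apply a map to a point. -/
def Pt.map (φ : α → β) (p : Pt α) : Pt β :=
  ⟨φ p.s, φ p.σ, φ p.μ, φ p.a, φ p.c, φ p.T, φ p.N⟩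

/-- Apply a map to a jet. -/
def J.map (φ : α → β) (X : J α) : J β := ⟨φ X.g, φ X.gs, φ X.gP, φ X.gt⟩

/-- Apply a map to all fields. -/
def Data.map {γ δ : Type} (φ : γ → δ) (V : Data γ) : Data δ :=
  ⟨φ V.G, φ V.A₀, φ V.A₁, φ V.X, fun e j => φ (V.B e j)⟩

/-- A map preserving the operations. -/
structure IsNumHom (φ : α → β) : Prop where
  cast : ∀ z, φ (Num.cast z) = Num.cast z
  add : ∀ a b, φ (a + b) = φ a + φ b
  mul : ∀ a b, φ (a * b) = φ a * φ b
  neg : ∀ a, φ (-a) = -φ a

variable {φ : α → β}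

lemma map_sym (h : IsNumHom φ) (A B : Fin 6 → α) (i j : Fin 6) :
    φ (sym A B i j) = sym (fun k => φ (A k)) (fun k => φ (B k)) i j := by
  simp only [sym, h.add, h.mul]

omit [Num α] [Add α] [Mul α] [Neg α] [Num β] [Add β] [Mul β] [Neg β] in
lemma map_lf (a b c d e f : α) :
    (fun k => φ (lf a b c d e f k)) = lf (φ a) (φ b) (φ c) (φ d) (φ e) (φ f) := by
  funext k; fin_cases k <;> rfl

lemma map_ev (h : IsNumHom φ) (k : Fin 6) : (fun i => φ (ev k i)) = (ev k : Fin 6 → β) := by
  funext i; simp only [ev]; split <;> exact h.cast _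

lemma map_dia (h : IsNumHom φ) (k : Fin 6) (w : α) (i j : Fin 6) :
    φ (dia k w i j) = dia k (φ w) i j := by
  simp only [dia]; split <;> simp only [h.mul, h.cast]

lemma map_p3 (h : IsNumHom φ) (p : Pt α) : φ p.p3 = (p.map φ).p3 := by
  simp only [Pt.p3, Pt.map, h.add, h.mul, h.cast]

lemma map_p4 (h : IsNumHom φ) (p : Pt α) : φ p.p4 = (p.map φ).p4 := by
  simp only [Pt.p4, Pt.map, h.add, h.mul, h.cast]

lemma map_poly (h : IsNumHom φ) (s P : α) (l : List ℤ) :
    (φ (poly s P l).1, φ (poly s P l).2.1, φ (poly s P l).2.2) = poly (φ s) (φ P) l := by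
  unfold poly
  split <;> simp only [h.add, h.mul, h.cast]

lemma map_jet (h : IsNumHom φ) (s P τ : α) (c : List ℤ × List ℤ) :
    (jet s P τ c).map φ = jet (φ s) (φ P) (φ τ) c := by
  simp only [jet, J.map, ← map_poly h s P, h.add, h.mul]

lemma map_at (h : IsNumHom φ) (V : Data (List ℤ × List ℤ)) (p : Pt α) :
    (V.at p).map (J.map φ) = V.at (p.map φ) := by
  simp only [Data.at, Data.map, map_jet h, map_p3 h, h.add, h.mul]
  rfl

lemma map_u1 (h : IsNumHom φ) (p : Pt α) : (fun i => φ (p.u1 i)) = (p.map φ).u1 := by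
  simp only [Pt.u1, map_lf, Pt.map, h.add, h.mul, h.neg, h.cast]

lemma map_u2 (h : IsNumHom φ) (p : Pt α) : (fun i => φ (p.u2 i)) = (p.map φ).u2 := by
  simp only [Pt.u2, map_lf, Pt.map, h.add, h.mul, h.neg, h.cast]

lemma map_dH (h : IsNumHom φ) (p : Pt α) (X : J α) (E : ℤ) :
    (fun i => φ (p.dH X E i)) = (p.map φ).dH (X.map φ) E := by
  have e1 := fun i => congrFun (map_u1 h p) i
  have e2 := fun i => congrFun (map_u2 h p) i
  simp only [Pt.dH, map_lf, h.add, h.mul, h.neg, h.cast, map_p3 h, e1, e2, J.map]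
  rfl

lemma map_hd (h : IsNumHom φ) (p : Pt α) (k : Fin 4) (i : Fin 6) :
    φ (p.hd k i) = (p.map φ).hd k i := by
  have e1 := congrFun (map_u1 h p) i
  have e2 := congrFun (map_u2 h p) i
  fin_cases k <;> simp [Pt.hd, h.add, h.mul, h.cast, e1, e2] <;> rfl

lemma map_mu (h : IsNumHom φ) (p : Pt α) (k : Fin 4) : φ (p.mu k) = (p.map φ).mu k := by
  fin_cases k <;> simp [Pt.mu, h.mul, h.cast] <;> rfl

lemma map_wgt (h : IsNumHom φ) (p : Pt α) (W : Data (J α)) (t : ℤ) (i j : Fin 6) :
    φ (p.wgt W t i j) = (p.map φ).wgt (W.map (J.map φ)) t i j := by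
  simp only [Pt.wgt, h.add, h.mul, h.neg, h.cast, map_sym h, map_dia h, map_lf, map_ev h]
  rfl

lemma map_part1 (h : IsNumHom φ) (p : Pt α) (W : Data (J α)) (t : ℤ) (i j : Fin 6) :
    φ (p.part1 W t i j) = (p.map φ).part1 (W.map (J.map φ)) t i j := by
  have e1 := fun k => congrFun (map_u1 h p) k
  have e2 := fun k => congrFun (map_u2 h p) k
  have e3 := fun X E k => congrFun (map_dH h p X E) k
  simp only [Pt.part1, h.add, h.mul, h.neg, h.cast, map_sym h, map_dia h, map_wgt h, map_ev h,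
    map_mu h, map_hd h, e1, e2, e3]
  rfl

lemma map_part0 (h : IsNumHom φ) (p : Pt α) (W : Data (J α)) (t : ℤ) (i j : Fin 6) :
    φ (p.part0 W t i j) = (p.map φ).part0 (W.map (J.map φ)) t i j := by
  simp only [Pt.part0, h.add, h.mul, h.neg, h.cast, map_sym h, map_dia h, map_ev h, map_lf,
    map_p3 h, map_p4 h]
  rfl

/-- The entries commute with such maps. -/
theorem map_entry (h : IsNumHom φ) (V : Data (List ℤ × List ℤ)) (t : ℤ) (p : Pt α) (i j : Fin 6) :
    φ (entry V t p i j) = entry V t (p.map φ) i j := by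
  simp only [entry, h.neg, h.add, h.mul, map_part1 h, map_part0 h, map_at h]
  rfl

open Kron in
/-- The value at a point of the chart preserves the operations. -/
lemma isNumHom_val {p : Fin 4 → ℝ} (hp : 0 ≤ p 3) : IsNumHom (α := HV) (val p) :=
  ⟨val_cst, val_add hp, val_mul, val_neg⟩

open Kron in
/-- The numerators are the entries at the point of the chart times the sixth power of the
denominator. -/
theorem evalR_numer {V : Data (List ℤ × List ℤ)} {t ε : ℤ} {i j : Fin 6}
    (hok : numerOK V t ε i j = true) {p : Fin 4 → ℝ} (hp : 0 ≤ p 3) :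
    evalR p (numer V t ε i j) =
      entry V t ((chartPt ε).map (val p)) i j * evalR p den ^ 6 := by
  simp only [numerOK, Bool.and_eq_true, Nat.ble_eq] at hok
  rw [numer, evalR_finish hp hok.1, map_entry (isNumHom_val hp)]

end Vale.Agent.P098.Cert6.Interior
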