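import Vale.Agent.P098.Cert6.Damp
import Vale.Agent.P098.Cert.Regular

/-!
P098, the homogeneous class: the regularised coefficients, their derivatives, and their inequalities
at the scale `ρ`.
-/

open Matrix
open scoped ContDiff

namespace Vale.Agent.P098.Cert6

open Vale.Agent.P098.ReduceN (Fields Data Arg Jet1 psum usum hdot diagWeight tripleWeight fluxTrace
  dCoef kern kernAt block constPart coefsOf jet1Of)
open Vale.Agent.P098.Reduce (hsum)
open Vale.Agent.P098.Cert (regRho regRho_pos contDiff_regRho hasDerivAt_regRho regRho_eq)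

noncomputable section

variable {n : ℕ} {σ : Fields}

/-- `ρ_ε ^ E g(s, P, C₃ / ρ_ε³)`. -/
def regFun (ε : ℝ) (E : ℤ) (g : ℝ × ℝ × ℝ → ℝ) (z : Arg) : ℝ :=
  regRho ε z.1 ^ E * g (z.2.1, z.2.2.1, z.2.2.2.1 / regRho ε z.1 ^ 3)

/-- The damping coefficient of `T : H`. -/
def dampFun (n : ℕ) (Λ ε : ℝ) (z : Arg) : ℝ :=
  -(Λ * ε ^ kexp n) * regRho ε z.1 ^ (-1 - kexp n)

/-- The regularised coefficients, with the damping added to the field `m₀`. -/
def regData (n : ℕ) (Λ : ℝ) (m₀ : Fin σ.M) (K : Coefs σ (ℝ × ℝ × ℝ → ℝ)) (ε : ℝ) :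
    Data σ (Arg → ℝ) where
  Φ := regFun ε 1 K.G
  A m z := regFun ε (-1 - (σ.a m : ℤ)) (K.A m) z + if m = m₀ then dampFun n Λ ε z else 0
  B j z := regFun ε (1 - (σ.j j : ℤ)) (K.C 0 j) z + regFun ε (2 - (σ.j j : ℤ)) (K.C 1 j) z
  X k := regFun ε (-2 - (σ.p k : ℤ) - (σ.q k : ℤ)) (K.X k)

/-- The jet of `ρ^E g` at `τ`. -/
def powJet (E : ℤ) (ρ τ : ℝ) (X : Jet) : Jet1 :=
  (ρ ^ E * X.1, ρ ^ (E - 2) * ((E : ℝ) * X.1 - 3 * τ * X.2.2.2) / 2, ρ ^ E * X.2.1,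
    ρ ^ E * X.2.2.1, ρ ^ (E - 3) * X.2.2.2, 0)

/-- The jet of the damping coefficient, `b = Λ ε^k ρ^(-k)`. -/
def dampJet (n : ℕ) (b ρ : ℝ) : Jet1 :=
  (-(b * ρ⁻¹), b * (1 + kexp n) * (ρ ^ 3)⁻¹ / 2, 0, 0, 0, 0)

/-- The regularised coefficients and derivatives at a point. -/
def scaled (n : ℕ) (b : ℝ) (m₀ : Fin σ.M) (J : Coefs σ Jet) (ρ τ : ℝ) : Data σ Jet1 where
  Φ := powJet 1 ρ τ J.G
  A m := powJet (-1 - (σ.a m : ℤ)) ρ τ (J.A m) + if m = m₀ then dampJet n b ρ else 0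
  B j := powJet (1 - (σ.j j : ℤ)) ρ τ (J.C 0 j) + powJet (2 - (σ.j j : ℤ)) ρ τ (J.C 1 j)
  X k := powJet (-2 - (σ.p k : ℤ) - (σ.q k : ℤ)) ρ τ (J.X k)

section Deriv

variable {ε : ℝ} (hε : ε ≠ 0)

include hε

lemma contDiff_regFun (E : ℤ) {g : ℝ × ℝ × ℝ → ℝ} {k : WithTop ℕ∞} (hk : k ≤ 2)
    (hg : ContDiff ℝ 2 g) : ContDiff ℝ k (regFun ε E g) := by
  have hr : ContDiff ℝ 2 fun z : Arg => regRho ε z.1 := (contDiff_regRho hε).comp contDiff_fst
  have hne : ∀ z : Arg, regRho ε z.1 ≠ 0 := fun z => (regRho_pos hε _).ne'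
  have h : ContDiff ℝ 2 fun z : Arg => regRho ε z.1 ^ E := by
    obtain ⟨m, rfl | rfl⟩ := E.eq_nat_or_neg
    · simpa using hr.pow m
    · simpa [_root_.zpow_neg, Pi.inv_def] using (hr.pow m).inv fun z => pow_ne_zero m (hne z)
  refine (h.mul (hg.comp ?_)).of_le hk
  exact contDiff_fst.comp contDiff_snd |>.prodMk ((contDiff_fst.comp (contDiff_snd.comp contDiff_snd)).prodMk
    ((contDiff_fst.comp (contDiff_snd.comp (contDiff_snd.comp contDiff_snd))).div (hr.pow 3)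
      fun z => pow_ne_zero 3 (hne z)))

lemma contDiff_dampFun (Λ : ℝ) {k : WithTop ℕ∞} (hk : k ≤ 2) :
    ContDiff ℝ k (dampFun n Λ ε) :=
  (contDiff_const.mul (((contDiff_regRho hε).comp contDiff_fst).rpow_const_of_ne
    fun z => (regRho_pos hε _).ne')).of_le hk

lemma jet1Of_regFun (E : ℤ) {g : ℝ × ℝ × ℝ → ℝ} (hg : ContDiff ℝ 2 g) {z : Arg} (hz : 0 ≤ z.1) :
    jet1Of (regFun ε E g) z = powJet E (regRho ε z.1) (z.2.2.2.1 / regRho ε z.1 ^ 3)
      (jetOf g (z.2.1, z.2.2.1, z.2.2.2.1 / regRho ε z.1 ^ 3)) := by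
  have hρ := regRho_pos hε z.1
  have hr : HasFDerivAt (fun w : Arg => regRho ε w.1)
      ((1 / (2 * regRho ε z.1)) • ContinuousLinearMap.fst ℝ ℝ (ℝ × ℝ × ℝ × ℝ)) z :=
    (hasDerivAt_regRho hε hz).comp_hasFDerivAt z hasFDerivAt_fst
  have h1 : HasFDerivAt (fun w : Arg => regRho ε w.1 ^ E) _ z :=
    HasDerivAt.comp_hasFDerivAt (h₂ := fun x : ℝ => x ^ E) (f := fun w : Arg => regRho ε w.1) z
      (hasDerivAt_zpow E (regRho ε z.1) (Or.inl hρ.ne')) hr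
  have h3 : HasFDerivAt (fun w : Arg => (regRho ε w.1 ^ 3)⁻¹) _ z :=
    HasDerivAt.comp_hasFDerivAt (h₂ := fun x : ℝ => (x ^ 3)⁻¹) (f := fun w : Arg => regRho ε w.1) z
      ((hasDerivAt_pow 3 (regRho ε z.1)).inv (pow_ne_zero 3 hρ.ne')) hr
  have hτ : HasFDerivAt (fun w : Arg => w.2.2.2.1 * (regRho ε w.1 ^ 3)⁻¹) _ z :=
    ((hasFDerivAt_id (𝕜 := ℝ) z).snd.snd.snd.fst).mul h3
  have hw : HasFDerivAt (fun w : Arg => (w.2.1, w.2.2.1, w.2.2.2.1 * (regRho ε w.1 ^ 3)⁻¹)) _ z :=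
    ((hasFDerivAt_id (𝕜 := ℝ) z).snd.fst).prodMk (((hasFDerivAt_id (𝕜 := ℝ) z).snd.snd.fst).prodMk hτ)
  have h : HasFDerivAt (regFun ε E g) _ z :=
    h1.mul ((((hg.differentiable (by norm_num)) _).hasFDerivAt).comp z hw)
  simp only [jet1Of, powJet, h.fderiv, regFun, jetOf]
  simp only [_root_.add_apply, _root_.smul_apply, ContinuousLinearMap.comp_apply, smul_eq_mul,
    ContinuousLinearMap.prod_apply, ContinuousLinearMap.coe_fst', ContinuousLinearMap.coe_snd',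
    ContinuousLinearMap.id_apply, id_eq, mul_one, mul_zero, add_zero,
    zero_add, Prod.mk_zero_zero, map_zero]
  have hlin : ∀ a : ℝ, fderiv ℝ g (z.2.1, z.2.2.1, z.2.2.2.1 / regRho ε z.1 ^ 3) (0, 0, a) =
      a * fderiv ℝ g (z.2.1, z.2.2.1, z.2.2.2.1 / regRho ε z.1 ^ 3) (0, 0, 1) := fun a => by
    rw [← smul_eq_mul (a := a), ← map_smul]
    simp
  refine Prod.ext rfl (Prod.ext ?_ (Prod.ext ?_ (Prod.ext ?_ (Prod.ext ?_ ?_))))
  · show _ = _
    simp only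
    rw [hlin (z.2.2.2.1 * _), zpow_sub₀ hρ.ne', zpow_sub₀ hρ.ne', zpow_one, _root_.zpow_two]
    push_cast
    field_simp
    ring
  · rfl
  · rfl
  · show _ = _
    simp only
    rw [hlin ((regRho ε z.1 ^ 3)⁻¹), zpow_sub₀ hρ.ne', zpow_ofNat]
    field_simp
  · rfl

lemma jet1Of_dampFun (Λ : ℝ) {z : Arg} (hz : 0 ≤ z.1) :
    jet1Of (dampFun n Λ ε) z =
      dampJet n (Λ * (ε ^ kexp n * regRho ε z.1 ^ (-kexp n))) (regRho ε z.1) := by
  have hρ := regRho_pos hε z.1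
  have hr : HasFDerivAt (fun w : Arg => regRho ε w.1)
      ((1 / (2 * regRho ε z.1)) • ContinuousLinearMap.fst ℝ ℝ (ℝ × ℝ × ℝ × ℝ)) z :=
    (hasDerivAt_regRho hε hz).comp_hasFDerivAt z hasFDerivAt_fst
  have h : HasFDerivAt (dampFun n Λ ε) _ z :=
    (((Real.hasDerivAt_rpow_const (p := -1 - kexp n) (Or.inl hρ.ne'))).comp_hasFDerivAt z hr).const_mul
      (-(Λ * ε ^ kexp n))
  have e1 : regRho ε z.1 ^ (-1 - kexp n) = regRho ε z.1 ^ (-kexp n) * (regRho ε z.1)⁻¹ := by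
    rw [show (-1 : ℝ) - kexp n = -kexp n + (-1) by ring, Real.rpow_add hρ, Real.rpow_neg_one]
  have e2 : regRho ε z.1 ^ (-1 - kexp n - 1) =
      regRho ε z.1 ^ (-kexp n) * (regRho ε z.1 ^ 2)⁻¹ := by
    rw [show (-1 : ℝ) - kexp n - 1 = -kexp n + (-(2 : ℕ)) by push_cast; ring, Real.rpow_add hρ,
      Real.rpow_neg hρ.le ((2 : ℕ) : ℝ), Real.rpow_natCast]
  simp only [jet1Of, dampJet, h.fderiv, dampFun, e1, e2]
  simp only [_root_.smul_apply, smul_eq_mul, ContinuousLinearMap.coe_fst', mul_one, mul_zero]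
  refine Prod.ext (by ring) (Prod.ext ?_ rfl)
  show _ = _
  field_simp
  ring

lemma jet1Of_add {X Y : Arg → ℝ} {z : Arg} (hX : DifferentiableAt ℝ X z)
    (hY : DifferentiableAt ℝ Y z) : jet1Of (fun w => X w + Y w) z = jet1Of X z + jet1Of Y z := by
  have _ := hε
  simp [jet1Of, fderiv_fun_add hX hY]

/-- The regularised coefficients with their derivatives. -/
lemma coefsOf_regData (Λ : ℝ) (m₀ : Fin σ.M) {K : Coefs σ (ℝ × ℝ × ℝ → ℝ)}
    (hG : ContDiff ℝ 2 K.G) (hA : ∀ m, ContDiff ℝ 2 (K.A m)) (hX : ∀ k, ContDiff ℝ 2 (K.X k))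
    (hC : ∀ e j, ContDiff ℝ 2 (K.C e j)) {z : Arg} (hz : 0 ≤ z.1) :
    coefsOf (regData n Λ m₀ K ε) z =
      scaled n (Λ * (ε ^ kexp n * regRho ε z.1 ^ (-kexp n))) m₀
        (K.map fun g => jetOf g (z.2.1, z.2.2.1, z.2.2.2.1 / regRho ε z.1 ^ 3))
        (regRho ε z.1) (z.2.2.2.1 / regRho ε z.1 ^ 3) := by
  have hd : ∀ E {g : ℝ × ℝ × ℝ → ℝ}, ContDiff ℝ 2 g → DifferentiableAt ℝ (regFun ε E g) z :=
    fun E g hg => (contDiff_regFun hε E le_rfl hg).differentiable (by norm_num) z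
  simp only [coefsOf, Data.map, regData, scaled, Coefs.map, Data.mk.injEq]
  refine ⟨jet1Of_regFun hε 1 hG hz, funext fun m => ?_, funext fun j => ?_,
    funext fun k => jet1Of_regFun hε _ (hX k) hz⟩
  · by_cases h : m = m₀
    · simp only [if_pos h]
      rw [jet1Of_add hε (hd _ (hA m))
        ((contDiff_dampFun hε Λ le_rfl).differentiable (by norm_num) z),
        jet1Of_regFun hε _ (hA m) hz, jet1Of_dampFun hε Λ hz]
    · simp only [if_neg h, add_zero]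
      exact jet1Of_regFun hε _ (hA m) hz
  · rw [jet1Of_add hε (hd _ (hC 0 j)) (hd _ (hC 1 j)), jet1Of_regFun hε _ (hC 0 j) hz,
      jet1Of_regFun hε _ (hC 1 j) hz]

end Deriv

lemma fade_eq {ε : ℝ} (hε : 0 < ε) {Q : ℝ} (hQ : 0 ≤ Q) {l : Fin n → ℝ}
    (hl : psum l 2 = Q / regRho ε Q ^ 2) :
    ε ^ kexp n * regRho ε Q ^ (-kexp n) = fade l := by
  have hρ := regRho_pos hε.ne' Q
  have e : max (1 - psum l 2) 0 = ε ^ 2 / regRho ε Q ^ 2 := by
    have h2 : regRho ε Q ^ 2 = Q + ε ^ 2 := by rw [regRho_eq hQ, Real.sq_sqrt (by positivity)]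
    have h3 : 1 - Q / regRho ε Q ^ 2 = ε ^ 2 / regRho ε Q ^ 2 := by
      rw [one_sub_div (by positivity), h2]; ring
    rw [hl, h3, max_eq_left (by positivity)]
  rw [fade, e, ← div_pow, ← Real.rpow_natCast (ε / regRho ε Q) 2,
    ← Real.rpow_mul (div_pos hε hρ).le, show ((2 : ℕ) : ℝ) * (kexp n / 2) = kexp n by push_cast; ring,
    Real.div_rpow hε.le hρ.le, Real.rpow_neg hρ.le, div_eq_mul_inv]

section Scaling

variable {ρ : ℝ} (hρ : ρ ≠ 0) (l : Fin n → ℝ)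

lemma psum_smul (m : ℕ) : psum (ρ • l) m = ρ ^ m * psum l m := by
  simp only [psum, Pi.smul_apply, smul_eq_mul, mul_pow, Finset.mul_sum]

lemma usum_smul (v : Fin n → ℝ) (m : ℕ) :
    usum (ρ • l) (ρ • v) m = ρ ^ (m + 1) * usum l v m := by
  simp only [usum, Pi.smul_apply, smul_eq_mul, mul_pow, Finset.mul_sum]
  exact Finset.sum_congr rfl fun i _ => by ring

lemma hsum_smul (r a b : ℝ) : ∀ j : ℕ, hsum (j + 1) (r * a) (r * b) = r ^ j * hsum (j + 1) a b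
  | 0 => by simp [hsum]
  | j + 1 => by
    rw [hsum, hsum_smul r a b j, show hsum (j + 1 + 1) a b = hsum (j + 1) a b * b + a ^ (j + 1)
      from rfl, mul_pow]
    ring

lemma hdot_smul (v : Fin n → ℝ) (j : ℕ) (c : Fin n) :
    hdot (ρ • l) (ρ • v) j c = ρ ^ j * hdot l v j c := by
  simp only [hdot, Finset.mul_sum]
  refine Finset.sum_congr rfl fun i _ => ?_
  rcases j with _ | j
  · simp [hsum]
  · simp only [Pi.smul_apply, smul_eq_mul, hsum_smul]; ring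

lemma fluxTrace_smul (a : Fin n) (k : ℕ) :
    fluxTrace (ρ • l) a k = ρ ^ (k + 2) * fluxTrace l a k := by
  simp only [fluxTrace, psum_smul, Pi.smul_apply, smul_eq_mul, mul_pow]; ring

include hρ in
lemma zpow_key {E : ℤ} {k : ℕ} (h : E + k = 1) : ρ ^ E * ρ ^ k = ρ := by
  rw [← zpow_natCast, ← zpow_add₀ hρ, h, zpow_one]

lemma dCoef_add (X Y : Jet1) (L u : Fin n → ℝ) (c : Fin n) (q : ℝ) :
    dCoef (X + Y) L u c q = dCoef X L u c q + dCoef Y L u c q := by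
  simp only [dCoef, Prod.fst_add, Prod.snd_add]; ring

include hρ in
lemma dCoef_powJet (X : Jet) (E : ℤ) (v : Fin n → ℝ) (c : Fin n) (q : ℝ) :
    dCoef (powJet E ρ (psum l 3) X) (ρ • l) (ρ • v) c q = ρ ^ E * dH X E l v c q 1 ρ := by
  simp only [dCoef, powJet, dH, usum_smul, Pi.smul_apply, smul_eq_mul]
  rw [zpow_sub₀ hρ, zpow_sub₀ hρ, _root_.zpow_two, zpow_ofNat]
  field_simp
  ring

include hρ in
lemma dCoef_dampJet (b : ℝ) (v : Fin n → ℝ) (c : Fin n) (q : ℝ) :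
    dCoef (dampJet n b ρ) (ρ • l) (ρ • v) c q = b * (1 + kexp n) * ρ⁻¹ * usum l v 1 := by
  simp only [dCoef, dampJet, usum_smul]
  field_simp
  ring

include hρ in
lemma kern_scaled (b : ℝ) {m₀ : Fin σ.M} (hm₀ : σ.a m₀ = 0) (J : Coefs σ Jet) (τ x y z : ℝ) :
    kern (scaled n b m₀ J ρ τ) (ρ * x) (ρ * y) (ρ * z) = ρ⁻¹ * (kerV J x y z - b) := by
  have hA : ∀ m, (powJet (-1 - (σ.a m : ℤ)) ρ τ (J.A m)).1 * hsum (σ.a m + 1) (ρ * y) (ρ * z) =
      ρ⁻¹ * ((J.A m).1 * hsum (σ.a m + 1) y z) := fun m => by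
    rw [hsum_smul]
    have h := zpow_key hρ (E := -1 - (σ.a m : ℤ)) (k := σ.a m + 2) (by push_cast; ring)
    rw [pow_add] at h
    simp only [powJet]
    field_simp at h ⊢
    linear_combination ((J.A m).1 * hsum (σ.a m + 1) y z) * h
  have hX : ∀ k, (powJet (-2 - (σ.p k : ℤ) - (σ.q k : ℤ)) ρ τ (J.X k)).1 *
      ((ρ * x) ^ (σ.p k + 1) * hsum (σ.q k + 1) (ρ * y) (ρ * z) -
        (ρ * x) ^ (σ.q k + 1) * hsum (σ.p k + 1) (ρ * y) (ρ * z)) =
      ρ⁻¹ * ((J.X k).1 * (x ^ (σ.p k + 1) * hsum (σ.q k + 1) y z -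
        x ^ (σ.q k + 1) * hsum (σ.p k + 1) y z)) := fun k => by
    simp only [powJet, hsum_smul, mul_pow]
    have h := zpow_key hρ (E := -2 - (σ.p k : ℤ) - (σ.q k : ℤ)) (k := σ.p k + σ.q k + 3)
      (by push_cast; ring)
    rw [pow_add, pow_add] at h
    simp only [pow_add, pow_one]
    field_simp at h ⊢
    linear_combination ((J.X k).1 * (x ^ σ.p k * x * hsum (σ.q k + 1) y z -
      x ^ σ.q k * x * hsum (σ.p k + 1) y z)) * h
  simp only [kern, scaled, kerV, Prod.fst_add, add_mul, Finset.sum_add_distrib, hA, hX,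
    apply_ite Prod.fst, Prod.fst_zero, ite_mul, zero_mul, Finset.sum_ite_eq', Finset.mem_univ,
    if_true, hm₀, mul_add, mul_sub, Finset.mul_sum]
  simp only [hsum, dampJet, pow_zero, zero_mul, zero_add, mul_one]
  ring

include hρ in
lemma weights_scaled (b : ℝ) {m₀ : Fin σ.M} (hm₀ : σ.a m₀ = 0) (J : Coefs σ Jet) (τ : ℝ)
    (c i j : Fin n) :
    diagWeight (kernAt (scaled n b m₀ J ρ τ) (ρ • l)) c i =
        ρ⁻¹ * (diagWeight (kerAt J l) c i - b * linWeight c i) ∧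
      tripleWeight (kernAt (scaled n b m₀ J ρ τ) (ρ • l)) c i j =
        ρ⁻¹ * (tripleWeight (kerAt J l) c i j - 6 * b) := by
  simp only [diagWeight, tripleWeight, kernAt, kerAt, linWeight, Pi.smul_apply, smul_eq_mul,
    kern_scaled hρ b hm₀]
  constructor
  · split_ifs <;> ring
  · ring

include hρ in
/-- A block of the regularised class at the scale `ρ`. -/
theorem block_scaled {Λ : ℝ} {m₀ : Fin σ.M} (hm₀ : σ.a m₀ = 0) (J : Coefs σ Jet)
    (v : Fin n → ℝ) (c : Fin n) (s q y : ℝ) :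
    block (scaled n (Λ * fade l) m₀ J ρ (psum l 3)) (ρ • l) c (ρ • v) y q +
        constPart (scaled n (Λ * fade l) m₀ J ρ (psum l 3)) (ρ • l) s =
      ρ * formD Λ J l c v s q 1 ρ y := by
  set b := Λ * fade l with hb
  set τ := psum l 3
  have hA : ∀ m, dCoef (powJet (-1 - (σ.a m : ℤ)) ρ τ (J.A m) + if m = m₀ then dampJet n b ρ else 0)
        (ρ • l) (ρ • v) c q * usum (ρ • l) (ρ • v) (σ.a m + 1) =
      ρ * (dH (J.A m) (-1 - (σ.a m : ℝ)) l v c q 1 ρ * usum l v (σ.a m + 1)) +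
        if m = m₀ then b * (1 + kexp n) * ρ * usum l v 1 ^ 2 else 0 := fun m => by
    have h := zpow_key hρ (E := -1 - (σ.a m : ℤ)) (k := σ.a m + 1 + 1) (by push_cast; ring)
    rw [dCoef_add, add_mul]
    refine congrArg₂ (· + ·) ?_ ?_
    · rw [dCoef_powJet hρ, usum_smul]
      push_cast
      linear_combination (dH (J.A m) (-1 - (σ.a m : ℝ)) l v c q 1 ρ * usum l v (σ.a m + 1)) * h
    · split_ifs with hm
      · rw [dCoef_dampJet hρ, usum_smul, hm, hm₀]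
        field_simp
        ring
      · simp [dCoef]

  have hW : ∀ i, diagWeight (kernAt (scaled n b m₀ J ρ τ) (ρ • l)) c i * (ρ • v) i ^ 2 =
      ρ * (diagWeight (kerAt J l) c i * v i ^ 2) - b * ρ * (linWeight c i * v i ^ 2) := fun i => by
    rw [(weights_scaled hρ l b hm₀ J τ c i i).1, Pi.smul_apply, smul_eq_mul]
    field_simp
  have hX : ∀ k, dCoef (powJet (-2 - (σ.p k : ℤ) - (σ.q k : ℤ)) ρ τ (J.X k)) (ρ • l) (ρ • v) c q *
          ((ρ • l) c ^ (σ.p k + 1) * usum (ρ • l) (ρ • v) (σ.q k + 1) -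
            (ρ • l) c ^ (σ.q k + 1) * usum (ρ • l) (ρ • v) (σ.p k + 1)) +
        (powJet (-2 - (σ.p k : ℤ) - (σ.q k : ℤ)) ρ τ (J.X k)).1 *
          (hdot (ρ • l) (ρ • v) (σ.p k + 1) c * usum (ρ • l) (ρ • v) (σ.q k + 1) -
            hdot (ρ • l) (ρ • v) (σ.q k + 1) c * usum (ρ • l) (ρ • v) (σ.p k + 1)) =
      ρ * (dH (J.X k) (-2 - (σ.p k : ℝ) - (σ.q k : ℝ)) l v c q 1 ρ *
          (l c ^ (σ.p k + 1) * usum l v (σ.q k + 1) - l c ^ (σ.q k + 1) * usum l v (σ.p k + 1)) +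
        (J.X k).1 * (hdot l v (σ.p k + 1) c * usum l v (σ.q k + 1) -
          hdot l v (σ.q k + 1) c * usum l v (σ.p k + 1))) := fun k => by
    have h := zpow_key hρ (E := -2 - (σ.p k : ℤ) - (σ.q k : ℤ)) (k := σ.p k + 1 + (σ.q k + 1) + 1)
      (by push_cast; ring)
    rw [dCoef_powJet hρ]
    simp only [powJet, usum_smul, hdot_smul, Pi.smul_apply, smul_eq_mul, mul_pow]
    push_cast
    linear_combination (dH (J.X k) (-2 - (σ.p k : ℝ) - (σ.q k : ℝ)) l v c q 1 ρ *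
          (l c ^ (σ.p k + 1) * usum l v (σ.q k + 1) - l c ^ (σ.q k + 1) * usum l v (σ.p k + 1)) +
        (J.X k).1 * (hdot l v (σ.p k + 1) c * usum l v (σ.q k + 1) -
          hdot l v (σ.q k + 1) c * usum l v (σ.p k + 1))) * h
  have hB : ∀ j, q * ((ρ • l) c ^ σ.j j *
          dCoef (powJet (1 - (σ.j j : ℤ)) ρ τ (J.C 0 j) + powJet (2 - (σ.j j : ℤ)) ρ τ (J.C 1 j))
            (ρ • l) (ρ • v) c q +
          (powJet (1 - (σ.j j : ℤ)) ρ τ (J.C 0 j) + powJet (2 - (σ.j j : ℤ)) ρ τ (J.C 1 j)).1 *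
            hdot (ρ • l) (ρ • v) (σ.j j) c) +
        (powJet (1 - (σ.j j : ℤ)) ρ τ (J.C 0 j) + powJet (2 - (σ.j j : ℤ)) ρ τ (J.C 1 j)).1 *
          (if σ.j j = 0 then -((n : ℝ) * s)
            else psum (ρ • l) (σ.j j + 1) - s * psum (ρ • l) (σ.j j)) =
      ρ * ∑ e, omega 1 ρ e * (q * (l c ^ σ.j j *
          dH (J.C e j) (1 - (σ.j j : ℝ) + (e : ℕ)) l v c q 1 ρ +
          (J.C e j).1 * hdot l v (σ.j j) c) +
        (J.C e j).1 * (if σ.j j = 0 then -((n : ℝ) * s * 1)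
          else ρ * psum l (σ.j j + 1) - s * 1 * psum l (σ.j j))) := fun j => by
    have h0 := zpow_key hρ (E := 1 - (σ.j j : ℤ)) (k := σ.j j) (by ring)
    have h1 : ρ ^ (2 - (σ.j j : ℤ)) * ρ ^ σ.j j = ρ * ρ := by
      rw [show (2 : ℤ) - (σ.j j : ℤ) = 1 - (σ.j j : ℤ) + 1 by ring, zpow_add_one₀ hρ,
        mul_right_comm, h0]
    rw [dCoef_add, dCoef_powJet hρ, dCoef_powJet hρ, Prod.fst_add, hdot_smul, psum_smul, psum_smul]
    simp only [powJet, Fin.sum_univ_two, omega, Matrix.cons_val_zero, Matrix.cons_val_one,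
      Matrix.cons_val_fin_one, Fin.val_zero, Fin.val_one, Pi.smul_apply, smul_eq_mul, mul_pow,
      Nat.cast_zero, Nat.cast_one, add_zero, Int.cast_sub, Int.cast_one, Int.cast_ofNat,
      Int.cast_natCast, mul_one, show (1 : ℝ) - (σ.j j : ℝ) + 1 = 2 - (σ.j j : ℝ) by ring]
    split_ifs with hj
    · simp only [hj, pow_zero, mul_one] at h0 h1 ⊢
      rw [h0, h1]
      ring
    · rw [pow_succ]
      linear_combination (q * (l c ^ σ.j j * dH (J.C 0 j) (1 - (σ.j j : ℝ)) l v c q 1 ρ +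
            (J.C 0 j).1 * hdot l v (σ.j j) c) +
          (J.C 0 j).1 * (ρ * psum l (σ.j j + 1) - s * psum l (σ.j j))) * h0 +
        (q * (l c ^ σ.j j * dH (J.C 1 j) (2 - (σ.j j : ℝ)) l v c q 1 ρ +
            (J.C 1 j).1 * hdot l v (σ.j j) c) +
          (J.C 1 j).1 * (ρ * psum l (σ.j j + 1) - s * psum l (σ.j j))) * h1
  have hP : ∀ m, (n : ℝ) * ((powJet (-1 - (σ.a m : ℤ)) ρ τ (J.A m) +
        if m = m₀ then dampJet n b ρ else 0)).1 * psum (ρ • l) (σ.a m + 2) =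
      ρ * ((n : ℝ) * (J.A m).1 * psum l (σ.a m + 2)) -
        if m = m₀ then (n : ℝ) * b * ρ * psum l 2 else 0 := fun m => by
    have h := zpow_key hρ (E := -1 - (σ.a m : ℤ)) (k := σ.a m + 2) (by push_cast; ring)
    simp only [Prod.fst_add, powJet, psum_smul, apply_ite Prod.fst, Prod.fst_zero, dampJet]
    split_ifs with hm
    · subst hm
      rw [hm₀] at h ⊢
      simp only [zero_add] at h ⊢
      linear_combination ((n : ℝ) * (J.A m).1 * psum l 2) * h -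
        ((n : ℝ) * b * ρ * psum l 2) * (inv_mul_cancel₀ hρ)
    · linear_combination ((n : ℝ) * (J.A m).1 * psum l (σ.a m + 2)) * h
  have hK : ∀ k, (powJet (-2 - (σ.p k : ℤ) - (σ.q k : ℤ)) ρ τ (J.X k)).1 *
        (psum (ρ • l) (σ.p k + 1) * psum (ρ • l) (σ.q k + 2) -
          psum (ρ • l) (σ.q k + 1) * psum (ρ • l) (σ.p k + 2)) =
      ρ * ((J.X k).1 * (psum l (σ.p k + 1) * psum l (σ.q k + 2) -
        psum l (σ.q k + 1) * psum l (σ.p k + 2))) := fun k => by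
    have h := zpow_key hρ (E := -2 - (σ.p k : ℤ) - (σ.q k : ℤ)) (k := σ.p k + 1 + (σ.q k + 2))
      (by push_cast; ring)
    simp only [powJet, psum_smul]
    linear_combination ((J.X k).1 * (psum l (σ.p k + 1) * psum l (σ.q k + 2) -
      psum l (σ.q k + 1) * psum l (σ.p k + 2))) * h
  have hG : dCoef (powJet 1 ρ τ J.G) (ρ • l) (ρ • v) c q = ρ * dH J.G 1 l v c q 1 ρ := by
    rw [dCoef_powJet hρ, zpow_one]; norm_num
  have hBs := Finset.sum_congr rfl fun j (_ : j ∈ Finset.univ) => hB j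
  simp only [Finset.sum_add_distrib, ← Finset.mul_sum] at hBs
  have hAs := Finset.sum_congr rfl fun m (_ : m ∈ Finset.univ) => hA m
  have hWs := Finset.sum_congr rfl fun i (_ : i ∈ Finset.univ) => hW i
  have hPs := Finset.sum_congr rfl fun m (_ : m ∈ Finset.univ) => hP m
  have hXs := Finset.sum_congr rfl fun k (_ : k ∈ Finset.univ) => hX k
  have hKs := Finset.sum_congr rfl fun k (_ : k ∈ Finset.univ) => hK k
  simp only [Finset.sum_add_distrib, Finset.sum_sub_distrib, Finset.sum_ite_eq', Finset.mem_univ,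
    if_true, ← Finset.mul_sum] at hAs hWs hPs hXs hKs
  simp only [block, constPart, formD, form, damp, ← hb]
  simp only [scaled] at hWs ⊢
  simp only [Finset.sum_add_distrib, hG, show (powJet 1 ρ τ J.G).1 = ρ * J.G.1 by simp [powJet]]
    at hAs hWs hPs hXs hKs hBs ⊢
  linear_combination hAs + hWs + hXs + hBs + hPs + hKs

include hρ in
/-- The boundary expression at the scale `ρ`. -/
theorem edge_scaled {b : ℝ} {m₀ : Fin σ.M} (hm₀ : σ.a m₀ = 0) (J : Coefs σ Jet) (τ : ℝ) (a : Fin n) :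
    (scaled n b m₀ J ρ τ).Φ.1 * (ρ • l) a +
      (∑ m, ((scaled n b m₀ J ρ τ).A m).1 * fluxTrace (ρ • l) a (σ.a m + 1)) +
      (∑ j, ((scaled n b m₀ J ρ τ).B j).1 * (ρ • l) a ^ σ.j j) +
      (∑ k, ((scaled n b m₀ J ρ τ).X k).1 * ((ρ • l) a ^ (σ.p k + 1) * fluxTrace (ρ • l) a (σ.q k + 1) -
        (ρ • l) a ^ (σ.q k + 1) * fluxTrace (ρ • l) a (σ.p k + 1))) =
      ρ ^ 2 * (edgeTop J l a - b * fluxTrace l a 1) + ρ * edgeLow J l a := by
  have hA : ∀ m, ((scaled n b m₀ J ρ τ).A m).1 * fluxTrace (ρ • l) a (σ.a m + 1) =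
      ρ ^ 2 * ((J.A m).1 * fluxTrace l a (σ.a m + 1)) -
        if m = m₀ then ρ ^ 2 * (b * fluxTrace l a 1) else 0 := fun m => by
    have h : ρ ^ (-1 - (σ.a m : ℤ)) * ρ ^ (σ.a m + 1 + 2) = ρ ^ 2 := by
      rw [pow_succ, ← mul_assoc,
        zpow_key hρ (E := -1 - (σ.a m : ℤ)) (k := σ.a m + 1 + 1) (by push_cast; ring), ← sq]
    simp only [scaled, Prod.fst_add, powJet, fluxTrace_smul, apply_ite Prod.fst, Prod.fst_zero,
      dampJet]
    split_ifs with hm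
    · subst hm
      rw [hm₀] at h ⊢
      simp only [zero_add] at h ⊢
      linear_combination ((J.A m).1 * fluxTrace l a 1) * h -
        (b * ρ ^ 2 * fluxTrace l a 1) * (inv_mul_cancel₀ hρ)
    · linear_combination ((J.A m).1 * fluxTrace l a (σ.a m + 1)) * h
  have hB : ∀ j, ((scaled n b m₀ J ρ τ).B j).1 * (ρ • l) a ^ σ.j j =
      ρ ^ 2 * ((J.C 1 j).1 * l a ^ σ.j j) + ρ * ((J.C 0 j).1 * l a ^ σ.j j) := fun j => by
    have h0 := zpow_key hρ (E := 1 - (σ.j j : ℤ)) (k := σ.j j) (by ring)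
    have h1 : ρ ^ (2 - (σ.j j : ℤ)) * ρ ^ σ.j j = ρ ^ 2 := by
      rw [show (2 : ℤ) - (σ.j j : ℤ) = 1 - (σ.j j : ℤ) + 1 by ring, zpow_add_one₀ hρ,
        mul_right_comm, h0, sq]
    simp only [scaled, Prod.fst_add, powJet, Pi.smul_apply, smul_eq_mul, mul_pow]
    linear_combination ((J.C 0 j).1 * l a ^ σ.j j) * h0 + ((J.C 1 j).1 * l a ^ σ.j j) * h1
  have hX : ∀ k, ((scaled n b m₀ J ρ τ).X k).1 *
      ((ρ • l) a ^ (σ.p k + 1) * fluxTrace (ρ • l) a (σ.q k + 1) -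
        (ρ • l) a ^ (σ.q k + 1) * fluxTrace (ρ • l) a (σ.p k + 1)) =
      ρ ^ 2 * ((J.X k).1 * (l a ^ (σ.p k + 1) * fluxTrace l a (σ.q k + 1) -
        l a ^ (σ.q k + 1) * fluxTrace l a (σ.p k + 1))) := fun k => by
    have h := zpow_key hρ (E := -2 - (σ.p k : ℤ) - (σ.q k : ℤ)) (k := σ.p k + 1 + (σ.q k + 1) + 1)
      (by push_cast; ring)
    simp only [scaled, powJet, fluxTrace_smul, Pi.smul_apply, smul_eq_mul, mul_pow]
    linear_combination (ρ * (J.X k).1 * (l a ^ (σ.p k + 1) * fluxTrace l a (σ.q k + 1) -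
        l a ^ (σ.q k + 1) * fluxTrace l a (σ.p k + 1))) * h
  simp only [hA, hB, hX, Finset.sum_add_distrib, Finset.sum_sub_distrib, Finset.sum_ite_eq',
    Finset.mem_univ, if_true, ← Finset.mul_sum, edgeTop, edgeLow]
  simp only [scaled, powJet, zpow_one, Pi.smul_apply, smul_eq_mul]
  ring

end Scaling

end

end Vale.Agent.P098.Cert6
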