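import Vale.Agent.P098.Cert6.Ball
import Vale.Agent.P098.Cert6.Scale

/-!
P098, the homogeneous class: flatness of stable smooth cones from a certificate on the unit sphere
of eigenvalues.
-/

open Filter
open scoped Topology RealInnerProductSpace

namespace Vale.Agent.P098.Cert6

open Vale.Agent.P098.ReduceN (Fields Data Arg psum usum diagWeight tripleWeight fluxTrace block
  constPart coefsOf kernAt InteriorIneq BoundaryIneq flat_of_ineq)
open Vale.Agent.P098.Cert (regRho regRho_pos regRho_eq unit_le)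

noncomputable section

variable {n : ℕ} {σ : Fields} {K : Coefs σ (ℝ × ℝ × ℝ → ℝ)} {t : ℝ} (hn : 0 < n)
  (hK : Certificate n σ K t) {m₀ : Fin σ.M} (hm₀ : σ.a m₀ = 0)

/-- The arguments of the coefficients at given eigenvalues. -/
def argL (L : Fin n → ℝ) (s P : ℝ) : Arg := (psum L 2, s, P, psum L 3, psum L 4)

/-- The values of the scalar inequality at `z`, and the limit bound. -/
def ineqValues (n : ℕ) (K : Coefs σ (ℝ × ℝ × ℝ → ℝ)) (t Λ : ℝ) (m₀ : Fin σ.M) (ε : ℝ) (z : Arg) :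
    Set ℝ :=
  insert (-t * √z.1) {w | ∃ (L : Fin n → ℝ) (q : ℝ) (c : Fin n) (u : Fin n → ℝ) (y : ℝ),
    ∑ i, L i = 0 ∧ (z.2.1, q) ∈ quarter ∧ argL L z.2.1 (z.2.1 ^ 2 + q ^ 2) = z ∧ ∑ i, u i = 0 ∧
    w = block (coefsOf (regData n Λ m₀ K ε) z) L c u y q +
      constPart (coefsOf (regData n Λ m₀ K ε) z) L z.2.1}

lemma unit_mem {ε : ℝ} (hε : 0 < ε) {L : Fin n → ℝ} (hL : ∑ i, L i = 0) :
    (regRho ε (psum L 2))⁻¹ • L ∈ ball n ∧
      psum ((regRho ε (psum L 2))⁻¹ • L) 2 = psum L 2 / regRho ε (psum L 2) ^ 2 := by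
  have e : psum ((regRho ε (psum L 2))⁻¹ • L) 2 = psum L 2 / regRho ε (psum L 2) ^ 2 := by
    rw [psum_smul, inv_pow, inv_mul_eq_div]
  refine ⟨⟨by simp [← Finset.mul_sum, hL], ?_⟩, e⟩
  rw [e]
  exact unit_le hε (psum_two_nonneg L)

include hK in
/-- The regularised coefficients at given eigenvalues, in scaled form. -/
lemma coefs_at {ε : ℝ} (hε : 0 < ε) (Λ : ℝ) (L : Fin n → ℝ) (s P : ℝ) :
    coefsOf (regData n Λ m₀ K ε) (argL L s P) =
      scaled n (Λ * fade ((regRho ε (psum L 2))⁻¹ • L)) m₀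
        (jetsAt K ((regRho ε (psum L 2))⁻¹ • L) s P) (regRho ε (psum L 2))
        (psum ((regRho ε (psum L 2))⁻¹ • L) 3) := by
  have hz := psum_two_nonneg L
  have h := coefsOf_regData hε.ne' Λ m₀ hK.smoothG hK.smoothA hK.smoothX hK.smoothC (n := n)
    (z := argL L s P) hz
  have e3 : psum L 3 / regRho ε (psum L 2) ^ 3 = psum ((regRho ε (psum L 2))⁻¹ • L) 3 := by
    rw [psum_smul, inv_pow, inv_mul_eq_div]
  simp only [argL] at h
  rw [e3, fade_eq hε hz (l := (regRho ε (psum L 2))⁻¹ • L)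
    (by rw [psum_smul, inv_pow, inv_mul_eq_div])] at h
  exact h

include hK hm₀ in
lemma ineqValues_le {ε B Λ : ℝ} (hε : 0 < ε) {z : Arg} (h0 : -t * √z.1 ≤ B)
    (h : ∀ (L : Fin n → ℝ) (q : ℝ) (c : Fin n) (v : Fin n → ℝ) (y : ℝ), ∑ i, L i = 0 →
      (z.2.1, q) ∈ quarter → argL L z.2.1 (z.2.1 ^ 2 + q ^ 2) = z → ∑ i, v i = 0 →
      regRho ε z.1 * formD Λ (jetsOn K ((z.2.1, q), (regRho ε z.1)⁻¹ • L))
        ((regRho ε z.1)⁻¹ • L) c v z.2.1 q 1 (regRho ε z.1) y ≤ B) :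
    ∀ w ∈ ineqValues n K t Λ m₀ ε z, w ≤ B := by
  rintro w (rfl | ⟨L, q, c, u, y, hL, hd, hz, hu, rfl⟩)
  · exact h0
  have h1 : psum L 2 = z.1 := congrArg Prod.fst hz
  have hρ := regRho_pos hε.ne' z.1
  have h' := h L q c ((regRho ε z.1)⁻¹ • u) y hL hd hz (by simp [← Finset.mul_sum, hu])
  have e := block_scaled hρ.ne' ((regRho ε z.1)⁻¹ • L) (Λ := Λ) hm₀
    (jetsAt K ((regRho ε z.1)⁻¹ • L) z.2.1 (z.2.1 ^ 2 + q ^ 2)) ((regRho ε z.1)⁻¹ • u) c z.2.1 q y
  rw [smul_inv_smul₀ hρ.ne', smul_inv_smul₀ hρ.ne'] at e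
  have e2 := coefs_at hK (m₀ := m₀) hε Λ L z.2.1 (z.2.1 ^ 2 + q ^ 2)
  rw [hz, h1] at e2
  rw [e2, e]
  exact h'

include hn hK hm₀ in
/-- Stable smooth cones in `ℝ^(n+1)` are flat, given a certificate of the homogeneous class with a
field `T : H`. -/
theorem flat_of_certificate {u : Euc (n + 1) → ℝ} (hu : IsSmoothCone u) (hstab : IsStable u) :
    (∀ x, u x = 0) ∨ ∃ e : Euc (n + 1), ‖e‖ = 1 ∧ ∀ x, u x = max ⟪e, x⟫ 0 := by
  obtain ⟨Λ, hΛ, htop, htri⟩ := exists_damping hn hK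
  obtain ⟨δ, M, hδ, hM, hedge⟩ := edge_shell hn hK Λ
  set β : ℝ → Arg → ℝ := fun ε z => sSup (ineqValues n K t Λ m₀ ε z)
  have hne : ∀ ε z, (ineqValues n K t Λ m₀ ε z).Nonempty := fun ε z => ⟨_, Set.mem_insert _ _⟩
  -- a uniform bound of the values for bounded arguments
  have hup : ∀ R : ℝ, ∃ B : ℝ, 0 ≤ B ∧ ∀ ε ∈ Set.Ioc (0 : ℝ) R, ∀ z : Arg, 0 ≤ z.1 → z.1 ≤ R →
      ∀ w ∈ ineqValues n K t Λ m₀ ε z, w ≤ B * regRho ε z.1 := by
    intro R
    obtain ⟨B, hB0, hB⟩ := formD_le hn hK htop √(R + R ^ 2)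
    refine ⟨B, hB0, fun ε hε z hz hzR => ?_⟩
    have hρ : regRho ε z.1 ∈ Set.Icc 0 √(R + R ^ 2) := by
      rw [regRho_eq hz]
      exact ⟨Real.sqrt_nonneg _, Real.sqrt_le_sqrt (by nlinarith [hε.1, hε.2])⟩
    refine ineqValues_le hK hm₀ hε.1 ?_ fun L q c v y hL hd he hv => ?_
    · have := mul_nonneg hK.margin.le (Real.sqrt_nonneg z.1)
      linarith [mul_nonneg hB0 hρ.1]
    · have h1 : psum L 2 = z.1 := congrArg Prod.fst he
      rw [mul_comm B]
      refine mul_le_mul_of_nonneg_left (hB ((z.2.1, q), (regRho ε z.1)⁻¹ • L) ⟨hd, ?_⟩ c v hv _ hρ y)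
        hρ.1
      rw [← h1]
      exact (unit_mem hε.1 hL).1
  refine flat_of_ineq hn hu hstab (D := fun ε => regData n Λ m₀ K ε) (β := β)
    (δ := fun ε => M * ε ^ 2 / δ + M * ε / √δ) (β₀ := fun z => -t * √z.1) ?_ ?_ ?_ (by fun_prop)
    (fun L _ s P _ _ => by nlinarith [Real.sqrt_nonneg (psum L 2), hK.margin]) ?_ ?_
  · have : Continuous fun ε : ℝ => M * ε ^ 2 / δ + M * ε / √δ := by fun_prop
    simpa using (this.tendsto 0).mono_left nhdsWithin_le_nhds
  · filter_upwards [self_mem_nhdsWithin] with ε (hε : 0 < ε)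
    refine ⟨contDiff_regFun hε.ne' 1 le_rfl hK.smoothG, fun m => ?_,
      fun j => (contDiff_regFun hε.ne' _ (by norm_num) (hK.smoothC 0 j)).add
        (contDiff_regFun hε.ne' _ (by norm_num) (hK.smoothC 1 j)),
      fun k => contDiff_regFun hε.ne' _ (by norm_num) (hK.smoothX k), fun L hL s P hs hP => ?_,
      ?_, ?_⟩
    · by_cases h : m = m₀
      · simp only [regData, if_pos h]
        exact (contDiff_regFun hε.ne' _ (by norm_num) (hK.smoothA m)).add
          (contDiff_dampFun hε.ne' Λ (by norm_num))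
      · simp only [regData, if_neg h, add_zero]
        exact contDiff_regFun hε.ne' _ (by norm_num) (hK.smoothA m)
    · have e : (regData n Λ m₀ K ε).Φ (argL L s P) =
          (coefsOf (regData n Λ m₀ K ε) (argL L s P)).Φ.1 := rfl
      rw [show (psum L 2, s, P, psum L 3, psum L 4) = argL L s P from rfl, e, coefs_at hK hε]
      simp only [scaled, powJet, jetsAt, Coefs.map, jetOf, zpow_one]
      exact mul_nonneg (regRho_pos hε.ne' _).le
        (hK.pos _ (unit_mem hε hL).1.1 (unit_mem hε hL).1.2 s P hs hP).le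
    · intro L hL s q hs hq hle
      have hd : (s, q) ∈ quarter := ⟨hs.le, hq, hle⟩
      obtain ⟨hl, -⟩ := unit_mem (L := L) hε hL
      have hρ := regRho_pos hε.ne' (psum L 2)
      have e := coefs_at hK (m₀ := m₀) hε Λ L s (s ^ 2 + q ^ 2)
      rw [show (psum L 2, s, s ^ 2 + q ^ 2, psum L 3, psum L 4) = argL L s (s ^ 2 + q ^ 2) from rfl]
      refine ⟨?_, fun a i j h1 h2 h3 => ?_, fun c v y hv => ?_⟩
      · rw [e]
        simp only [scaled, powJet, jetsAt, Coefs.map, jetOf, zpow_one]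
        exact mul_nonneg hρ.le
          (hK.pos _ hl.1 hl.2 s _ ⟨hs.le, by nlinarith [sq_nonneg q]⟩ ⟨by positivity, hle⟩).le
      · have h := htri ((s, q), (regRho ε (psum L 2))⁻¹ • L) ⟨hd, hl⟩ a i j h1 h2 h3
        have w := (weights_scaled hρ.ne' ((regRho ε (psum L 2))⁻¹ • L)
          (Λ * fade ((regRho ε (psum L 2))⁻¹ • L)) hm₀
          (jetsAt K ((regRho ε (psum L 2))⁻¹ • L) s (s ^ 2 + q ^ 2))
          (psum ((regRho ε (psum L 2))⁻¹ • L) 3) a i j).2
        rw [smul_inv_smul₀ hρ.ne'] at w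
        rw [e, w]
        simp only [jetsOn] at h
        exact mul_nonpos_of_nonneg_of_nonpos (inv_nonneg.2 hρ.le) (by linarith)
      · obtain ⟨B, -, hB⟩ := hup (max ε (psum L 2))
        exact le_csSup ⟨_, fun w hw => hB ε ⟨hε, le_max_left _ _⟩ (argL L s (s ^ 2 + q ^ 2))
          (psum_two_nonneg L) (le_max_right _ _) w hw⟩
          (Or.inr ⟨L, q, c, v, y, hL, hd, rfl, hv, rfl⟩)
    · intro L hL a ha
      obtain ⟨hl, he2⟩ := unit_mem (L := L) hε hL
      have hρ := regRho_pos hε.ne' (psum L 2)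
      have hρ2 : regRho ε (psum L 2) ^ 2 = psum L 2 + ε ^ 2 := by
        rw [regRho_eq (psum_two_nonneg L), Real.sq_sqrt (by have := psum_two_nonneg L; positivity)]
      have w := edge_scaled hρ.ne' ((regRho ε (psum L 2))⁻¹ • L)
        (b := Λ * fade ((regRho ε (psum L 2))⁻¹ • L)) hm₀
        (jetsAt K ((regRho ε (psum L 2))⁻¹ • L) 0 1) (psum ((regRho ε (psum L 2))⁻¹ • L) 3) a
      rw [smul_inv_smul₀ hρ.ne', ← coefs_at hK hε] at w
      refine le_trans (le_of_eq w) ?_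
      set ρ := regRho ε (psum L 2)
      set l := ρ⁻¹ • L
      have hla : l a ≤ 0 := mul_nonpos_of_nonneg_of_nonpos (inv_nonneg.2 hρ.le) ha
      obtain ⟨⟨b1, b2⟩, hs⟩ := hedge l hl a hla
      have hE : 0 ≤ M * ε ^ 2 / δ + M * ε / √δ := by positivity
      by_cases hc : 1 - δ ≤ psum l 2
      · obtain ⟨c1, c2⟩ := hs hc
        linarith [mul_nonpos_of_nonneg_of_nonpos (sq_nonneg ρ) c1,
          mul_nonpos_of_nonneg_of_nonpos hρ.le c2]
      · have h2 : ρ ^ 2 * δ ≤ ε ^ 2 := by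
          rw [he2, not_le, div_lt_iff₀ (by positivity)] at hc
          linarith
        have h1 : ρ * √δ ≤ ε := by
          refine (pow_le_pow_iff_left₀ (by positivity) hε.le two_ne_zero).1 ?_
          rwa [mul_pow, Real.sq_sqrt hδ.le]
        refine add_le_add ((mul_le_mul_of_nonneg_left b1 (sq_nonneg ρ)).trans ?_)
          ((mul_le_mul_of_nonneg_left b2 hρ.le).trans ?_)
        · rw [le_div_iff₀ hδ]
          linarith [mul_le_mul_of_nonneg_left h2 hM]
        · rw [le_div_iff₀ (Real.sqrt_pos.2 hδ)]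
          linarith [mul_le_mul_of_nonneg_left h1 hM]
  · intro R
    obtain ⟨B, hB0, hB⟩ := hup (max R 1)
    refine ⟨B * √(max R 1 + 1), ?_⟩
    filter_upwards [Ioc_mem_nhdsGT (zero_lt_one' ℝ)] with ε hε L hL hLR s P _ _
    have hz := psum_two_nonneg L
    refine csSup_le (hne _ _) fun w hw =>
      (hB ε ⟨hε.1, hε.2.trans (le_max_right _ _)⟩ _ hz (hLR.trans (le_max_left _ _)) w hw).trans ?_
    rw [regRho_eq hz]
    refine mul_le_mul_of_nonneg_left (Real.sqrt_le_sqrt ?_) hB0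
    nlinarith [le_max_left R 1, hε.1, hε.2]
  · intro L _ s P _ _ h
    exact (Real.sqrt_eq_zero (psum_two_nonneg L)).1
      ((mul_eq_zero.1 h).resolve_left (neg_ne_zero.2 hK.margin.ne'))
  · intro L hL s P _ _ η hη
    set z : Arg := (psum L 2, s, P, psum L 3, psum L 4) with hzdef
    have hz : (0 : ℝ) ≤ z.1 := psum_two_nonneg L
    rcases eq_or_lt_of_le hz with h0 | h0
    · obtain ⟨B, -, hB⟩ := hup 1
      have hlim : Tendsto (fun ε : ℝ => B * ε) (𝓝[>] 0) (𝓝 0) := by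
        simpa using ((continuous_const_mul B).tendsto 0).mono_left nhdsWithin_le_nhds
      filter_upwards [Ioc_mem_nhdsGT (zero_lt_one' ℝ), hlim.eventually_le_const hη] with ε hε hεη
      refine csSup_le (hne _ _) fun w hw => ?_
      have := hB ε hε z hz (by linarith) w hw
      rw [regRho_eq hz, ← h0, zero_add, Real.sqrt_sq hε.1.le] at this
      show w ≤ -t * √z.1 + η
      rw [← h0, Real.sqrt_zero, mul_zero, zero_add]
      linarith
    · set ρ₀ := √z.1
      have hρ₀ : 0 < ρ₀ := Real.sqrt_pos.2 h0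
      set η' := η / (ρ₀ + 1) with hη'
      have ht := hK.margin
      by_cases hex : ∃ q, (s, q) ∈ quarter ∧ s ^ 2 + q ^ 2 = P
      · obtain ⟨q, hq, hqe⟩ := hex
        obtain ⟨d, hd1, hd⟩ := formD_near hn hK (Λ := Λ) (b := ρ₀ + 1) hq hρ₀
          (show 0 < η' by positivity)
        have hlim : Tendsto (fun ε : ℝ => z.1 / (z.1 + ε ^ 2)) (𝓝[>] 0) (𝓝 1) := by
          have hc : ContinuousAt (fun ε : ℝ => z.1 / (z.1 + ε ^ 2)) 0 :=
            ContinuousAt.div continuousAt_const (by fun_prop) (by simpa using h0.ne')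
          simpa [h0.ne'] using hc.tendsto.mono_left nhdsWithin_le_nhds
        filter_upwards [Ioc_mem_nhdsGT (zero_lt_one' ℝ), hlim.eventually (lt_mem_nhds hd1)] with ε hε hεd
        refine csSup_le (hne _ _) (ineqValues_le hK hm₀ hε.1 ?_ ?_)
        · show -t * ρ₀ ≤ -t * ρ₀ + η
          linarith
        intro L' q' c v y hL' hq' he hv
        have hPe : s ^ 2 + q' ^ 2 = P := congrArg (fun w : Arg => w.2.2.1) he
        have : q' = q := (pow_left_inj₀ hq'.2.1 hq.2.1 two_ne_zero).1 (by linarith)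
        subst this
        have h1 : psum L' 2 = z.1 := congrArg Prod.fst he
        have hρ : regRho ε z.1 ∈ Set.Icc ρ₀ (ρ₀ + 1) := by
          rw [regRho_eq hz]
          refine ⟨Real.sqrt_le_sqrt (by nlinarith), (Real.sqrt_le_left (by positivity)).2 ?_⟩
          nlinarith [Real.sq_sqrt hz, hε.1, hε.2]
        obtain ⟨hl, he2⟩ := unit_mem (L := L') hε.1 hL'
        rw [h1] at hl he2
        have key := hd ((regRho ε z.1)⁻¹ • L') hl
          (by rw [he2, regRho_eq hz, Real.sq_sqrt (by positivity)]; exact hεd) c v hv _ hρ y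
        refine (mul_le_mul_of_nonneg_left key (hρ₀.le.trans hρ.1)).trans ?_
        have k1 := mul_le_mul_of_nonneg_right hρ.2 (show (0 : ℝ) ≤ η' by positivity)
        have k2 : (ρ₀ + 1) * η' = η := by rw [hη']; field_simp
        have k3 := mul_le_mul_of_nonneg_left hρ.1 ht.le
        show regRho ε z.1 * (-t + η') ≤ -t * ρ₀ + η
        linarith
      · filter_upwards [Ioc_mem_nhdsGT (zero_lt_one' ℝ)] with ε hε
        refine csSup_le (hne _ _) (ineqValues_le hK hm₀ hε.1 ?_ fun L' q _ _ _ _ hq he _ =>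
          absurd ⟨q, hq, congrArg (fun w : Arg => w.2.2.1) he⟩ hex)
        show -t * ρ₀ ≤ -t * ρ₀ + η
        linarith

end

end Vale.Agent.P098.Cert6
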