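import Vale.Agent.P098.Cert6.Reduced
import Vale.Agent.P098.Cert6.Regular
import Vale.Agent.P098.Sobolev
import Vale.Agent.P098.Example6

/-!
P098, dimension six: the statement on cones with smooth cross-section, from the interior form of
the vector at the configurations with a repeated value.
-/

open MeasureTheory Filter
open scoped Topology RealInnerProductSpace

namespace Vale.Agent.P098.Cert6

noncomputable section

/-- Stable cones with smooth cross-section in dimension six are flat, and its companions. -/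
theorem stableConesSix_of_edge
    (hedge : ∀ μ a b d : ℝ, μ + 2 * a + b + d = 0 →
      μ ^ 2 + 2 * a ^ 2 + b ^ 2 + d ^ 2 = 1 →
      ∀ va vb vd s q R y : ℝ, 0 ≤ s → 0 ≤ q → s ^ 2 + q ^ 2 ≤ 1 → 0 < R →
        form (jetsAt (vec6.map Aff.fn) (edgeEig μ a b d) s (s ^ 2 + q ^ 2)) (edgeEig μ a b d) 0
            ![-(2 * va + vb + vd), va, va, vb, vd] s q 1 R y +
          marg6 * ((∑ i, (![-(2 * va + vb + vd), va, va, vb, vd] : Fin 5 → ℝ) i ^ 2) + y ^ 2 + 1)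
            ≤ 0) :
    (∀ u : Euc 6 → ℝ, IsSmoothCone u → IsStable u →
      (∀ x, u x = 0) ∨ ∃ e : Euc 6, ‖e‖ = 1 ∧ ∀ x, u x = max ⟪e, x⟫ 0) ∧
    (∀ w u : Euc 6 → ℝ, IsGlobalMinimizer w → IsSmoothCone u → w =ᵐ[volume] u →
      w =ᵐ[volume] 0 ∨ ∃ e : Euc 6, ‖e‖ = 1 ∧ w =ᵐ[volume] fun x => max ⟪e, x⟫ 0) ∧
    (∀ e : Euc 6, ‖e‖ = 1 →
      IsSmoothCone (fun x => max ⟪e, x⟫ 0) ∧ IsStable (fun x => max ⟪e, x⟫ 0)) ∧
    (∃ u : Euc 6 → ℝ, IsSmoothCone u ∧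
      ¬ ((∀ x, u x = 0) ∨ ∃ e : Euc 6, ‖e‖ = 1 ∧ ∀ x, u x = max ⟪e, x⟫ 0)) := by
  have flat6 : ∀ u : Euc 6 → ℝ, IsSmoothCone u → IsStable u →
      (∀ x, u x = 0) ∨ ∃ e : Euc 6, ‖e‖ = 1 ∧ ∀ x, u x = max ⟪e, x⟫ 0 := fun u hu hst =>
    flat_of_certificate (n := 5) (by norm_num) (certificate_vec6_of_edge hedge) (m₀ := 0) (by simp)
      hu hst
  refine ⟨flat6, fun w u hw hu hwu => ?_, fun e he => flat_isSmoothCone_isStable he,
    ⟨fun x => max (Six.cone6 x) 0, Six.isSmoothCone_cone6, Six.cone6_not_flat⟩⟩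
  rcases flat6 u hu (hw.isStable hu hwu) with h | ⟨e, he, h⟩
  · exact Or.inl (hwu.trans (Eventually.of_forall h))
  · exact Or.inr ⟨e, he, hwu.trans (Eventually.of_forall h)⟩

end

end Vale.Agent.P098.Cert6
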