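import Vale.Agent.P098.Cert6.Assemble
import Vale.Agent.P098.Cert6.Ball
import Vale.Agent.P098.Cert6.Form
import Vale.Agent.P098.Cert6.Value

/-!
P098, dimension six: the inequality at the configurations with a repeated value from the chart.

With the normal eigenvalue `μ = m T`, `T = 16 / (16 + 5 m² + 8 n²)`, the four others are
`-μ / 4 + p` twice and `-μ / 4 - p ± n T`, `p = ±(T - 1 / 2)`; this covers the sphere with
`|m| ≤ 9 / 5`, `n² ≤ 2`.  The third derivatives are `q` times those of the chart, and the points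
`q = 0`, `n = 0` follow by continuity.
-/

open Filter Matrix
open scoped ContDiff Topology

namespace Vale.Agent.P098.Cert6

open Vale.Agent.P098.ReduceN (psum usum hdot diagWeight)
open Interior (vvec)

noncomputable section

/-- The scale of the chart. -/
def chartScale (m n : ℝ) : ℝ := 16 / (16 + 5 * m ^ 2 + 8 * n ^ 2)

/-- The eigenvalues over the chart with the sign `e`. -/
def chartEig (e m n : ℝ) : Fin 5 → ℝ :=
  edgeEig (m * chartScale m n) (-(m * chartScale m n) / 4 + e * (chartScale m n - 1 / 2))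
    (-(m * chartScale m n) / 4 - e * (chartScale m n - 1 / 2) + n * chartScale m n)
    (-(m * chartScale m n) / 4 - e * (chartScale m n - 1 / 2) - n * chartScale m n)

/-- The form is quadratic in `(v, y, q)` plus the part at the origin. -/
lemma form_scale_q (J : Coefs fields Jet) (l v : Fin 5 → ℝ) (c : Fin 5)
    (s q o R y : ℝ) :
    form J l c (q • v) s q o R (q * y) =
      q ^ 2 * (form J l c v s 1 o R y - form J l c 0 s 0 o R 0) + form J l c 0 s 0 o R 0 := by
  have hu : ∀ k, usum l (q • v) k = q * usum l v k := fun k => by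
    simp only [usum, Pi.smul_apply, smul_eq_mul, Finset.mul_sum]
    exact Finset.sum_congr rfl fun i _ => by ring
  have hh : ∀ k, hdot l (q • v) k c = q * hdot l v k c := fun k => by
    simp only [hdot, Pi.smul_apply, smul_eq_mul, Finset.mul_sum]
    exact Finset.sum_congr rfl fun i _ => by ring
  have hu0 : ∀ k, usum l (0 : Fin 5 → ℝ) k = 0 := fun k => by simp [usum]
  have hh0 : ∀ k, hdot l (0 : Fin 5 → ℝ) k c = 0 := fun k => by simp [hdot]
  have hd : ∀ (X : Jet) E, dH X E l (q • v) c q o R = q * dH X E l v c 1 o R := fun X E => by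
    simp only [dH, hu]; ring
  have hd0 : ∀ (X : Jet) E, dH X E l (0 : Fin 5 → ℝ) c 0 o R = 0 := fun X E => by
    simp [dH, hu0]
  simp [form, hd, hd0, hu, hh, hu0, hh0, Fin.sum_univ_two, Fin.sum_univ_five]
  ring

/-- The covering of the sphere by the chart. -/
lemma exists_chart {μ a b d : ℝ} (h1 : μ + 2 * a + b + d = 0)
    (h2 : μ ^ 2 + 2 * a ^ 2 + b ^ 2 + d ^ 2 = 1) :
    ∃ e m n : ℝ, (e = 1 ∨ e = -1) ∧ |m| ≤ 9 / 5 ∧ n ^ 2 ≤ 2 ∧
      chartEig e m n = edgeEig μ a b d := by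
  set p := a + μ / 4 with hp
  set w := (b - d) / 2 with hw
  have hell : 5 / 4 * μ ^ 2 + 4 * p ^ 2 + 2 * w ^ 2 = 1 := by
    rw [hp, hw]
    linear_combination h2 - ((μ + 2 * a) / 2 * (-1) + (b + d) / 2) * h1
  obtain ⟨e, he, hep⟩ : ∃ e : ℝ, (e = 1 ∨ e = -1) ∧ e * p = |p| := by
    rcases le_total 0 p with h | h
    · exact ⟨1, Or.inl rfl, by rw [one_mul, abs_of_nonneg h]⟩
    · exact ⟨-1, Or.inr rfl, by rw [neg_one_mul, abs_of_nonpos h]⟩
  have he2 : e * e = 1 := by rcases he with rfl | rfl <;> norm_num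
  set T := |p| + 1 / 2 with hT
  have hT0 : 1 / 2 ≤ T := by rw [hT]; linarith [abs_nonneg p]
  have hTne : T ≠ 0 := by linarith
  have hμ : |μ| ≤ 9 / 10 := abs_le_of_sq_le_sq (by nlinarith [sq_nonneg p, sq_nonneg w]) (by norm_num)
  have hw2 : w ^ 2 ≤ 1 / 2 := by nlinarith [sq_nonneg p, sq_nonneg μ]
  refine ⟨e, μ / T, w / T, he, ?_, ?_, ?_⟩
  · rw [abs_div, abs_of_pos (by linarith : 0 < T), div_le_iff₀ (by linarith)]
    linarith
  · rw [div_pow, div_le_iff₀ (by positivity)]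
    nlinarith
  · have hden : 16 + 5 * (μ / T) ^ 2 + 8 * (w / T) ^ 2 = 16 / T := by
      field_simp
      rw [hT]
      linear_combination (4 : ℝ) * hell + 16 * sq_abs p
    have hsc : chartScale (μ / T) (w / T) = T := by
      rw [chartScale, hden]
      field_simp
    have hpe : e * (T - 1 / 2) = p := by
      rw [hT, add_sub_cancel_right, ← hep, ← mul_assoc, he2, one_mul]
    simp only [chartEig, hsc, div_mul_cancel₀ _ hTne, hpe]
    have ha : -μ / 4 + p = a := by rw [hp]; ring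
    have hb : -μ / 4 - p + w = b := by rw [hp, hw]; linear_combination (-1 / 2 : ℝ) * h1
    have hd : -μ / 4 - p - w = d := by rw [hp, hw]; linear_combination (-1 / 2 : ℝ) * h1
    rw [ha, hb, hd]

variable {K : Coefs fields (ℝ × ℝ × ℝ → ℝ)} {t : ℝ}

/-- The inequality at the configurations with a repeated value from the chart. -/
theorem hedge_of_chart (hG : ContDiff ℝ 2 K.G) (hA : ∀ m, ContDiff ℝ 2 (K.A m))
    (hX : ∀ k, ContDiff ℝ 2 (K.X k)) (hC : ∀ e j, ContDiff ℝ 2 (K.C e j))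
    (h : ∀ e m n s u : ℝ, (e = 1 ∨ e = -1) → |m| ≤ 9 / 5 → n ^ 2 ≤ 2 → 0 ≤ s → s ≤ 1 → 0 ≤ u →
      u ≤ 1 → ∀ w S f z R : ℝ, 0 < R →
      u * (1 - s ^ 2) *
          (form (jetsAt K (chartEig e m n) s (s ^ 2 + u * (1 - s ^ 2))) (chartEig e m n) 0
              (vvec n w S f) s 1 1 R z -
            form (jetsAt K (chartEig e m n) s (s ^ 2 + u * (1 - s ^ 2))) (chartEig e m n) 0 0 s 0 1 R 0 +
            t * ((∑ i, vvec n w S f i ^ 2) + z ^ 2)) +
        (form (jetsAt K (chartEig e m n) s (s ^ 2 + u * (1 - s ^ 2))) (chartEig e m n) 0 0 s 0 1 R 0 +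
          t) ≤ 0) :
    ∀ μ a b d : ℝ, μ + 2 * a + b + d = 0 → μ ^ 2 + 2 * a ^ 2 + b ^ 2 + d ^ 2 = 1 →
      ∀ va vb vd s q R y : ℝ, 0 ≤ s → 0 ≤ q → s ^ 2 + q ^ 2 ≤ 1 → 0 < R →
        form (jetsAt K (edgeEig μ a b d) s (s ^ 2 + q ^ 2)) (edgeEig μ a b d) 0
            ![-(2 * va + vb + vd), va, va, vb, vd] s q 1 R y +
          t * ((∑ i, (![-(2 * va + vb + vd), va, va, vb, vd] : Fin 5 → ℝ) i ^ 2) + y ^ 2 + 1) ≤ 0 := by
  intro μ a b d h1 h2 va vb vd s q R y hs hq hle hR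
  obtain ⟨e, m, n, he, hm, hn, heig⟩ := exists_chart h1 h2
  rw [← heig]
  set v : Fin 5 → ℝ := ![-(2 * va + vb + vd), va, va, vb, vd]
  -- a path into the region `s < 1`, `q > 0`, `n ≠ 0`
  set g : ℝ := if n < 0 then -1 else 1 with hg
  set sε : ℝ → ℝ := fun ε => s * (1 - ε) with hsε
  set qε : ℝ → ℝ := fun ε => √(q ^ 2 * (1 - ε) ^ 2 + ε) with hqε
  set nε : ℝ → ℝ := fun ε => n * (1 - ε) + g * ε with hnε
  set lε : ℝ → Fin 5 → ℝ := fun ε => chartEig e m (nε ε) with hlε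
  have cl : Continuous lε := by
    have : Continuous fun ε => chartScale m (nε ε) := by
      unfold chartScale
      exact Continuous.div continuous_const (by fun_prop) fun ε => by positivity
    refine continuous_pi fun i => ?_
    fin_cases i <;> simp [lε, chartEig, edgeEig] <;> fun_prop
  have cs : Continuous sε := by fun_prop
  have cq : Continuous qε := by fun_prop
  have cP : Continuous fun ε => sε ε ^ 2 + qε ε ^ 2 := by fun_prop
  set Ψ : ℝ → ℝ := fun ε => form (jetsAt K (lε ε) (sε ε) (sε ε ^ 2 + qε ε ^ 2)) (lε ε) 0 v (sε ε)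
    (qε ε) 1 R y + t * ((∑ i, v i ^ 2) + y ^ 2 + 1) with hΨ
  have hw : Continuous fun ε => (sε ε, sε ε ^ 2 + qε ε ^ 2, psum (lε ε) 3) :=
    cs.prodMk (cP.prodMk (continuous_psum cl 3))
  have cJ : ContCoefs fun ε => jetsAt K (lε ε) (sε ε) (sε ε ^ 2 + qε ε ^ 2) :=
    ⟨(continuous_jetOf hG).comp hw, fun m => (continuous_jetOf (hA m)).comp hw,
      fun k => (continuous_jetOf (hX k)).comp hw, fun e j => (continuous_jetOf (hC e j)).comp hw⟩
  have cΨ : Continuous Ψ := (continuous_form cJ cl continuous_const cs cq continuous_const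
    continuous_const continuous_const 0).add continuous_const
  have h0 : Ψ 0 = form (jetsAt K (chartEig e m n) s (s ^ 2 + q ^ 2)) (chartEig e m n) 0 v s q 1 R y +
      t * ((∑ i, v i ^ 2) + y ^ 2 + 1) := by
    simp [Ψ, lε, sε, qε, nε, Real.sqrt_sq hq]
  have hev : ∀ᶠ ε in 𝓝[>] (0 : ℝ), Ψ ε ≤ 0 := by
    filter_upwards [Ioo_mem_nhdsGT (show (0 : ℝ) < 1 by norm_num)] with ε hε
    obtain ⟨e0, e1⟩ := hε
    have hs' : 0 ≤ sε ε := mul_nonneg hs (by linarith)
    have hs1 : sε ε < 1 := by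
      have : s ≤ 1 := by nlinarith [sq_nonneg q]
      nlinarith
    have hrad : 0 < q ^ 2 * (1 - ε) ^ 2 + ε := by positivity
    have hq' : 0 < qε ε := Real.sqrt_pos.2 hrad
    have hq2 : qε ε ^ 2 = q ^ 2 * (1 - ε) ^ 2 + ε := Real.sq_sqrt hrad.le
    have hP' : sε ε ^ 2 + qε ε ^ 2 ≤ 1 := by
      rw [hq2]
      simp only [sε]
      nlinarith [mul_le_mul_of_nonneg_left hle (sq_nonneg (1 - ε))]
    have hn0 : nε ε ≠ 0 := by
      by_cases h : n < 0
      · simp only [nε, g, if_pos h]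
        nlinarith [mul_neg_of_neg_of_pos h (sub_pos.2 e1)]
      · simp only [nε, g, if_neg h]
        nlinarith [mul_nonneg (not_lt.1 h) (sub_pos.2 e1).le]
    have hn2 : nε ε ^ 2 ≤ 2 := by
      have hg2 : g ^ 2 = 1 := by rw [hg]; split_ifs <;> norm_num
      simp only [nε]
      nlinarith [mul_nonneg (mul_nonneg e0.le (sub_pos.2 e1).le) (sq_nonneg (n - g))]
    have hσ : 0 < 1 - sε ε ^ 2 := by nlinarith
    set u := qε ε ^ 2 / (1 - sε ε ^ 2) with hu
    have huσ : u * (1 - sε ε ^ 2) = qε ε ^ 2 := div_mul_cancel₀ _ hσ.ne'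
    have hu1 : u ≤ 1 := by rw [hu, div_le_one hσ]; linarith
    have hne := hq'.ne'
    set n' := nε ε
    set Q := qε ε
    have hv : v = Q • vvec n' (va / Q) ((vb + vd) / (2 * Q)) ((vb - vd) / (2 * n' * Q)) := by
      funext i
      fin_cases i <;> simp [v, vvec] <;> field_simp <;> ring
    have := h e m n' (sε ε) u he hm hn2 hs' hs1.le (by positivity) hu1 (va / Q)
      ((vb + vd) / (2 * Q)) ((vb - vd) / (2 * n' * Q)) (y / Q) R hR
    rw [huσ] at this
    simp only [Ψ, lε]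
    rw [hv, show y = Q * (y / Q) by field_simp, form_scale_q]
    simp only [Pi.smul_apply, smul_eq_mul, mul_pow, ← Finset.mul_sum]
    linear_combination this
  have := le_of_tendsto ((cΨ.tendsto 0).mono_left nhdsWithin_le_nhds) hev
  rwa [h0] at this

/-- The inequality at the configurations with a repeated value for `vec6`, from the reduced form
on the chart. -/
theorem hedge_of_redForm
    (h : ∀ ε : ℤ, (ε = 1 ∨ ε = -1) → ∀ z : Fin 4 → ℝ, (∀ i, z i ∈ Set.Icc (0 : ℝ) 1) →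
      ∀ n : ℝ, n ^ 2 = 2 * z 3 → ∀ x : Fin 6 → ℝ, 0 ≤ x 4 → 0 ≤ x 5 →
        Interior.redForm (Interior.realPt ε z) n x ≤ 0) :
    ∀ μ a b d : ℝ, μ + 2 * a + b + d = 0 → μ ^ 2 + 2 * a ^ 2 + b ^ 2 + d ^ 2 = 1 →
      ∀ va vb vd s q R y : ℝ, 0 ≤ s → 0 ≤ q → s ^ 2 + q ^ 2 ≤ 1 → 0 < R →
        form (jetsAt (vec6.map Aff.fn) (edgeEig μ a b d) s (s ^ 2 + q ^ 2)) (edgeEig μ a b d) 0
            ![-(2 * va + vb + vd), va, va, vb, vd] s q 1 R y +
          marg6 * ((∑ i, (![-(2 * va + vb + vd), va, va, vb, vd] : Fin 5 → ℝ) i ^ 2) + y ^ 2 + 1) ≤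
            0 := by
  refine hedge_of_chart (contDiff_fn vec6_smooth_G.1 vec6_smooth_G.2)
    (fun m => contDiff_fn (vec6_smooth_A m).1 (vec6_smooth_A m).2)
    (fun k => contDiff_fn (vec6_smooth_X k).1 (vec6_smooth_X k).2)
    (fun e j => contDiff_fn (vec6_smooth_C e j).1 (vec6_smooth_C e j).2) ?_
  intro e m n s u he hm hn hs hs1 hu hu1 w S f z R hR
  obtain ⟨ε, hε, rfl⟩ : ∃ ε : ℤ, (ε = 1 ∨ ε = -1) ∧ e = ε := by
    rcases he with rfl | rfl
    exacts [⟨1, Or.inl rfl, by norm_num⟩, ⟨-1, Or.inr rfl, by norm_num⟩]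
  set pz : Fin 4 → ℝ := ![s, u, (5 * m / 9 + 1) / 2, n ^ 2 / 2]
  have hz : ∀ i, pz i ∈ Set.Icc (0 : ℝ) 1 := fun i => by
    obtain ⟨m1, m2⟩ := abs_le.1 hm
    fin_cases i <;> simp [pz] <;> constructor <;> nlinarith [sq_nonneg n]
  have hden : Interior.chartDen pz = 20 * (16 + 5 * m ^ 2 + 8 * n ^ 2) := by
    simp [Interior.chartDen, pz]; ring
  have heig : (Interior.realPt ε pz).eig n = chartEig ε m n := by
    rw [Interior.realPt_eq, hden]
    have : (16 : ℝ) + 5 * m ^ 2 + 8 * n ^ 2 ≠ 0 := by positivity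
    funext i
    fin_cases i <;> simp [Interior.Pt.eig, chartEig, edgeEig, chartScale, pz] <;> field_simp <;> ring
  have := h ε hε pz hz n (by simp [pz]; ring) ![w, S, f, z, 1, R] (by simp) (by simp [hR.le])
  rw [Interior.redForm, heig, Interior.realPt_eq] at this
  simp [pz, ← pow_two] at this ⊢
  linarith

end

end Vale.Agent.P098.Cert6
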