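import Vale.Agent.P098.Cert6.Cube
import Vale.Agent.P098.Cert6.Subst

/-!
P098, dimension six: the interior inequality from two matrices of tensor forms.
-/

namespace Vale.Agent.P098.Cert6

noncomputable section

/-- The argument `hedge` of `certificate_of_parts` from nonnegative tensor forms, one for each
chart, that are a positive multiple of the numerators. -/
theorem hedge_of_tensors {κ : ℝ} (hκ : 0 < κ)
    (B : ℤ → List ℝ → Fin 6 → Fin 6 → ℝ)
    (hB : ∀ ε : ℤ, (ε = 1 ∨ ε = -1) → ∀ z : Fin 4 → ℝ, ∀ i j : Fin 6, i ≤ j →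
      B ε [z 0, z 1, z 2, z 3] i j =
          κ * Kron.evalR z (Interior.numer Interior.vecData Interior.marg6Z ε i j) ∧
        B ε [z 0, z 1, z 2, z 3] j i = B ε [z 0, z 1, z 2, z 3] i j)
    (hpos : ∀ ε : ℤ, (ε = 1 ∨ ε = -1) → ∀ xs : List ℝ, xs.length = 4 →
      (∀ x ∈ xs, x ∈ Set.Icc (0 : ℝ) 1) → ∀ x : Fin 6 → ℝ, 0 ≤ x 4 → 0 ≤ x 5 →
        0 ≤ Check6.quadForm (B ε xs) x) :
    ∀ μ a b d : ℝ, μ + 2 * a + b + d = 0 → μ ^ 2 + 2 * a ^ 2 + b ^ 2 + d ^ 2 = 1 →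
      ∀ va vb vd s q R y : ℝ, 0 ≤ s → 0 ≤ q → s ^ 2 + q ^ 2 ≤ 1 → 0 < R →
        form (jetsAt (vec6.map Aff.fn) (edgeEig μ a b d) s (s ^ 2 + q ^ 2)) (edgeEig μ a b d) 0
            ![-(2 * va + vb + vd), va, va, vb, vd] s q 1 R y +
          marg6 * ((∑ i, (![-(2 * va + vb + vd), va, va, vb, vd] : Fin 5 → ℝ) i ^ 2) + y ^ 2 + 1) ≤
            0 :=
  hedge_of_redForm fun ε hε z hz n hn x h4 h5 =>
    Interior.redForm_nonpos hε (hz 3).1 hn hκ (hB ε hε z)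
      (hpos ε hε _ rfl (by
        simp only [List.mem_cons, List.not_mem_nil, or_false]
        rintro y (rfl | rfl | rfl | rfl) <;> exact hz _) x h4 h5)

end

end Vale.Agent.P098.Cert6
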