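import Mathlib

/-!
P098, dimension six: polynomial expressions in four pairs `(xᵢ, yᵢ)` to be read at `yᵢ = 1 - xᵢ`.
A bihomogeneous expression has its scaled Bernstein coefficients as digits of its value at a
Kronecker point, so the kernel gets the packed coefficient tensor by evaluating the expression.
-/

namespace Vale.Agent.P098.Cert6.Kron

/-- Expressions in `xᵢ` and `yᵢ = 1 - xᵢ`. -/
inductive Poly : Type
  | x (i : Fin 4)
  | y (i : Fin 4)
  | const (z : ℤ)
  | add (a b : Poly)
  | mul (a b : Poly)
  | neg (a : Poly)

/-- Degrees in the four pairs. -/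
abbrev Deg : Type := ℕ × ℕ × ℕ × ℕ

/-- Degree one in one pair. -/
def unit (i : Fin 4) : Deg :=
  (if i = 0 then 1 else 0, if i = 1 then 1 else 0, if i = 2 then 1 else 0, if i = 3 then 1 else 0)

/-- The sum of two degrees. -/
def dadd (a b : Deg) : Deg := (a.1 + b.1, a.2.1 + b.2.1, a.2.2.1 + b.2.2.1, a.2.2.2 + b.2.2.2)

/-- The degree of a bihomogeneous expression. -/
def deg? : Poly → Option Deg
  | .x i => some (unit i)
  | .y i => some (unit i)
  | .const _ => some (0, 0, 0, 0)
  | .add a b =>
    match deg? a, deg? b with
    | some d, some d' => if d = d' then some d else none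
    | _, _ => none
  | .mul a b =>
    match deg? a, deg? b with
    | some d, some d' => some (dadd d d')
    | _, _ => none
  | .neg a => deg? a

/-- A bound for the sum of the absolute values of the coefficients. -/
def bound : Poly → ℕ
  | .x _ => 1
  | .y _ => 1
  | .const z => z.natAbs
  | .add a b => bound a + bound b
  | .mul a b => bound a * bound b
  | .neg a => bound a

/-- The value at `xᵢ = wᵢ`, `yᵢ = 1`. -/
def evalInt (w : Fin 4 → ℤ) : Poly → ℤ
  | .x i => w i
  | .y _ => 1
  | .const z => z
  | .add a b => evalInt w a + evalInt w b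
  | .mul a b => evalInt w a * evalInt w b
  | .neg a => -evalInt w a

/-- The value at `xᵢ = p i`, `yᵢ = 1 - p i`. -/
noncomputable def evalR (p : Fin 4 → ℝ) : Poly → ℝ
  | .x i => p i
  | .y i => 1 - p i
  | .const z => z
  | .add a b => evalR p a + evalR p b
  | .mul a b => evalR p a * evalR p b
  | .neg a => -evalR p a

/-- The monomials with their coefficients, without collecting. -/
def terms : Poly → List (Deg × ℤ)
  | .x i => [(unit i, 1)]
  | .y _ => [((0, 0, 0, 0), 1)]
  | .const z => [((0, 0, 0, 0), z)]
  | .add a b => terms a ++ terms b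
  | .mul a b => (terms a).flatMap fun t => (terms b).map fun u => (dadd t.1 u.1, t.2 * u.2)
  | .neg a => (terms a).map fun t => (t.1, -t.2)

/-- The monomial of exponents `t` at `w`. -/
def monZ (w : Fin 4 → ℤ) (t : Deg) : ℤ :=
  w 0 ^ t.1 * w 1 ^ t.2.1 * w 2 ^ t.2.2.1 * w 3 ^ t.2.2.2

/-- The scaled Bernstein monomial of degree `d`. -/
noncomputable def bern (d : Deg) (p : Fin 4 → ℝ) (t : Deg) : ℝ :=
  p 0 ^ t.1 * (1 - p 0) ^ (d.1 - t.1) * (p 1 ^ t.2.1 * (1 - p 1) ^ (d.2.1 - t.2.1)) *
    (p 2 ^ t.2.2.1 * (1 - p 2) ^ (d.2.2.1 - t.2.2.1)) *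
    (p 3 ^ t.2.2.2 * (1 - p 3) ^ (d.2.2.2 - t.2.2.2))

lemma monZ_dadd (w : Fin 4 → ℤ) (a b : Deg) : monZ w (dadd a b) = monZ w a * monZ w b := by
  simp only [monZ, dadd, pow_add]; ring

lemma bern_dadd (p : Fin 4 → ℝ) {d d' t u : Deg} (h : t ≤ d) (h' : u ≤ d') :
    bern (dadd d d') p (dadd t u) = bern d p t * bern d' p u := by
  obtain ⟨h0, h1, h2, h3⟩ := h
  obtain ⟨k0, k1, k2, k3⟩ := h'
  simp only [bern, dadd, show d.1 + d'.1 - (t.1 + u.1) = (d.1 - t.1) + (d'.1 - u.1) by omega,
    show d.2.1 + d'.2.1 - (t.2.1 + u.2.1) = (d.2.1 - t.2.1) + (d'.2.1 - u.2.1) by omega,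
    show d.2.2.1 + d'.2.2.1 - (t.2.2.1 + u.2.2.1) =
      (d.2.2.1 - t.2.2.1) + (d'.2.2.1 - u.2.2.1) by omega,
    show d.2.2.2 + d'.2.2.2 - (t.2.2.2 + u.2.2.2) =
      (d.2.2.2 - t.2.2.2) + (d'.2.2.2 - u.2.2.2) by omega, pow_add]
  ring

lemma evalInt_terms (w : Fin 4 → ℤ) (e : Poly) :
    evalInt w e = ((terms e).map fun t => t.2 * monZ w t.1).sum := by
  induction e with
  | x i => fin_cases i <;> simp [evalInt, terms, monZ, unit]
  | y i => simp [evalInt, terms, monZ]
  | const z => simp [evalInt, terms, monZ]
  | add a b iha ihb => simp [evalInt, terms, iha, ihb]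
  | mul a b iha ihb =>
    simp only [evalInt, terms, iha, ihb]
    induction terms a with
    | nil => simp
    | cons t l ih =>
      simp only [List.flatMap_cons, List.map_append, List.sum_append, List.map_map, List.map_cons,
        List.sum_cons, add_mul, ← ih]
      congr 1
      rw [← List.sum_map_mul_left]
      exact congrArg List.sum (List.map_congr_left fun u _ => by
        simp only [Function.comp, monZ_dadd]; ring)
  | neg a iha =>
    simp only [evalInt, terms, iha]
    induction terms a with
    | nil => simp
    | cons t l ih =>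
      simp only [List.map_cons, List.sum_cons, ← ih]
      ring

lemma terms_bound : ∀ e : Poly, ((terms e).map fun t => t.2.natAbs).sum ≤ bound e
  | .x _ => by simp [terms, bound]
  | .y _ => by simp [terms, bound]
  | .const z => by simp [terms, bound]
  | .add a b => by
    simp only [terms, bound, List.map_append, List.sum_append]
    exact Nat.add_le_add (terms_bound a) (terms_bound b)
  | .mul a b => by
    have hl : ∀ l : List (Deg × ℤ),
        ((l.flatMap fun t => (terms b).map fun u => (dadd t.1 u.1, t.2 * u.2)).map
          fun t => t.2.natAbs).sum =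
        (l.map fun t => t.2.natAbs).sum * ((terms b).map fun t => t.2.natAbs).sum := by
      intro l
      induction l with
      | nil => simp
      | cons t l ih =>
        simp only [List.flatMap_cons, List.map_append, List.sum_append, List.map_map, ih,
          List.map_cons, List.sum_cons, add_mul, ← List.sum_map_mul_left]
        simp [Function.comp_def, Int.natAbs_mul]
    simp only [terms, bound, hl]
    exact Nat.mul_le_mul (terms_bound a) (terms_bound b)
  | .neg a => by
    simp only [terms, bound, List.map_map, Function.comp_def, Int.natAbs_neg]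
    exact terms_bound a

lemma terms_le : ∀ {e : Poly} {d : Deg}, deg? e = some d → ∀ t ∈ terms e, t.1 ≤ d
  | .x i, d, h, t, ht => by
    simp only [deg?, Option.some.injEq] at h
    simp only [terms, List.mem_singleton] at ht
    subst h ht
    exact le_rfl
  | .y i, d, h, t, ht => by
    simp only [terms, List.mem_singleton] at ht
    subst ht
    exact ⟨zero_le, zero_le, zero_le, zero_le⟩
  | .const z, d, h, t, ht => by
    simp only [terms, List.mem_singleton] at ht
    subst ht
    exact ⟨zero_le, zero_le, zero_le, zero_le⟩
  | .add a b, d, h, t, ht => by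
    simp only [deg?] at h
    split at h
    · rename_i da db ha hb
      split at h
      · rename_i e
        obtain rfl := Option.some.inj h
        rcases List.mem_append.1 ht with ht | ht
        · exact terms_le ha t ht
        · exact e ▸ terms_le hb t ht
      · simp at h
    · simp at h
  | .mul a b, d, h, t, ht => by
    simp only [deg?] at h
    split at h
    · rename_i da db ha hb
      obtain rfl := Option.some.inj h
      simp only [terms, List.mem_flatMap, List.mem_map] at ht
      obtain ⟨u, hu, v, hv, rfl⟩ := ht
      obtain ⟨a0, a1, a2, a3⟩ := terms_le ha u hu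
      obtain ⟨b0, b1, b2, b3⟩ := terms_le hb v hv
      exact ⟨Nat.add_le_add a0 b0, Nat.add_le_add a1 b1, Nat.add_le_add a2 b2,
        Nat.add_le_add a3 b3⟩
    · simp at h
  | .neg a, d, h, t, ht => by
    simp only [terms, List.mem_map] at ht
    obtain ⟨u, hu, rfl⟩ := ht
    exact terms_le (e := a) h u hu

lemma evalR_terms : ∀ {e : Poly} {d : Deg}, deg? e = some d → ∀ p : Fin 4 → ℝ,
    evalR p e = ((terms e).map fun t => (t.2 : ℝ) * bern d p t.1).sum
  | .x i, d, h, p => by
    simp only [deg?, Option.some.injEq] at h
    subst h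
    fin_cases i <;> simp [evalR, terms, bern, unit]
  | .y i, d, h, p => by
    simp only [deg?, Option.some.injEq] at h
    subst h
    fin_cases i <;> simp [evalR, terms, bern, unit]
  | .const z, d, h, p => by
    simp only [deg?, Option.some.injEq] at h
    subst h
    simp [evalR, terms, bern]
  | .add a b, d, h, p => by
    simp only [deg?] at h
    split at h
    · rename_i da db ha hb
      split at h
      · rename_i e
        obtain rfl := Option.some.inj h
        simp [evalR, terms, evalR_terms ha, evalR_terms (e ▸ hb : deg? b = some da)]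
      · simp at h
    · simp at h
  | .mul a b, d, h, p => by
    simp only [deg?] at h
    split at h
    · rename_i da db ha hb
      obtain rfl := Option.some.inj h
      rw [evalR, evalR_terms ha, evalR_terms hb, terms]
      have hl : ∀ l : List (Deg × ℤ), (∀ t ∈ l, t.1 ≤ da) →
          (l.map fun t => (t.2 : ℝ) * bern da p t.1).sum *
              ((terms b).map fun t => (t.2 : ℝ) * bern db p t.1).sum =
            ((l.flatMap fun t => (terms b).map fun u => (dadd t.1 u.1, t.2 * u.2)).map
              fun t => (t.2 : ℝ) * bern (dadd da db) p t.1).sum := by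
        intro l hl
        induction l with
        | nil => simp
        | cons t l ih =>
          simp only [List.flatMap_cons, List.map_append, List.sum_append, List.map_map,
            List.map_cons, List.sum_cons, add_mul,
            ← ih fun u hu => hl u (List.mem_cons_of_mem _ hu)]
          congr 1
          rw [← List.sum_map_mul_left]
          refine congrArg List.sum (List.map_congr_left fun u hu => ?_)
          simp only [Function.comp, bern_dadd p (hl t List.mem_cons_self) (terms_le hb u hu)]
          push_cast
          ring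
      exact hl _ (terms_le ha)
    · simp at h
  | .neg a, d, h, p => by
    rw [evalR, evalR_terms (e := a) h, terms]
    induction terms a with
    | nil => simp
    | cons t l ih =>
      simp only [List.map_cons, List.sum_cons, ← ih]
      push_cast
      ring

/-- The exponents up to `d`. -/
def grid (d : Deg) : Finset Deg :=
  Finset.range (d.1 + 1) ×ˢ (Finset.range (d.2.1 + 1) ×ˢ
    (Finset.range (d.2.2.1 + 1) ×ˢ Finset.range (d.2.2.2 + 1)))

lemma mem_grid {d t : Deg} : t ∈ grid d ↔ t ≤ d := by
  simp [grid, Prod.le_def]

/-- The collected coefficient of one monomial. -/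
def coeff (l : List (Deg × ℤ)) (t : Deg) : ℤ := (l.map fun u => if u.1 = t then u.2 else 0).sum

lemma coeff_le : ∀ (l : List (Deg × ℤ)) (t : Deg),
    (coeff l t).natAbs ≤ (l.map fun u => u.2.natAbs).sum
  | [], t => by simp [coeff]
  | u :: l, t => by
    have ih := coeff_le l t
    simp only [coeff, List.map_cons, List.sum_cons] at ih ⊢
    refine (Int.natAbs_add_le _ _).trans (Nat.add_le_add ?_ ih)
    split <;> simp

lemma sum_coeff {M : Type*} [Ring M] {d : Deg} (f : Deg → M) : ∀ l : List (Deg × ℤ),
    (∀ t ∈ l, t.1 ≤ d) → (l.map fun t => (t.2 : M) * f t.1).sum =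
      ∑ t ∈ grid d, (coeff l t : M) * f t
  | [], _ => by simp [coeff]
  | u :: l, h => by
    rw [List.map_cons, List.sum_cons, sum_coeff f l fun t ht => h t (List.mem_cons_of_mem _ ht)]
    simp only [coeff, List.map_cons, List.sum_cons, Int.cast_add, add_mul, Finset.sum_add_distrib]
    congr 1
    rw [Finset.sum_eq_single u.1 (fun t _ ht => by simp [Ne.symm ht])
      (fun hu => absurd (mem_grid.2 (h u List.mem_cons_self)) hu)]
    simp

/-- The digits of the Kronecker value are scaled Bernstein coefficients. -/
theorem exists_coeff {e : Poly} {d : Deg} (h : deg? e = some d) :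
    ∃ c : Deg → ℤ, (∀ t, (c t).natAbs ≤ bound e) ∧
      (∀ w, evalInt w e = ∑ t ∈ grid d, c t * monZ w t) ∧
      ∀ p, evalR p e = ∑ t ∈ grid d, (c t : ℝ) * bern d p t := by
  refine ⟨coeff (terms e), fun t => (coeff_le _ t).trans (terms_bound e), fun w => ?_, fun p => ?_⟩
  · rw [evalInt_terms, ← Int.cast_id (n := ∑ t ∈ grid d, _)]
    simpa using sum_coeff (M := ℤ) (monZ w) _ (terms_le h)
  · rw [evalR_terms h p]
    exact sum_coeff (bern d p) _ (terms_le h)

end Vale.Agent.P098.Cert6.Kron
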