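import Vale.Agent.P098.Cert6.Vector
import Vale.Agent.P098.Cert6.Weight
import Vale.Agent.P098.Cert6.WeightData

/-!
P098, dimension six: the weight inequality of the vector.
-/

namespace Vale.Agent.P098.Cert6

noncomputable section

set_option maxRecDepth 20000 in
theorem weight_vec6 : WeightIneq vec6 marg6 := by
  intro s P x y p hs hsP hP hd
  have h1 : x ^ 2 ≤ (81 : ℝ) / 100 := by nlinarith [sq_nonneg (x + 4 * y), sq_nonneg p]
  have h2 : y ^ 2 ≤ (81 : ℝ) / 100 := by nlinarith [sq_nonneg (4 * x + y), sq_nonneg p]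
  have h3 : p ^ 2 ≤ (1681 : ℝ) / 10000 := by nlinarith [sq_nonneg (x + y)]
  have hs1 : s ≤ 1 := by nlinarith
  have hP0 : 0 ≤ P := le_trans (sq_nonneg s) hsP
  set X := x * (5 / 9) + 1 / 2 with hX
  set Y := y * (5 / 9) + 1 / 2 with hY
  set Q := p * (50 / 41) + 1 / 2 with hQ
  have hu : Check6.InUnit [s, P, X, Y, Q] := by
    simp only [Check6.InUnit, List.forall_mem_cons, Set.mem_Icc]
    refine ⟨⟨hs, hs1⟩, ⟨hP0, hP⟩, ⟨?_, ?_⟩, ⟨?_, ?_⟩, ⟨?_, ?_⟩, by simp⟩ <;> nlinarith
  have key := Check6.checkUnit_sound weight_check (xs := [s, P, X, Y, Q]) rfl hu (by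
    simp [weightG, weightG0, weightG1, weightG2, weightG3, weightG4, weightG5, weightG6, weightG7, weightG8, weightG9, Check6.evalM, Check6.hor, Check6.size, hX, hY, hQ]
    linear_combination (24410000 : ℝ) * hd)
  simp [weightF, weightF0, weightF1, weightF2, weightF3, weightF4, weightF5, weightF6, weightF7, weightF8, weightF9, Check6.evalM, Check6.hor, Check6.size, hX, hY, hQ] at key
  have e : weightCube x y p =
      x ^ 3 + y ^ 3 - (x + y) ^ 3 / 9 - (x + y) * (1 - (x ^ 2 + y ^ 2 + (x + y) ^ 2 / 3)) -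
        p * (1 - (x ^ 2 + y ^ 2 + (x + y) ^ 2 / 3)) := by
    rw [weightCube]; linear_combination -p * hd
  rw [e]
  simp [weightForm, valsAt, Coefs.map, Aff.fn, vec6, vec6Z, poly6, mons6, marg6]
  linear_combination (1 / 25000000000 : ℝ) * key

end

end Vale.Agent.P098.Cert6
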