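import Vale.Agent.P098.Cert6.Assemble
import Vale.Agent.P098.Cert6.Boundary
import Vale.Agent.P098.Cert6.WeightProof

/-!
P098, dimension six: the certificate of the vector from its interior form at the configurations
with a repeated value.
-/

namespace Vale.Agent.P098.Cert6

noncomputable section

/-- All parts except the interior form at the configurations with a repeated value. -/
theorem certificate_vec6_of_edge
    (hedge : ∀ μ a b d : ℝ, μ + 2 * a + b + d = 0 →
      μ ^ 2 + 2 * a ^ 2 + b ^ 2 + d ^ 2 = 1 →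
      ∀ va vb vd s q R y : ℝ, 0 ≤ s → 0 ≤ q → s ^ 2 + q ^ 2 ≤ 1 → 0 < R →
        form (jetsAt (vec6.map Aff.fn) (edgeEig μ a b d) s (s ^ 2 + q ^ 2)) (edgeEig μ a b d) 0
            ![-(2 * va + vb + vd), va, va, vb, vd] s q 1 R y +
          marg6 * ((∑ i, (![-(2 * va + vb + vd), va, va, vb, vd] : Fin 5 → ℝ) i ^ 2) + y ^ 2 + 1)
            ≤ 0) :
    Certificate 5 fields (vec6.map Aff.fn) marg6 :=
  certificate_of_parts marg6_pos vec6_smooth_G vec6_smooth_A vec6_smooth_X vec6_smooth_C
    vec6_C_four g_vec6 triple_vec6 edge_vec6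
    (fun l hl h2 s P hs hsP hP c i h => weight_of_poly weight_vec6 l hl h2 s P hs hsP hP c i h)
    (fun l hl h2 s P hs hsP hP e => sign_of_poly sign_vec6 l hl h2 s P hs hsP hP e) hedge

end

end Vale.Agent.P098.Cert6
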