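import Vale.Agent.P098.Cert6.RootState
import Vale.Agent.P098.Cert6.Interior

/-!
P098, dimension six: the packed states at the roots of the two charts, and the interior inequality
from checked trees on them.
-/

namespace Vale.Agent.P098.Cert6

open Check6 Kron

noncomputable section

/-- The upper triangle row by row. -/
def upper : List (Fin 6 × Fin 6) :=
  (List.finRange 6).flatMap fun i => ((List.finRange 6).filter fun j => i ≤ j).map fun j => (i, j)

/-- The state at the root of a chart: the packed numerators and the faces. -/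
def rootSt (R : RootPar) (ε : ℤ) (fs : List Face) : St :=
  ⟨upper.map fun ij => rootY R Interior.tensorDeg
    (Interior.numer Interior.vecData Interior.marg6Z ε ij.1 ij.2), 1, fs⟩

/-- The root test of one entry, with its vanishing on the faces of its two rows. -/
def entryOK (R : RootPar) (ε : ℤ) (fs : List Face) (i j : Fin 6) : Bool :=
  let e := Interior.numer Interior.vecData Interior.marg6Z ε i j
  rootOK R Interior.tensorDeg e && fs.all fun F =>
    (!(F.rows.get i || F.rows.get j)) || (Nat.blt F.axis 4 && rootFace R Interior.tensorDeg e F.axis F.top)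

/-- The root tests of both charts. -/
def rootsOK (R : RootPar) (fs : List Face) : Bool :=
  [1, -1].all fun ε => upper.all fun ij => entryOK R ε fs ij.1 ij.2

lemma getD_upper : ∀ i j : Fin 6, upper.getD (tri i j) (0, 0) = (min i j, max i j) ∧
    tri i j < upper.length := by decide

/-- The interior inequality at a repeated value from good roots. -/
theorem hedge_of_good {R : RootPar} (hpar : parOK R Interior.tensorDeg = true) (fs : List Face)
    (hall : rootsOK R fs = true)
    (hgood : ∀ ε : ℤ, (ε = 1 ∨ ε = -1) → Good (rootCfg R) (rootSt R ε fs)) :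
    ∀ μ a b d : ℝ, μ + 2 * a + b + d = 0 → μ ^ 2 + 2 * a ^ 2 + b ^ 2 + d ^ 2 = 1 →
      ∀ va vb vd s q R y : ℝ, 0 ≤ s → 0 ≤ q → s ^ 2 + q ^ 2 ≤ 1 → 0 < R →
        form (jetsAt (vec6.map Aff.fn) (edgeEig μ a b d) s (s ^ 2 + q ^ 2)) (edgeEig μ a b d) 0
            ![-(2 * va + vb + vd), va, va, vb, vd] s q 1 R y +
          marg6 * ((∑ i, (![-(2 * va + vb + vd), va, va, vb, vd] : Fin 5 → ℝ) i ^ 2) + y ^ 2 + 1) ≤
            0 := by
  classical
  have hok : ∀ ε : ℤ, (ε = 1 ∨ ε = -1) → ∀ i j : Fin 6, i ≤ j → entryOK R ε fs i j = true := by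
    intro ε hε i j hij
    simp only [rootsOK, List.all_eq_true] at hall
    exact hall ε (by rcases hε with rfl | rfl <;> simp) (i, j) (by simp [upper, hij])
  have hκ : 0 < R.kappa := by
    have hm : 1 ≤ R.mult := by
      simp only [parOK, Bool.and_eq_true, Nat.ble_eq] at hpar
      tauto
    have : (0 : ℝ) < R.mult := Nat.cast_pos.2 hm
    unfold RootPar.kappa
    positivity
  have hroot : ∀ ε : ℤ, (ε = 1 ∨ ε = -1) → ∃ b : Fin 6 → Fin 6 → List ℕ → ℝ,
      Repr (rootCfg R) (rootSt R ε fs) b ∧ ∀ p : Fin 4 → ℝ, ∀ i j, i ≤ j →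
        evalB (degs Interior.tensorDeg) [p 0, p 1, p 2, p 3] (b i j) =
          R.kappa * evalR p (Interior.numer Interior.vecData Interior.marg6Z ε i j) := by
    intro ε hε
    have hu : ∀ i j : Fin 6, min i j ≤ max i j := fun i j => min_le_max
    have hok' := fun i j : Fin 6 => by
      have := hok ε hε _ _ (hu i j)
      simp only [entryOK, Bool.and_eq_true] at this
      exact this
    choose b hb1 hb2 hb3 using fun i j : Fin 6 => root_rep hpar (hok' i j).1
    refine ⟨fun i j => b (min i j) (max i j), ⟨fun i j r => by rw [min_comm, max_comm],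
      fun i j => ?_, fun F hF i hi j r hr hon => ?_⟩, fun p i j hij => ?_⟩
    · obtain ⟨e, hl⟩ := getD_upper i j
      rw [List.getD_eq_getElem _ _ hl] at e
      simp only [rootSt, rootCfg]
      rw [List.getD_eq_getElem _ _ (by simpa using hl), List.getElem_map, e]
      convert hb1 (min i j) (max i j) using 2; simp
    · obtain ⟨-, hall⟩ := hok' i j
      have h := List.all_eq_true.1 hall F hF
      simp only [rootCfg] at hr hon
      rcases le_total i j with hij | hij
      · simp only [min_eq_left hij, max_eq_right hij, hi, Bool.true_or, Bool.not_true,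
          Bool.false_or, Bool.and_eq_true, Nat.blt_eq] at h ⊢
        simpa [hij] using hb3 i j F.axis F.top h.1 (by simpa [hij] using h.2) r hr hon
      · simp only [min_eq_right hij, max_eq_left hij, hi, Bool.or_true, Bool.not_true,
          Bool.false_or, Bool.and_eq_true, Nat.blt_eq] at h ⊢
        simpa [hij] using hb3 j i F.axis F.top h.1 (by simpa [hij] using h.2) r hr hon
    · simp only [min_eq_left hij, max_eq_right hij]
      simpa [hij] using hb2 i j p
  choose b hb he using hroot
  refine hedge_of_tensors hκ (fun ε xs i j =>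
    if h : ε = 1 ∨ ε = -1 then evalB (degs Interior.tensorDeg) xs (b ε h i j) else 0) ?_ ?_
  · intro ε hε z i j hij
    simp only [dif_pos hε]
    exact ⟨he ε hε z i j hij, congrArg _ (funext fun r => ((hb ε hε).symm i j r).symm)⟩
  · intro ε hε xs hl hxs x h4 h5
    simp only [dif_pos hε]
    exact hgood ε hε _ (hb ε hε) xs (by simpa [rootCfg, degs] using hl) hxs x h4 h5

end

end Vale.Agent.P098.Cert6
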