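import Vale.Agent.P098.Cert6.Kron
import Vale.Agent.P098.Check6.ScalarMult

/-!
P098, dimension six: the packed tensor at the root.  The value of a bihomogeneous expression at a
Kronecker point holds the scaled Bernstein coefficients in wide lanes; masks multiply them by
`L / C(d, i)` along the axes, one shift divides by `2 ^ sh`, and the lanes are narrowed pairwise.
-/

namespace Vale.Agent.P098.Cert6.Kron

open Check6

/-! ### Lemmas on lanes and tensor forms -/

lemma pk_cast (k : ℕ) : ∀ (n : ℕ) (f : ℕ → ℕ),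
    ((pk k n f : ℕ) : ℤ) = ∑ o ∈ Finset.range n, (f o : ℤ) * (2 ^ k) ^ o
  | 0, _ => by simp [pk]
  | n + 1, f => by
    rw [pk, Finset.sum_range_succ']
    push_cast
    rw [pk_cast k n, Finset.mul_sum]
    simp only [pow_zero, mul_one, pow_succ]
    rw [add_comm]
    congr 1
    exact Finset.sum_congr rfl fun o _ => by ring

lemma sum_range_mul {M : Type*} [AddCommMonoid M] (g : ℕ → M) (b : ℕ) : ∀ a : ℕ,
    ∑ o ∈ Finset.range (a * b), g o = ∑ i ∈ Finset.range a, ∑ j ∈ Finset.range b, g (i * b + j)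
  | 0 => by simp
  | a + 1 => by rw [add_one_mul, Finset.sum_range_add, sum_range_mul g b a, Finset.sum_range_succ]

lemma pk_const {k : ℕ} (hk : 0 < k) (v n : ℕ) : pk k n (fun _ => v) = v * rep k 1 n := by
  have h := pk_repeat (k := k) (P := 1) (by omega) (fun _ => v) n
  rw [mul_one] at h
  rw [h]
  simp [pk]

lemma dc_eq_sum (u t : ℝ) : ∀ (n : ℕ) (b : ℕ → ℝ) (i : ℕ), dc u t n b i =
    ∑ j ∈ Finset.range (n + 1), (n.choose j : ℝ) * (t ^ j * u ^ (n - j) * b (i + j))
  | 0, b, i => by simp [dc]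
  | n + 1, b, i => by
    rw [Finset.sum_choose_succ_mul (fun a c => t ^ a * u ^ c * b (i + a)) n, dc,
      dc_eq_sum u t n b i, dc_eq_sum u t n b (i + 1), Finset.mul_sum, Finset.mul_sum]
    congr 1
    · refine Finset.sum_congr rfl fun j hj => ?_
      have := Finset.mem_range.1 hj
      rw [show n + 1 - j = (n - j) + 1 by omega, pow_succ]
      ring
    · refine Finset.sum_congr rfl fun j _ => ?_
      rw [show i + 1 + j = i + (j + 1) by omega, pow_succ]
      ring

/-! ### Scaling along an axis -/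

/-- Keep the lanes with index `i` along an axis. -/
def keep (W q S d Y i : ℕ) : ℕ :=
  (Y &&& highMask W ((d + 1) * S) q (i * S)) &&& lowMask W ((d + 1) * S) q ((i + 1) * S)

/-- Multiply the lanes with index `i < m` along an axis by `fac i`. -/
def axisScale (W q S d : ℕ) (fac : ℕ → ℕ) (Y : ℕ) : ℕ → ℕ
  | 0 => 0
  | m + 1 => axisScale W q S d fac Y m + fac m * keep W q S d Y m

lemma keep_eq {W n q S d i : ℕ} (hW : 0 < W) (hS : 0 < S) (hn : n = q * ((d + 1) * S)) (hi : i ≤ d)
    {f : ℕ → ℕ} (hf : ∀ o < n, f o < 2 ^ W) :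
    keep W q S d (pk W n f) i = pk W n fun o => if axisIdx S d o = i then f o else 0 := by
  subst hn
  obtain ⟨-, e1⟩ := maskOf_axis (k := W) (S := S) (d := d) (m := i) hW hS (by omega) q
    (lt := fun o => decide (axisIdx S d o < i)) (ge := fun o => decide (i ≤ axisIdx S d o))
    (fun o => by simp) (fun o => by simp)
  obtain ⟨e2, -⟩ := maskOf_axis (k := W) (S := S) (d := d) (m := i + 1) hW hS (by omega) q
    (lt := fun o => decide (axisIdx S d o < i + 1)) (ge := fun o => decide (i + 1 ≤ axisIdx S d o))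
    (fun o => by simp) (fun o => by simp)
  rw [keep, ← e1, ← e2, pk_land_maskOf hf, pk_land_maskOf fun o ho => ?_]
  · refine pk_congr _ _ fun o _ => ?_
    simp only [decide_eq_true_eq]
    split_ifs <;> omega
  · split
    · exact hf o ho
    · exact Nat.two_pow_pos W

lemma axisScale_eq {W n q S d : ℕ} (hW : 0 < W) (hS : 0 < S) (hn : n = q * ((d + 1) * S))
    (fac : ℕ → ℕ) {f : ℕ → ℕ} (hf : ∀ o < n, f o < 2 ^ W) : ∀ m ≤ d + 1,
    axisScale W q S d fac (pk W n f) m =
      pk W n fun o => if axisIdx S d o < m then fac (axisIdx S d o) * f o else 0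
  | 0, _ => by simp [axisScale, pk_zero]
  | m + 1, hm => by
    rw [axisScale, axisScale_eq hW hS hn fac hf m (by omega), keep_eq hW hS hn (by omega) hf,
      mul_pk, pk_add]
    refine pk_congr _ _ fun o _ => ?_
    rcases lt_trichotomy (axisIdx S d o) m with h | h | h
    · simp [h, h.ne, show axisIdx S d o < m + 1 by omega]
    · simp [h]
    · simp [h.not_gt, h.ne', show ¬ axisIdx S d o < m + 1 by omega]

/-! ### Narrowing -/

/-- One round: the two parts of each pair of lanes move together. -/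
def narrowStep (A a M Y : ℕ) : ℕ :=
  let E := Y &&& lowMask A 2 M 1
  E + ((Y - E) >>> (A - a))

/-- From `2 ^ s` lanes of `A` bits to lanes of `a` bits. -/
def narrow : ℕ → ℕ → ℕ → ℕ → ℕ
  | 0, _, _, Y => Y
  | s + 1, A, a, Y => narrow s (2 * A) (2 * a) (narrowStep A a (2 ^ s) Y)

lemma pk_pairs (a : ℕ) : ∀ (M : ℕ) (g : ℕ → ℕ),
    pk a (2 * M) g = pk (2 * a) M fun o => g (2 * o) + 2 ^ a * g (2 * o + 1)
  | 0, _ => rfl
  | M + 1, g => by
    have e := pk_pairs a M fun o => g (o + 1 + 1)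
    rw [show 2 * (M + 1) = 2 * M + 1 + 1 by omega, pk, pk, pk, e, two_mul a, Nat.pow_add,
      pk_congr (a + a) M (f := fun o => g (2 * o + 1 + 1) + 2 ^ a * g (2 * o + 1 + 1 + 1))
        (g := fun o => g (2 * (o + 1)) + 2 ^ a * g (2 * (o + 1) + 1)) fun o _ => by
          simp only [show 2 * (o + 1) = 2 * o + 1 + 1 by omega]]
    ring

lemma narrowStep_eq {A a M : ℕ} (hA : 0 < A) (ha : a ≤ A) {g : ℕ → ℕ}
    (hg : ∀ o < 2 * M, g o < 2 ^ A) : narrowStep A a M (pk A (2 * M) g) =
      pk (2 * A) M fun o => g (2 * o) + 2 ^ a * g (2 * o + 1) := by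
  obtain ⟨hlow, -⟩ := maskOf_low (k := A) (P := 2) (m := 1) (by omega) (by omega) M
  have hE : pk A (2 * M) g &&& lowMask A 2 M 1 = pk (2 * A) M fun o => g (2 * o) := by
    rw [← hlow, mul_comm M 2, pk_land_maskOf hg, pk_pairs]
    refine pk_congr _ _ fun o _ => ?_
    simp [Nat.add_mod]
  have hY : pk A (2 * M) g =
      pk (2 * A) M (fun o => g (2 * o)) + 2 ^ A * pk (2 * A) M (fun o => g (2 * o + 1)) := by
    rw [pk_pairs, mul_pk, pk_add]
  rw [narrowStep, hE, hY, Nat.add_sub_cancel_left, Nat.shiftRight_eq_div_pow,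
    show (2 : ℕ) ^ A = 2 ^ (A - a) * 2 ^ a by rw [← Nat.pow_add, Nat.sub_add_cancel ha], mul_assoc,
    Nat.mul_div_cancel_left _ (Nat.two_pow_pos _), mul_pk, pk_add]

lemma narrow_eq : ∀ (s : ℕ) {A a : ℕ}, 0 < A → a ≤ A → ∀ {g : ℕ → ℕ},
    (∀ o < 2 ^ s, g o < 2 ^ a) → narrow s A a (pk A (2 ^ s) g) = pk a (2 ^ s) g
  | 0, A, a, _, _, g, _ => by simp [narrow, pk]
  | s + 1, A, a, hA, ha, g, hg => by
    have h2 : 2 ^ (s + 1) = 2 * 2 ^ s := by rw [pow_succ, mul_comm]
    have hle : 2 ^ a ≤ 2 ^ A := Nat.pow_le_pow_right two_pos ha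
    rw [h2] at hg ⊢
    rw [narrow, narrowStep_eq hA ha fun o ho => (hg o ho).trans_le hle,
      narrow_eq s (by omega) (by omega) fun o ho => ?_, ← pk_pairs]
    have h0 := hg (2 * o) (by omega)
    have h1 := hg (2 * o + 1) (by omega)
    rw [two_mul a, Nat.pow_add]
    calc g (2 * o) + 2 ^ a * g (2 * o + 1) < 2 ^ a * (g (2 * o + 1) + 1) := by
          rw [mul_add, mul_one]; omega
      _ ≤ 2 ^ a * 2 ^ a := Nat.mul_le_mul_left _ h1

/-! ### The root -/

/-- The degrees as a list. -/
def degs (d : Deg) : List ℕ := [d.1, d.2.1, d.2.2.1, d.2.2.2]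

/-- The parameters: wide and narrow lanes, rounds of narrowing, the shift, a bound on the digits,
the offset, and one multiple of the binomials for each axis. -/
structure RootPar where
  W : ℕ
  k : ℕ
  s : ℕ
  sh : ℕ
  O : ℕ
  C : ℕ
  L : Deg

/-- The product of the multiples. -/
def RootPar.mult (R : RootPar) : ℕ := R.L.1 * R.L.2.1 * R.L.2.2.1 * R.L.2.2.2

/-- The Kronecker point. -/
def kronPoint (W : ℕ) (d : Deg) (i : Fin 4) : ℤ := 2 ^ (W * stride (degs d) i)

/-- The value at the Kronecker point, offset by `O` in each lane. -/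
def rootWide (R : RootPar) (d : Deg) (e : Poly) : ℕ :=
  (evalInt (kronPoint R.W d) e + ((R.O * rep R.W 1 (size (degs d)) : ℕ) : ℤ)).toNat

/-- Scaling along axis `a`. -/
def scaleAt (R : RootPar) (d : Deg) (a : ℕ) (Y : ℕ) : ℕ :=
  axisScale R.W (periods (degs d) a) (stride (degs d) a) ((degs d).getD a 0)
    (fun i => [R.L.1, R.L.2.1, R.L.2.2.1, R.L.2.2.2].getD a 0 / ((degs d).getD a 0).choose i) Y
    ((degs d).getD a 0 + 1)

/-- Scaling along all axes. -/
def scaleAll (R : RootPar) (d : Deg) (Y : ℕ) : ℕ :=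
  scaleAt R d 3 (scaleAt R d 2 (scaleAt R d 1 (scaleAt R d 0 Y)))

/-- The lanes of the scaled digits, offset by `O * mult`. -/
def rootScaled (R : RootPar) (d : Deg) (e : Poly) : ℕ :=
  let ones := rep R.W 1 (size (degs d))
  scaleAll R d (rootWide R d e) + (R.O * R.mult * ones - scaleAll R d (R.O * ones))

/-- The excess of the wide offset over the narrow one. -/
def RootPar.excess (R : RootPar) : ℕ := R.O * R.mult - R.C * 2 ^ R.sh

/-- The packed root tensor. -/
def rootY (R : RootPar) (d : Deg) (e : Poly) : ℕ :=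
  narrow R.s R.W R.k
    (((rootScaled R d e - R.excess * rep R.W 1 (size (degs d))) >>> R.sh) &&&
        divFast R.W (size (degs d)) R.sh)

/-- The scaled digits fit between the narrow offsets. -/
def rangeOK (R : RootPar) (d : Deg) (e : Poly) : Bool :=
  let X := rootScaled R d e
  laneTest R.W (size (degs d)) R.excess X &&
    laneTest R.W (size (degs d)) R.excess (2 * (R.O * R.mult) * rep R.W 1 (size (degs d)) - X)

/-- All binomials of degree `n` divide `L`. -/
def chooseOK (L n : ℕ) : Bool := (List.range (n + 1)).all fun i => Nat.beq (L % n.choose i) 0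

/-- The conditions on the parameters. -/
def parOK (R : RootPar) (d : Deg) : Bool :=
  Nat.ble 1 R.k && Nat.ble R.k R.W && Nat.ble R.sh R.W &&
    Nat.ble (2 * (R.O * R.mult) + 1) (2 ^ (R.W - 1)) && Nat.ble (R.C * 2 ^ R.sh) (R.O * R.mult) &&
    Nat.ble (2 * R.C + 1) (2 ^ R.k) && Nat.ble (size (degs d)) (2 ^ R.s) && Nat.ble 1 R.mult &&
    chooseOK R.L.1 d.1 && chooseOK R.L.2.1 d.2.1 && chooseOK R.L.2.2.1 d.2.2.1 &&
    chooseOK R.L.2.2.2 d.2.2.2

/-- The conditions on an expression. -/
def rootOK (R : RootPar) (d : Deg) (e : Poly) : Bool :=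
  decide (deg? e = some d) && Nat.ble (bound e) R.O && rangeOK R d e

/-- The digits vanish on a face. -/
def rootFace (R : RootPar) (d : Deg) (e : Poly) (a : ℕ) (top : Bool) : Bool :=
  let i := if top then (degs d).getD a 0 else 0
  Nat.beq
    (keep R.W (periods (degs d) a) (stride (degs d) a) ((degs d).getD a 0) (rootWide R d e) i)
    (keep R.W (periods (degs d) a) (stride (degs d) a) ((degs d).getD a 0)
      (R.O * rep R.W 1 (size (degs d))) i)

/-- The exponents of a lane. -/
def unflat (d : Deg) (o : ℕ) : Deg :=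
  (axisIdx (stride (degs d) 0) d.1 o, axisIdx (stride (degs d) 1) d.2.1 o,
    axisIdx (stride (degs d) 2) d.2.2.1 o, axisIdx (stride (degs d) 3) d.2.2.2 o)

/-- The product of the factors in a lane. -/
def laneFac (R : RootPar) (d : Deg) (o : ℕ) : ℕ :=
  R.L.1 / d.1.choose (unflat d o).1 * (R.L.2.1 / d.2.1.choose (unflat d o).2.1) *
    (R.L.2.2.1 / d.2.2.1.choose (unflat d o).2.2.1) *
    (R.L.2.2.2 / d.2.2.2.choose (unflat d o).2.2.2)

lemma unflat_flat {d : Deg} {r : List ℕ} (h : InRange (degs d) r) :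
    unflat d (flat (degs d) r) = (r.getD 0 0, r.getD 1 0, r.getD 2 0, r.getD 3 0) := by
  have e0 := axisIdx_flat (a := 0) h (by simp [degs])
  have e1 := axisIdx_flat (a := 1) h (by simp [degs])
  have e2 := axisIdx_flat (a := 2) h (by simp [degs])
  have e3 := axisIdx_flat (a := 3) h (by simp [degs])
  simp only [unflat]
  refine Prod.ext e0 (Prod.ext e1 (Prod.ext e2 e3))

lemma inRange_degs {d : Deg} {i j l m : ℕ} (hi : i ≤ d.1) (hj : j ≤ d.2.1) (hl : l ≤ d.2.2.1)
    (hm : m ≤ d.2.2.2) : InRange (degs d) [i, j, l, m] :=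
  ⟨i, _, rfl, hi, j, _, rfl, hj, l, _, rfl, hl, m, _, rfl, hm, rfl⟩

/-- The Kronecker value is the sum over the lanes. -/
lemma sum_monZ (W : ℕ) (d : Deg) (c : Deg → ℤ) :
    ∑ t ∈ grid d, c t * monZ (kronPoint W d) t =
      ∑ o ∈ Finset.range (size (degs d)), c (unflat d o) * (2 ^ W) ^ o := by
  simp only [degs, size, sum_range_mul, grid, Finset.sum_product, mul_one]
  refine Finset.sum_congr rfl fun i hi => Finset.sum_congr rfl fun j hj =>
    Finset.sum_congr rfl fun l hl => Finset.sum_congr rfl fun m hm => ?_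
  simp only [Finset.mem_range, Nat.lt_succ_iff] at hi hj hl hm
  have h := unflat_flat (inRange_degs hi hj hl hm)
  simp only [degs, flat, size, mul_one, add_zero, List.getD_cons_zero, List.getD_cons_succ] at h
  simp only [← add_assoc] at h ⊢
  rw [h]
  simp only [monZ, kronPoint, stride, degs, ← pow_mul, ← pow_add]
  congr 2
  simp [size]
  ring

lemma chooseOK_dvd {L n i : ℕ} (h : chooseOK L n = true) (hi : i ≤ n) : n.choose i ∣ L :=
  Nat.dvd_of_mod_eq_zero (Nat.eq_of_beq_eq_true
    (List.all_eq_true.1 h i (List.mem_range.2 (by omega))))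

lemma laneFac_le (R : RootPar) (d : Deg) (o : ℕ) : laneFac R d o ≤ R.mult :=
  Nat.mul_le_mul (Nat.mul_le_mul (Nat.mul_le_mul (Nat.div_le_self _ _) (Nat.div_le_self _ _))
    (Nat.div_le_self _ _)) (Nat.div_le_self _ _)

lemma scaleAll_eq {R : RootPar} {d : Deg} (hW : 0 < R.W)
    (hB : 2 * (R.O * R.mult) < 2 ^ R.W) (hm : 0 < R.mult) {f : ℕ → ℕ}
    (hf : ∀ o < size (degs d), f o ≤ 2 * R.O) :
    scaleAll R d (pk R.W (size (degs d)) f) =
      pk R.W (size (degs d)) fun o => laneFac R d o * f o := by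
  obtain ⟨⟨⟨h1, h2⟩, h3⟩, h4⟩ : ((1 ≤ R.L.1 ∧ 1 ≤ R.L.2.1) ∧ 1 ≤ R.L.2.2.1) ∧ 1 ≤ R.L.2.2.2 := by
    simpa [RootPar.mult, Nat.one_le_iff_ne_zero, Nat.pos_iff_ne_zero] using hm
  have step : ∀ (a : ℕ), a < 4 → ∀ {g : ℕ → ℕ}, (∀ o < size (degs d), g o < 2 ^ R.W) →
      scaleAt R d a (pk R.W (size (degs d)) g) = pk R.W (size (degs d)) fun o =>
        [R.L.1, R.L.2.1, R.L.2.2.1, R.L.2.2.2].getD a 0 / ((degs d).getD a 0).choose
          (axisIdx (stride (degs d) a) ((degs d).getD a 0) o) * g o := fun a ha g hg => by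
    rw [scaleAt, axisScale_eq hW (show 0 < stride (degs d) a from size_pos _) (size_split (by simpa [degs] using ha)) _ hg _ le_rfl]
    exact pk_congr _ _ fun o _ => if_pos (Nat.lt_succ_of_le (axisIdx_le _ _ _))
  have le : ∀ {x : ℕ} {o : ℕ}, o < size (degs d) → x ≤ R.mult → x * f o < 2 ^ R.W :=
    fun {x o} ho hx => lt_of_le_of_lt ((Nat.mul_le_mul hx (hf o ho)).trans_eq (by ring)) hB
  rw [scaleAll, step 0 (by omega) fun o ho => by simpa using le ho (x := 1) hm,
    step 1 (by omega), step 2 (by omega), step 3 (by omega)]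
  · refine pk_congr _ _ fun o _ => ?_
    simp only [laneFac, unflat, degs, List.getD_cons_zero, List.getD_cons_succ]
    ring
  all_goals intro o ho
  all_goals simp only [degs, List.getD_cons_zero, List.getD_cons_succ, ← mul_assoc]
  all_goals refine le ho ?_
  all_goals simp only [RootPar.mult]
  · calc _ ≤ R.L.2.2.1 * R.L.2.1 * R.L.1 := by gcongr <;> exact Nat.div_le_self _ _
      _ ≤ R.L.2.2.1 * R.L.2.1 * R.L.1 * R.L.2.2.2 := Nat.le_mul_of_pos_right _ h4
      _ = _ := by ring
  · calc _ ≤ R.L.2.1 * R.L.1 := by gcongr <;> exact Nat.div_le_self _ _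
      _ ≤ R.L.2.1 * R.L.1 * (R.L.2.2.1 * R.L.2.2.2) :=
        Nat.le_mul_of_pos_right _ (Nat.mul_pos h3 h4)
      _ = _ := by ring
  · calc _ ≤ R.L.1 := Nat.div_le_self _ _
      _ ≤ R.L.1 * (R.L.2.1 * R.L.2.2.1 * R.L.2.2.2) :=
        Nat.le_mul_of_pos_right _ (Nat.mul_pos (Nat.mul_pos h2 h3) h4)
      _ = _ := by ring

noncomputable section

/-- The coefficients the root stands for, as a multiple of the value. -/
def RootPar.kappa (R : RootPar) : ℝ := R.mult / 2 ^ R.sh

/-- The root of an expression: represented with error one, and vanishing on the checked faces. -/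
theorem root_rep {R : RootPar} {d : Deg} {e : Poly} (hpar : parOK R d = true)
    (hok : rootOK R d e = true) :
    ∃ b : List ℕ → ℝ, Rep R.k R.C 1 (degs d) (rootY R d e) b ∧
      (∀ p : Fin 4 → ℝ, evalB (degs d) [p 0, p 1, p 2, p 3] b = R.kappa * evalR p e) ∧
      ∀ a top, a < 4 → rootFace R d e a top = true →
        ∀ r, InRange (degs d) r → OnFace (degs d) a top r → b r = 0 := by
  simp only [parOK, Bool.and_eq_true, Nat.ble_eq] at hpar
  obtain ⟨⟨⟨⟨⟨⟨⟨⟨⟨⟨⟨hk1, hkW⟩, hshW⟩, hW2⟩, hC⟩, hCk⟩, hs⟩, hm⟩, c0⟩, c1⟩, c2⟩, c3⟩ := hpar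
  obtain ⟨D, hCD⟩ : ∃ D, R.O * R.mult = R.C * 2 ^ R.sh + D := Nat.exists_eq_add_of_le hC
  have hD : R.excess = D := by rw [RootPar.excess, hCD, Nat.add_sub_cancel_left]
  simp only [rootOK, Bool.and_eq_true, decide_eq_true_eq, Nat.ble_eq] at hok
  obtain ⟨⟨hdeg, hbd⟩, hrange⟩ := hok
  obtain ⟨c, hc, hZ, hR⟩ := exists_coeff hdeg
  set n := size (degs d) with hn
  have hW : 0 < R.W := by omega
  set g : ℕ → ℕ := fun o => (c (unflat d o) + R.O).toNat with hg
  have hcO : ∀ t, -(R.O : ℤ) ≤ c t ∧ c t ≤ R.O := fun t => by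
    have := (hc t).trans hbd
    omega
  have hgz : ∀ o, (g o : ℤ) = c (unflat d o) + R.O := fun o =>
    Int.toNat_of_nonneg (by linarith [(hcO (unflat d o)).1])
  have hg2 : ∀ o, g o ≤ 2 * R.O := fun o => by
    have := (hcO (unflat d o)).2
    have := hgz o
    omega
  have hW2' : 2 ^ (R.W - 1) ≤ 2 ^ R.W := Nat.pow_le_pow_right two_pos (Nat.sub_le _ _)
  have h2O : 2 * R.O < 2 ^ R.W := by
    have : R.O ≤ R.O * R.mult := Nat.le_mul_of_pos_right _ hm
    omega
  have hones : R.O * rep R.W 1 n = pk R.W n fun _ => R.O := (pk_const hW _ _).symm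
  have hwide : rootWide R d e = pk R.W n g := by
    rw [rootWide, ← hn, hones, ← Int.toNat_natCast (pk R.W n g)]
    congr 1
    rw [hZ, sum_monZ, ← hn, pk_cast, pk_cast, ← Finset.sum_add_distrib]
    exact Finset.sum_congr rfl fun o _ => by rw [hgz]; ring
  set F := laneFac R d with hF
  set v : ℕ → ℕ := fun o => F o * g o + R.O * (R.mult - F o) with hv
  have hvz : ∀ o, (v o : ℤ) = F o * c (unflat d o) + R.O * R.mult := fun o => by
    simp only [v]
    push_cast
    rw [Nat.cast_sub (show F o ≤ R.mult from laneFac_le R d o), hgz]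
    ring
  have hv2 : ∀ o, v o ≤ 2 * (R.O * R.mult) := fun o => by
    obtain ⟨x, hx⟩ := Nat.exists_eq_add_of_le (laneFac_le R d o)
    calc v o ≤ F o * (2 * R.O) + R.O * (R.mult - F o) :=
          Nat.add_le_add_right (Nat.mul_le_mul_left _ (hg2 o)) _
      _ ≤ _ := by simp only [hF, hx, Nat.add_sub_cancel_left]; nlinarith
  have hvW : ∀ o < n, v o < 2 ^ R.W := fun o _ => (hv2 o).trans_lt (by omega)
  have hscaled : rootScaled R d e = pk R.W n v := by
    rw [rootScaled, ← hn, hwide, hones, scaleAll_eq hW (by omega) hm fun o _ => hg2 o,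
      scaleAll_eq hW (by omega) hm (f := fun _ => R.O) fun o _ => by omega, ← pk_const hW,
      show pk R.W n (fun _ => R.O * R.mult) = pk R.W n (fun o => F o * R.O) +
        pk R.W n (fun o => R.O * (R.mult - F o)) by
          rw [pk_add]
          refine pk_congr _ _ fun o _ => ?_
          rw [mul_comm (F o), ← mul_add, Nat.add_sub_cancel' (laneFac_le R d o)],
      Nat.add_sub_cancel_left, pk_add]
  have hsub : ∀ {u w : ℕ → ℕ}, (∀ o < n, w o ≤ u o) →
      pk R.W n u - pk R.W n w = pk R.W n fun o => u o - w o := fun {u w} h => by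
    rw [show pk R.W n u = pk R.W n (fun o => u o - w o) + pk R.W n w by
      rw [pk_add]
      exact pk_congr _ _ fun o ho => (Nat.sub_add_cancel (h o ho)).symm, Nat.add_sub_cancel]
  simp only [rangeOK, Bool.and_eq_true, ← hn, hscaled, hD] at hrange
  have hlo : ∀ o < n, D ≤ v o :=
    laneTest_sound hW (fun o _ => (hv2 o).trans_lt (by omega)) hrange.1
  have hhi : ∀ o < n, D ≤ 2 * (R.O * R.mult) - v o := by
    have h := hrange.2
    rw [← pk_const hW, hsub fun o _ => hv2 o] at h
    exact laneTest_sound hW (fun o _ => by omega) h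
  set f : ℕ → ℕ := fun o => (v o - D) / 2 ^ R.sh with hfdef
  have hf2 : ∀ o < n, f o ≤ 2 * R.C := fun o ho => by
    refine (Nat.div_le_div_right (c := 2 ^ R.sh) (show v o - D ≤ 2 * (R.C * 2 ^ R.sh) by
      have := hhi o ho
      have := hv2 o
      omega)).trans_eq ?_
    rw [← mul_assoc, Nat.mul_div_cancel _ (Nat.two_pow_pos _)]
  have hYeq : rootY R d e = pk R.k n f := by
    simp only [rootY]
    rw [← hn, hscaled, hD, ← pk_const hW, hsub hlo, ← divMask_eq hW, divMask,
      pk_div hshW fun o ho => (Nat.sub_le _ _).trans_lt (hvW o ho)]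
    set f' : ℕ → ℕ := fun o => if o < n then f o else 0
    have ext : ∀ k, pk k n f = pk k (2 ^ R.s) f' := fun k => by
      obtain ⟨x, hx⟩ := Nat.exists_eq_add_of_le (show n ≤ 2 ^ R.s from hs)
      rw [hx, pk_append, pk_congr k x (g := fun _ => 0) fun o _ => if_neg (by omega), pk_zero,
        mul_zero, add_zero]
      exact pk_congr k n fun o ho => (if_pos ho).symm
    rw [ext, ext, narrow_eq R.s hW hkW fun o _ => ?_]
    simp only [f']
    split
    · rename_i h
      exact (hf2 o h).trans_lt (by omega)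
    · exact Nat.two_pow_pos _
  refine ⟨fun r => (F (flat (degs d) r) : ℝ) * c (unflat d (flat (degs d) r)) / 2 ^ R.sh,
    ⟨f, hYeq, hf2, fun r hr => ?_⟩, fun p => ?_, fun a top ha hface r hr hon => ?_⟩
  · set o := flat (degs d) r
    have hlo := hlo o (flat_lt hr)
    have hz : (v o : ℝ) = F o * c (unflat d o) + R.O * R.mult := by exact_mod_cast hvz o
    have hC' : (R.O : ℝ) * R.mult = R.C * 2 ^ R.sh + D := by exact_mod_cast hCD
    have hp : (0 : ℝ) < 2 ^ R.sh := by positivity
    have e : ((v o - D : ℕ) : ℝ) = 2 ^ R.sh * ((F o : ℝ) * c (unflat d o) / 2 ^ R.sh + R.C) := by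
      rw [Nat.cast_sub hlo, hz, mul_add, mul_div_cancel₀ _ hp.ne', hC']
      ring
    obtain ⟨h1, h2⟩ := div_round R.sh e
    simp only [f]
    rw [abs_le]
    push_cast
    constructor <;> linarith
  · simp only [degs, evalB, List.headD_cons, List.tail_cons, dc_eq_sum, zero_add]
    rw [hR, grid]
    simp only [Finset.sum_product, Finset.mul_sum]
    refine Finset.sum_congr rfl fun i hi => Finset.sum_congr rfl fun j hj =>
      Finset.sum_congr rfl fun l hl => Finset.sum_congr rfl fun m hm => ?_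
    simp only [Finset.mem_range, Nat.lt_succ_iff] at hi hj hl hm
    have hu := unflat_flat (inRange_degs hi hj hl hm)
    simp only [degs, List.getD_cons_zero, List.getD_cons_succ] at hu
    simp only [hF, laneFac, hu, RootPar.kappa, RootPar.mult, bern]
    have q : ∀ {L n i : ℕ}, chooseOK L n = true → i ≤ n →
        (n.choose i : ℝ) * ((L / n.choose i : ℕ) : ℝ) = L := fun {L n i} h hi => by
      rw [← Nat.cast_mul, Nat.mul_div_cancel' (chooseOK_dvd h hi)]
    push_cast
    rw [← q c0 hi, ← q c1 hj, ← q c2 hl, ← q c3 hm]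
    ring
  · set dd := (degs d).getD a 0
    set i := if top then dd else 0 with hidef
    have hi : i ≤ dd := by simp only [i]; split <;> omega
    have e := size_split (ds := degs d) (a := a) (by simpa [degs] using ha)
    have hrb := Nat.eq_of_beq_eq_true hface
    have hS : 0 < stride (degs d) a := size_pos _
    rw [← hn, hwide, hones, keep_eq hW hS e hi fun o _ => (hg2 o).trans_lt h2O,
      keep_eq hW hS e hi (f := fun _ => R.O) fun o _ => by omega] at hrb
    have := pk_inj (fun o _ => by split <;> [exact (hg2 o).trans_lt h2O; exact Nat.two_pow_pos _])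
      (fun o _ => by split <;> [omega; exact Nat.two_pow_pos _]) hrb _ (flat_lt hr)
    have hax : axisIdx (stride (degs d) a) dd (flat (degs d) r) = i := by
      rw [axisIdx_flat hr (by simpa [degs] using ha)]
      exact hon
    rw [if_pos hax, if_pos hax] at this
    have := hgz (flat (degs d) r)
    have hz : c (unflat d (flat (degs d) r)) = 0 := by omega
    simp [hz]

end

end Vale.Agent.P098.Cert6.Kron
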