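import Vale.Agent.P098.Check6.Tree
import Vale.Agent.P098.Cert6.RootTensor
import Vale.Agent.P098.Cert6.Entries

/-!
P098, dimension six: the lanes and the faces of the packed roots, apart from the analytic side, so
that checked trees can be built without it.
-/

namespace Vale.Agent.P098.Cert6

open Check6 Kron

noncomputable section

/-- The lanes at the root. -/
def rootCfg (R : RootPar) : Cfg := ⟨R.k, R.C, degs Interior.tensorDeg⟩

/-- Where rows vanish identically: `s = 1`, `u = 0`, and the row of `e` also at `N = 0`. -/
def rootFaces : List Face :=
  [⟨0, true, ⟨true, true, true, true, false, false⟩⟩,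
    ⟨1, false, ⟨true, true, true, true, false, false⟩⟩,
    ⟨3, false, ⟨false, false, true, false, false, false⟩⟩]

end

end Vale.Agent.P098.Cert6
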